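import Vale.Agent.P002.Tangent

/-!
# P002: punctured surfaces with semisimple boundary classes

A point is a tuple of the handle matrices `a_i, b_i` together with, for each puncture, a conjugator
`h_j`; the puncture then carries `h_j D_j h_j⁻¹`.  `InX` is the Zariski closure of the points with
entries in a subring `O` of `ℂ`.
-/

namespace Vale.Agent.P002.Sb

open Matrix Filter Topology
open scoped Matrix.Norms.Operator

/-- The slots: `2 g` handle matrices and one conjugator for each puncture. -/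
abbrev Slot (g s : ℕ) := (Fin g × Bool) ⊕ Fin s

/-- A tuple of matrices indexed by the slots. -/
abbrev PT (g s r : ℕ) (R : Type*) := Slot g s → Matrix (Fin r) (Fin r) R

/-- The matrix entries as variables. -/
abbrev XVar (g s r : ℕ) := Slot g s × Fin r × Fin r

variable {r g s : ℕ}

/-- The handle part. -/
def hd (x : PT g s r ℂ) : Tup g r ℂ := fun k => x (Sum.inl k)

/-- The matrix at a puncture. -/
noncomputable def pun (D : Fin s → Matrix (Fin r) (Fin r) ℂ) (x : PT g s r ℂ) (j : Fin s) :
    Matrix (Fin r) (Fin r) ℂ :=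
  x (Sum.inr j) * D j * adjugate (x (Sum.inr j))

/-- The list of the puncture matrices. -/
noncomputable def punList (D : Fin s → Matrix (Fin r) (Fin r) ℂ) (x : PT g s r ℂ) :
    List (Matrix (Fin r) (Fin r) ℂ) :=
  List.ofFn (pun D x)

/-- The product of the punctures before position `j`. -/
noncomputable def cpre (D : Fin s → Matrix (Fin r) (Fin r) ℂ) (j : ℕ) (x : PT g s r ℂ) :
    Matrix (Fin r) (Fin r) ℂ :=
  ((punList D x).take j).prod

/-- The product of all the punctures. -/
noncomputable def prodC (D : Fin s → Matrix (Fin r) (Fin r) ℂ) (x : PT g s r ℂ) :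
    Matrix (Fin r) (Fin r) ℂ :=
  (punList D x).prod

/-- The relator. -/
noncomputable def relX (D : Fin s → Matrix (Fin r) (Fin r) ℂ) (x : PT g s r ℂ) :
    Matrix (Fin r) (Fin r) ℂ :=
  rel adjugate (hd x) * prodC D x

/-- Determinants one and the relation. -/
def IsX (D : Fin s → Matrix (Fin r) (Fin r) ℂ) (x : PT g s r ℂ) : Prop :=
  (∀ k, (x k).det = 1) ∧ relX D x = 1

/-- Matrices with entries in a subring. -/
def MatR (O : Subring ℂ) (r : ℕ) : Subring (Matrix (Fin r) (Fin r) ℂ) :=
  (O.subtype.mapMatrix (m := Fin r)).range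

theorem mem_MatR {O : Subring ℂ} {M : Matrix (Fin r) (Fin r) ℂ} :
    M ∈ MatR O r ↔ ∀ a b, M a b ∈ O := by
  constructor
  · rintro ⟨N, rfl⟩ a b
    exact (N a b).2
  · exact fun h => ⟨Matrix.of fun a b => ⟨M a b, h a b⟩, by ext a b; rfl⟩

theorem adjugate_mem_MatR {O : Subring ℂ} {M : Matrix (Fin r) (Fin r) ℂ} (h : M ∈ MatR O r) :
    adjugate M ∈ MatR O r := by
  obtain ⟨N, rfl⟩ := h
  exact ⟨adjugate N, RingHom.map_adjugate _ _⟩

/-- An integral point. -/
def IntX (D : Fin s → Matrix (Fin r) (Fin r) ℂ) (O : Subring ℂ) (x : PT g s r ℂ) : Prop :=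
  IsX D x ∧ ∀ k, x k ∈ MatR O r

/-- The entries. -/
def xcoord {R : Type*} (x : PT g s r R) : XVar g s r → R := fun v => x v.1 v.2.1 v.2.2

/-- `f` vanishes at the integral points. -/
def VanX (D : Fin s → Matrix (Fin r) (Fin r) ℂ) (O : Subring ℂ)
    (f : MvPolynomial (XVar g s r) ℂ) : Prop :=
  ∀ x, IntX D O x → MvPolynomial.eval (xcoord x) f = 0

/-- The Zariski closure of the integral points. -/
def InX (D : Fin s → Matrix (Fin r) (Fin r) ℂ) (O : Subring ℂ) (x : PT g s r ℂ) : Prop :=
  ∀ f, VanX D O f → MvPolynomial.eval (xcoord x) f = 0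

/-- A matrix valued polynomial function. -/
def PolyMat (F : PT g s r ℂ → Matrix (Fin r) (Fin r) ℂ) : Prop :=
  ∃ T : Matrix (Fin r) (Fin r) (MvPolynomial (XVar g s r) ℂ),
    ∀ x, (MvPolynomial.eval (xcoord x)).mapMatrix T = F x

theorem polyMat_proj (k : Slot g s) : PolyMat fun x : PT g s r ℂ => x k :=
  ⟨Matrix.of fun a b => MvPolynomial.X (k, a, b), fun x => by ext a b; simp [xcoord]⟩

theorem polyMat_const (M : Matrix (Fin r) (Fin r) ℂ) : PolyMat fun _ : PT g s r ℂ => M :=
  ⟨(MvPolynomial.C : ℂ →+* _).mapMatrix M, fun x => mapMatrix_adjoin_C _ M⟩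

theorem PolyMat.mul {F G : PT g s r ℂ → Matrix (Fin r) (Fin r) ℂ} (hF : PolyMat F)
    (hG : PolyMat G) : PolyMat fun x => F x * G x := by
  obtain ⟨T, hT⟩ := hF
  obtain ⟨U, hU⟩ := hG
  exact ⟨T * U, fun x => by rw [map_mul, hT, hU]⟩

theorem PolyMat.adj {F : PT g s r ℂ → Matrix (Fin r) (Fin r) ℂ} (hF : PolyMat F) :
    PolyMat fun x => adjugate (F x) := by
  obtain ⟨T, hT⟩ := hF
  exact ⟨adjugate T, fun x => by rw [RingHom.map_adjugate, hT]⟩

theorem PolyMat.pow {F : PT g s r ℂ → Matrix (Fin r) (Fin r) ℂ} (hF : PolyMat F) (n : ℕ) :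
    PolyMat fun x => F x ^ n := by
  obtain ⟨T, hT⟩ := hF
  exact ⟨T ^ n, fun x => by rw [map_pow, hT]⟩

theorem polyMat_list_prod : ∀ (l : List (PT g s r ℂ → Matrix (Fin r) (Fin r) ℂ)),
    (∀ F ∈ l, PolyMat F) → PolyMat fun x => (l.map fun F => F x).prod
  | [], _ => by simpa using polyMat_const (g := g) (s := s) (1 : Matrix (Fin r) (Fin r) ℂ)
  | F :: l, h => by
    simpa using (h F (by simp)).mul (polyMat_list_prod l fun G hG => h G (by simp [hG]))

theorem eval_bind {τ : Type*} {T : XVar g s r → MvPolynomial τ ℂ} {z : τ → ℂ} {x : PT g s r ℂ}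
    (h : ∀ k a b, MvPolynomial.eval z (T (k, a, b)) = x k a b)
    (f : MvPolynomial (XVar g s r) ℂ) :
    MvPolynomial.eval z (MvPolynomial.bind₁ T f) = MvPolynomial.eval (xcoord x) f := by
  change MvPolynomial.eval₂Hom (RingHom.id ℂ) z _ = MvPolynomial.eval₂Hom _ _ f
  rw [MvPolynomial.eval₂Hom_bind₁]
  congr 2
  funext v
  exact h v.1 v.2.1 v.2.2

variable {D : Fin s → Matrix (Fin r) (Fin r) ℂ} {O : Subring ℂ}

/-- `T` pulls the ideal of the integral points back into itself. -/
def PullX (D : Fin s → Matrix (Fin r) (Fin r) ℂ) (O : Subring ℂ) (T : PT g s r ℂ → PT g s r ℂ) :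
    Prop :=
  ∀ f, VanX D O f → ∃ f', VanX D O f' ∧
    ∀ x, MvPolynomial.eval (xcoord x) f' = MvPolynomial.eval (xcoord (T x)) f

theorem PullX.inX {T : PT g s r ℂ → PT g s r ℂ} (hT : PullX D O T) {x : PT g s r ℂ}
    (h : InX D O x) : InX D O (T x) := by
  intro f hf
  obtain ⟨f', hf', he⟩ := hT f hf
  rw [← he]; exact h f' hf'

theorem PullX.comp {S T : PT g s r ℂ → PT g s r ℂ} (hS : PullX D O S) (hT : PullX D O T) :
    PullX D O (S ∘ T) := by
  intro f hf
  obtain ⟨f', hf', he⟩ := hS f hf
  obtain ⟨f'', hf'', he'⟩ := hT f' hf'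
  exact ⟨f'', hf'', fun x => by rw [he', he]; rfl⟩

theorem pullX_id : PullX D O (id : PT g s r ℂ → PT g s r ℂ) := fun f hf => ⟨f, hf, fun _ => rfl⟩

theorem pullX_of {T : PT g s r ℂ → PT g s r ℂ} (h1 : ∀ k, PolyMat fun x => T x k)
    (h2 : ∀ x, IntX D O x → IntX D O (T x)) : PullX D O T := by
  choose TP hTP using h1
  intro f hf
  refine ⟨MvPolynomial.bind₁ (fun v => TP v.1 v.2.1 v.2.2) f, fun x hx => ?_, fun x => ?_⟩
  · rw [eval_bind (x := T x) (fun k a b => by exact congrFun (congrFun (hTP k x) a) b)]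
    exact hf _ (h2 x hx)
  · exact eval_bind (fun k a b => by exact congrFun (congrFun (hTP k x) a) b) f

theorem isClosed_inX : IsClosed {x : PT g s r ℂ | InX D O x} := by
  simp only [InX, Set.setOf_forall]
  refine isClosed_iInter fun f => isClosed_iInter fun _ => isClosed_eq ?_ continuous_const
  exact (MvPolynomial.continuous_eval f).comp
    (continuous_pi fun v => (continuous_apply v.2.2).comp
      ((continuous_apply v.2.1).comp (continuous_apply v.1)))

theorem inX_of_near {x : PT g s r ℂ} (h : ∀ N ∈ 𝓝 x, ∃ y ∈ N, InX D O y) : InX D O x := by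
  have : x ∈ closure {x : PT g s r ℂ | InX D O x} := mem_closure_iff_nhds.2 fun N hN => by
    obtain ⟨y, hy, hV⟩ := h N hN
    exact ⟨y, hy, hV⟩
  rwa [isClosed_inX.closure_eq] at this

theorem det_pun (hD : ∀ j, (D j).det = 1) {x : PT g s r ℂ} (hx : ∀ k, (x k).det = 1) (j : Fin s) :
    (pun D x j).det = 1 := by
  simp [pun, det_adjugate, hD, hx]

theorem det_list_prod : ∀ (l : List (Matrix (Fin r) (Fin r) ℂ)),
    (∀ M ∈ l, M.det = 1) → l.prod.det = 1
  | [], _ => by simp
  | M :: l, h => by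
    rw [List.prod_cons, det_mul, h M (by simp), det_list_prod l fun N hN => h N (by simp [hN]),
      one_mul]

theorem det_cpre (hD : ∀ j, (D j).det = 1) {x : PT g s r ℂ} (hx : ∀ k, (x k).det = 1) (j : ℕ) :
    (cpre D j x).det = 1 :=
  det_list_prod _ fun M hM => by
    obtain ⟨k, rfl⟩ := List.mem_ofFn.1 (List.mem_of_mem_take hM)
    exact det_pun hD hx k

theorem det_post {σ : Tup g r ℂ} (h : ∀ k, (σ k).det = 1) (n : ℕ) : (post n σ).det = 1 :=
  det_list_prod _ fun M hM => by
    obtain ⟨i, rfl⟩ := List.mem_ofFn.1 (List.mem_of_mem_drop hM)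
    exact det_cm (h _) (h _)

theorem polyMat_pun (j : Fin s) : PolyMat fun x : PT g s r ℂ => pun D x j :=
  ((polyMat_proj _).mul (polyMat_const _)).mul (polyMat_proj _).adj

theorem polyMat_cm (i : Fin g) :
    PolyMat fun x : PT g s r ℂ => cm adjugate (hd x (i, false)) (hd x (i, true)) :=
  (((polyMat_proj _).mul (polyMat_proj _)).mul (polyMat_proj _).adj).mul (polyMat_proj _).adj

theorem polyMat_post (n : ℕ) : PolyMat fun x : PT g s r ℂ => post n (hd x) := by
  have := polyMat_list_prod ((List.ofFn fun k (x : PT g s r ℂ) =>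
      cm adjugate (hd x (k, false)) (hd x (k, true))).drop n)
    fun G hG => by
      obtain ⟨i, rfl⟩ := List.mem_ofFn.1 (List.mem_of_mem_drop hG)
      exact polyMat_cm i
  simpa only [post, cmList, List.map_drop, List.map_ofFn, Function.comp_def] using this

theorem polyMat_cpre (n : ℕ) : PolyMat fun x : PT g s r ℂ => cpre D n x := by
  have := polyMat_list_prod ((List.ofFn fun k (x : PT g s r ℂ) => pun D x k).take n)
    fun G hG => by
      obtain ⟨i, rfl⟩ := List.mem_ofFn.1 (List.mem_of_mem_take hG)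
      exact polyMat_pun i
  simpa only [cpre, punList, List.map_take, List.map_ofFn, Function.comp_def] using this

theorem polyMat_mid (i j : Fin g) : PolyMat fun x : PT g s r ℂ => mid adjugate i j (hd x) := by
  have := polyMat_list_prod (((List.ofFn fun k (x : PT g s r ℂ) =>
      cm adjugate (hd x (k, false)) (hd x (k, true))).take j).drop (i.1 + 1))
    fun G hG => by
      obtain ⟨k, rfl⟩ := List.mem_ofFn.1 (List.mem_of_mem_take (List.mem_of_mem_drop hG))
      exact polyMat_cm k
  simpa only [mid, cmList, List.map_drop, List.map_take, List.map_ofFn, Function.comp_def] using this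

/-- A handle map applied to the handle part. -/
def onHd (T : Tup g r ℂ → Tup g r ℂ) (x : PT g s r ℂ) : PT g s r ℂ :=
  Sum.elim (T (hd x)) fun j => x (Sum.inr j)

theorem hd_onHd (T : Tup g r ℂ → Tup g r ℂ) (x : PT g s r ℂ) : hd (onHd T x) = T (hd x) := rfl

theorem isX_onHd {T : Tup g r ℂ → Tup g r ℂ}
    (hdet : ∀ σ : Tup g r ℂ, (∀ k, (σ k).det = 1) → ∀ k, (T σ k).det = 1)
    (hrel : ∀ σ : Tup g r ℂ, (∀ k, (σ k).det = 1) → rel adjugate (T σ) = rel adjugate σ)
    {x : PT g s r ℂ} (hx : IsX D x) : IsX D (onHd T x) := by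
  refine ⟨fun k => ?_, ?_⟩
  · cases k with
    | inl k => exact hdet _ (fun k => hx.1 _) k
    | inr j => exact hx.1 _
  · show rel adjugate (T (hd x)) * prodC D x = 1
    rw [hrel (hd x) fun k => hx.1 (Sum.inl k)]
    exact hx.2

theorem rel_psiM {i j : Fin g} (hij : i < j) {σ : Tup g r ℂ} (h : ∀ k, (σ k).det = 1) :
    rel adjugate (psiM i j σ) = rel adjugate σ := by
  let σ' : Fin g × Bool → SpecialLinearGroup (Fin r) ℂ := fun k => ⟨σ k, h k⟩
  let c : SpecialLinearGroup (Fin r) ℂ →* Matrix (Fin r) (Fin r) ℂ :=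
    SpecialLinearGroup.coeMonoidHom
  have hc : ∀ x, c x⁻¹ = adjugate (c x) := fun x => rfl
  have h1 := map_slide_psi (fun x : SpecialLinearGroup (Fin r) ℂ => x⁻¹) adjugate c hc i j σ'
  have h2 := congrArg c (rel_slide _ psiQ_comm i j hij σ')
  rw [map_rel _ adjugate c hc, map_rel _ adjugate c hc, h1] at h2
  exact h2

theorem det_phiM {i j : Fin g} {σ : Tup g r ℂ} (h : ∀ k, (σ k).det = 1) :
    ∀ k, (phiM i j σ k).det = 1 := by
  let σ' : Fin g × Bool → SpecialLinearGroup (Fin r) ℂ := fun k => ⟨σ k, h k⟩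
  let c : SpecialLinearGroup (Fin r) ℂ →* Matrix (Fin r) (Fin r) ℂ :=
    SpecialLinearGroup.coeMonoidHom
  have hc : ∀ x, c x⁻¹ = adjugate (c x) := fun x => rfl
  intro k
  have h1 := congrFun
    (map_slide_phi (fun x : SpecialLinearGroup (Fin r) ℂ => x⁻¹) adjugate c hc i j σ') k
  change _ = phiM i j σ k at h1
  rw [← h1]
  exact (slide _ _ i j σ' k).2

theorem rel_phiM {i j : Fin g} (hij : i < j) {σ : Tup g r ℂ} (h : ∀ k, (σ k).det = 1) :
    rel adjugate (phiM i j σ) = rel adjugate σ := by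
  let σ' : Fin g × Bool → SpecialLinearGroup (Fin r) ℂ := fun k => ⟨σ k, h k⟩
  let c : SpecialLinearGroup (Fin r) ℂ →* Matrix (Fin r) (Fin r) ℂ :=
    SpecialLinearGroup.coeMonoidHom
  have hc : ∀ x, c x⁻¹ = adjugate (c x) := fun x => rfl
  have h1 := map_slide_phi (fun x : SpecialLinearGroup (Fin r) ℂ => x⁻¹) adjugate c hc i j σ'
  have h2 := congrArg c (rel_slide _ phiQ_comm i j hij σ')
  rw [map_rel _ adjugate c hc, map_rel _ adjugate c hc, h1] at h2
  exact h2

/-- The slide `ψ`. -/
def psiX (i j : Fin g) : PT g s r ℂ → PT g s r ℂ := onHd (psiM i j)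

/-- The slide `φ`. -/
def phiX (i j : Fin g) : PT g s r ℂ → PT g s r ℂ := onHd (phiM i j)

theorem polyMat_slide {i j : Fin g}
    {Q : Matrix (Fin r) (Fin r) ℂ × Matrix (Fin r) (Fin r) ℂ × Matrix (Fin r) (Fin r) ℂ ×
      Matrix (Fin r) (Fin r) ℂ → Matrix (Fin r) (Fin r) ℂ × Matrix (Fin r) (Fin r) ℂ ×
      Matrix (Fin r) (Fin r) ℂ × Matrix (Fin r) (Fin r) ℂ}
    (hQ : ∀ F1 F2 F3 F4 : PT g s r ℂ → Matrix (Fin r) (Fin r) ℂ, PolyMat F1 → PolyMat F2 →
      PolyMat F3 → PolyMat F4 →
        PolyMat (fun x => (Q (F1 x, F2 x, F3 x, F4 x)).1) ∧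
        PolyMat (fun x => (Q (F1 x, F2 x, F3 x, F4 x)).2.1) ∧
        PolyMat (fun x => (Q (F1 x, F2 x, F3 x, F4 x)).2.2.1) ∧
        PolyMat (fun x => (Q (F1 x, F2 x, F3 x, F4 x)).2.2.2)) (k : Slot g s) :
    PolyMat fun x : PT g s r ℂ => onHd (slide adjugate Q i j) x k := by
  cases k with
  | inr j => exact polyMat_proj _
  | inl k =>
    have hm : PolyMat fun x : PT g s r ℂ => mid adjugate i j (hd x) := polyMat_mid i j
    obtain ⟨q1, q2, q3, q4⟩ := hQ _ _ _ _ (polyMat_proj (Sum.inl (i, false)))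
      (polyMat_proj (Sum.inl (i, true))) ((hm.mul (polyMat_proj (Sum.inl (j, false)))).mul hm.adj)
      ((hm.mul (polyMat_proj (Sum.inl (j, true)))).mul hm.adj)
    obtain ⟨k, c⟩ := k
    show PolyMat fun x => slide adjugate Q i j (hd x) (k, c)
    by_cases h1 : k = i
    · cases c <;> simp only [slide, h1, if_true, cond_false, cond_true]
      · exact q1
      · exact q2
    · by_cases h2 : k = j
      · cases c <;>
          simp only [slide, h2, (h2 ▸ h1 : j ≠ i), if_true, if_false, cond_false, cond_true]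
        · exact (hm.adj.mul q3).mul hm
        · exact (hm.adj.mul q4).mul hm
      · simp only [slide, h1, h2, if_false]
        exact polyMat_proj _

theorem mem_mid {x : PT g s r ℂ} (hx : ∀ k, x k ∈ MatR O r) (i j : Fin g) :
    mid adjugate i j (hd x) ∈ MatR O r := by
  refine list_prod_mem fun M hM => ?_
  obtain ⟨k, rfl⟩ := List.mem_ofFn.1 (List.mem_of_mem_take (List.mem_of_mem_drop hM))
  exact mul_mem (mul_mem (mul_mem (hx _) (hx _)) (adjugate_mem_MatR (hx _)))
    (adjugate_mem_MatR (hx _))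

theorem pullX_psiX {i j : Fin g} (hij : i < j) : PullX D O (psiX (s := s) (r := r) i j) := by
  refine pullX_of (fun k => polyMat_slide (fun F1 F2 F3 F4 h1 h2 h3 h4 =>
    ⟨h1.mul h3, (h3.adj.mul h2).mul h3, (((h3.adj.mul h2).mul h3).mul h2.adj).mul h3,
      h4.mul ((h3.adj.mul h2.adj).mul h3)⟩) k)
    fun x hx => ⟨isX_onHd (fun σ h => det_psiM h) (fun σ h => rel_psiM hij h) hx.1, fun k => ?_⟩
  cases k with
  | inr j => exact hx.2 _
  | inl k =>
    have hm := mem_mid hx.2 i j
    have ha := hx.2 (Sum.inl (i, false))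
    have hb := hx.2 (Sum.inl (i, true))
    have hc := mul_mem (mul_mem hm (hx.2 (Sum.inl (j, false)))) (adjugate_mem_MatR hm)
    have hd' := mul_mem (mul_mem hm (hx.2 (Sum.inl (j, true)))) (adjugate_mem_MatR hm)
    show psiM i j (hd x) k ∈ MatR O r
    simp only [psiM, slide]
    split_ifs
    · cases k.2
      · exact mul_mem ha hc
      · exact mul_mem (mul_mem (adjugate_mem_MatR hc) hb) hc
    · refine mul_mem (mul_mem (adjugate_mem_MatR hm) ?_) hm
      cases k.2
      · exact mul_mem (mul_mem (mul_mem (mul_mem (adjugate_mem_MatR hc) hb) hc)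
          (adjugate_mem_MatR hb)) hc
      · exact mul_mem hd' (mul_mem (mul_mem (adjugate_mem_MatR hc) (adjugate_mem_MatR hb)) hc)
    · exact hx.2 _

theorem pullX_phiX {i j : Fin g} (hij : i < j) : PullX D O (phiX (s := s) (r := r) i j) := by
  refine pullX_of (fun k => polyMat_slide (fun F1 F2 F3 F4 h1 h2 h3 h4 =>
    ⟨h1.mul ((h2.adj.mul h3.adj).mul h2), (((h2.adj.mul h3).mul h2).mul h3.adj).mul h2,
      (h2.adj.mul h3).mul h2, h4.mul h2⟩) k)
    fun x hx => ⟨isX_onHd (fun σ h => det_phiM h) (fun σ h => rel_phiM hij h) hx.1, fun k => ?_⟩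
  cases k with
  | inr j => exact hx.2 _
  | inl k =>
    have hm := mem_mid hx.2 i j
    have ha := hx.2 (Sum.inl (i, false))
    have hb := hx.2 (Sum.inl (i, true))
    have hc := mul_mem (mul_mem hm (hx.2 (Sum.inl (j, false)))) (adjugate_mem_MatR hm)
    have hd' := mul_mem (mul_mem hm (hx.2 (Sum.inl (j, true)))) (adjugate_mem_MatR hm)
    show phiM i j (hd x) k ∈ MatR O r
    simp only [phiM, slide]
    split_ifs
    · cases k.2
      · exact mul_mem ha (mul_mem (mul_mem (adjugate_mem_MatR hb) (adjugate_mem_MatR hc)) hb)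
      · exact mul_mem (mul_mem (mul_mem (mul_mem (adjugate_mem_MatR hb) hc) hb)
          (adjugate_mem_MatR hc)) hb
    · refine mul_mem (mul_mem (adjugate_mem_MatR hm) ?_) hm
      cases k.2
      · exact mul_mem (mul_mem (adjugate_mem_MatR hb) hc) hb
      · exact mul_mem hd' hb
    · exact hx.2 _

theorem hd_psiX (i j : Fin g) (x : PT g s r ℂ) : hd (psiX i j x) = psiM i j (hd x) := rfl

theorem phiX_psiX {i j : Fin g} (hij : i < j) {x : PT g s r ℂ} (h : ∀ k, (x k).det = 1) :
    phiX i j (psiX i j x) = x := by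
  funext k
  cases k with
  | inr l => rfl
  | inl k => exact congrFun (phiM_psiM hij fun k => h (Sum.inl k)) k

/-- `a_i ↦ a_i b_i`. -/
def twA (i : Fin g) (σ : Tup g r ℂ) : Tup g r ℂ :=
  Function.update σ (i, false) (σ (i, false) * σ (i, true))

/-- `a_i ↦ a_i b_i⁻¹`. -/
def twA' (i : Fin g) (σ : Tup g r ℂ) : Tup g r ℂ :=
  Function.update σ (i, false) (σ (i, false) * adjugate (σ (i, true)))

/-- `b_i ↦ b_i a_i⁻¹`. -/
def twB' (i : Fin g) (σ : Tup g r ℂ) : Tup g r ℂ :=
  Function.update σ (i, true) (σ (i, true) * adjugate (σ (i, false)))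

theorem adjugate_adjugate_of_det {M : Matrix (Fin r) (Fin r) ℂ} (h : M.det = 1) :
    adjugate (adjugate M) = M := by
  have := mul_adj_cancel (show (adjugate M).det = 1 by simp [det_adjugate, h])
  calc adjugate (adjugate M) = M * adjugate M * adjugate (adjugate M) := by
        rw [(mul_adj_cancel h).1, one_mul]
    _ = M := by rw [mul_assoc, this.1, mul_one]

theorem rel_twA {σ : Tup g r ℂ} (h : ∀ k, (σ k).det = 1) (i : Fin g) :
    rel adjugate (twA i σ) = rel adjugate σ ∧ rel adjugate (twA' i σ) = rel adjugate σ ∧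
      rel adjugate (twB' i σ) = rel adjugate σ := by
  obtain ⟨a1, a2⟩ := mul_adj_cancel (h (i, false))
  obtain ⟨b1, b2⟩ := mul_adj_cancel (h (i, true))
  have hne : ((i, true) : Fin g × Bool) ≠ (i, false) := by simp
  refine ⟨rel_congr' fun k => ?_, rel_congr' fun k => ?_, rel_congr' fun k => ?_⟩
  all_goals by_cases hk : k = i
  all_goals first
    | subst hk
      simp only [twA, twA', twB', Function.update_self, Function.update_of_ne hne,
        Function.update_of_ne hne.symm, cm, adjugate_mul_distrib,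
        adjugate_adjugate_of_det (h (k, true)), adjugate_adjugate_of_det (h (k, false))]
    | simp [twA, twA', twB', Function.update_apply, hk]
  · simp only [mul_assoc]
    rw [← mul_assoc (σ (k, true)) (adjugate (σ (k, true))), b1, one_mul]
  · simp only [mul_assoc]
    rw [← mul_assoc (adjugate (σ (k, true))) (σ (k, true)), b2, one_mul]
  · simp only [mul_assoc]
    rw [← mul_assoc (adjugate (σ (k, false))) (σ (k, false)), a2, one_mul]
where
  rel_congr' {σ τ : Tup g r ℂ} (h : ∀ i,
      cm adjugate (σ (i, false)) (σ (i, true)) = cm adjugate (τ (i, false)) (τ (i, true))) :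
      rel adjugate σ = rel adjugate τ := by
    simp only [rel, cmList, funext h]

/-- `a_i ↦ a_i b_i`. -/
def twX (i : Fin g) : PT g s r ℂ → PT g s r ℂ := onHd (twA i)

/-- `a_i ↦ a_i b_i⁻¹`. -/
def twX' (i : Fin g) : PT g s r ℂ → PT g s r ℂ := onHd (twA' i)

/-- `b_i ↦ b_i a_i⁻¹`. -/
def tbX' (i : Fin g) : PT g s r ℂ → PT g s r ℂ := onHd (twB' i)

/-- `b_i ↦ b_i a_i ^ n`. -/
def tbX (i : Fin g) (n : ℕ) : PT g s r ℂ → PT g s r ℂ := onHd (twist i n)

theorem rel_twist_M {σ : Tup g r ℂ} (h : ∀ k, (σ k).det = 1) (i : Fin g) (n : ℕ) :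
    rel adjugate (twist i n σ) = rel adjugate σ := by
  let σ' : Fin g × Bool → SpecialLinearGroup (Fin r) ℂ := fun k => ⟨σ k, h k⟩
  let c : SpecialLinearGroup (Fin r) ℂ →* Matrix (Fin r) (Fin r) ℂ :=
    SpecialLinearGroup.coeMonoidHom
  have hc : ∀ x, c x⁻¹ = adjugate (c x) := fun x => rfl
  have h2 := congrArg c (rel_twist i n σ')
  rw [map_rel _ adjugate c hc, map_rel _ adjugate c hc, map_twist c i n σ'] at h2
  exact h2

theorem pullX_update (i : Fin g) (c : Bool)
    (F : Matrix (Fin r) (Fin r) ℂ → Matrix (Fin r) (Fin r) ℂ → Matrix (Fin r) (Fin r) ℂ)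
    (hP : PolyMat fun x : PT g s r ℂ => F (x (Sum.inl (i, false))) (x (Sum.inl (i, true))))
    (hmem : ∀ A B, A ∈ MatR O r → B ∈ MatR O r → F A B ∈ MatR O r)
    (hdet : ∀ A B : Matrix (Fin r) (Fin r) ℂ, A.det = 1 → B.det = 1 → (F A B).det = 1)
    (hrel : ∀ σ : Tup g r ℂ, (∀ k, (σ k).det = 1) →
      rel adjugate (Function.update σ (i, c) (F (σ (i, false)) (σ (i, true)))) = rel adjugate σ) :
    PullX D O (onHd (s := s) fun σ => Function.update σ (i, c) (F (σ (i, false)) (σ (i, true)))) := by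
  refine pullX_of (fun k => ?_) fun x hx => ⟨isX_onHd (fun σ h k => ?_) hrel hx.1, fun k => ?_⟩
  · cases k with
    | inr j => exact polyMat_proj _
    | inl k =>
      by_cases hk : k = (i, c)
      · subst hk; simpa [onHd, hd] using hP
      · simpa [onHd, hd, Function.update_of_ne hk] using polyMat_proj (Sum.inl k)
  · by_cases hk : k = (i, c)
    · subst hk; simpa using hdet _ _ (h _) (h _)
    · simpa [Function.update_of_ne hk] using h k
  · cases k with
    | inr j => exact hx.2 _
    | inl k =>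
      by_cases hk : k = (i, c)
      · subst hk; simpa [onHd, hd] using hmem _ _ (hx.2 _) (hx.2 _)
      · simpa [onHd, hd, Function.update_of_ne hk] using hx.2 (Sum.inl k)

theorem pullX_twX (i : Fin g) : PullX D O (twX (s := s) (r := r) i) :=
  pullX_update i false (fun A B => A * B) ((polyMat_proj _).mul (polyMat_proj _))
    (fun _ _ hA hB => mul_mem hA hB) (fun A B hA hB => by rw [det_mul, hA, hB, one_mul])
    fun σ h => (rel_twA h i).1

theorem pullX_twX' (i : Fin g) : PullX D O (twX' (s := s) (r := r) i) :=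
  pullX_update i false (fun A B => A * adjugate B) ((polyMat_proj _).mul (polyMat_proj _).adj)
    (fun _ _ hA hB => mul_mem hA (adjugate_mem_MatR hB))
    (fun A B hA hB => by simp [det_adjugate, hA, hB]) fun σ h => (rel_twA h i).2.1

theorem pullX_tbX' (i : Fin g) : PullX D O (tbX' (s := s) (r := r) i) :=
  pullX_update i true (fun A B => B * adjugate A) ((polyMat_proj _).mul (polyMat_proj _).adj)
    (fun _ _ hA hB => mul_mem hB (adjugate_mem_MatR hA))
    (fun A B hA hB => by simp [det_adjugate, hA, hB]) fun σ h => (rel_twA h i).2.2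

theorem pullX_tbX (i : Fin g) (n : ℕ) : PullX D O (tbX (s := s) (r := r) i n) :=
  pullX_update i true (fun A B => B * A ^ n) ((polyMat_proj _).mul ((polyMat_proj _).pow n))
    (fun _ _ hA hB => mul_mem hB (pow_mem hA n))
    (fun A B hA hB => by simp [hA, hB]) fun σ h => rel_twist_M h i n

section push

/-- The segment between handle `i` and puncture `j`. -/
noncomputable def segM (D : Fin s → Matrix (Fin r) (Fin r) ℂ) (i : Fin g) (j : Fin s)
    (x : PT g s r ℂ) : Matrix (Fin r) (Fin r) ℂ :=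
  post (i.1 + 1) (hd x) * cpre D j.1 x

/-- The puncture `j` carried next to the handle `i`. -/
noncomputable def segC (D : Fin s → Matrix (Fin r) (Fin r) ℂ) (i : Fin g) (j : Fin s)
    (x : PT g s r ℂ) : Matrix (Fin r) (Fin r) ℂ :=
  segM D i j x * pun D x j * adjugate (segM D i j x)

/-- Push the puncture `j` around the band of `a_i`. -/
noncomputable def push (D : Fin s → Matrix (Fin r) (Fin r) ℂ) (i : Fin g) (j : Fin s)
    (x : PT g s r ℂ) : PT g s r ℂ :=
  let C := segC D i j x
  let b := x (Sum.inl (i, true))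
  Function.update (Function.update (Function.update x (Sum.inl (i, false))
    (x (Sum.inl (i, false)) * C)) (Sum.inl (i, true)) (adjugate C * b * C)) (Sum.inr j)
    (adjugate (segM D i j x) * (adjugate C * b) * segM D i j x * x (Sum.inr j) * D j)

/-- The inverse of `push`. -/
noncomputable def pushInv (D : Fin s → Matrix (Fin r) (Fin r) ℂ) (i : Fin g) (j : Fin s)
    (x : PT g s r ℂ) : PT g s r ℂ :=
  let C := segC D i j x
  let b := x (Sum.inl (i, true))
  Function.update (Function.update (Function.update x (Sum.inl (i, false))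
    (x (Sum.inl (i, false)) * (adjugate b * adjugate C * b))) (Sum.inl (i, true))
    (adjugate b * C * b * adjugate C * b)) (Sum.inr j)
    (adjugate (segM D i j x) * (adjugate b * C) * segM D i j x * x (Sum.inr j) * adjugate (D j))

/-- Changes confined to the handle `i` and the puncture `j` keep the segment. -/
theorem segM_congr {i : Fin g} {j : Fin s} {x y : PT g s r ℂ}
    (h : ∀ k, (∀ c, k ≠ Sum.inl (i, c)) → k ≠ Sum.inr j → y k = x k) :
    segM D i j y = segM D i j x := by
  unfold segM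
  congr 1
  · refine post_congr _ fun k hk c => h _ (fun c' e => ?_) (by simp)
    have := congrArg Prod.fst (Sum.inl_injective e)
    simp only at this
    subst this
    omega
  · simp only [cpre]
    congr 1
    apply List.ext_getElem
    · simp [punList]
    · intro n h1 h2
      simp only [List.length_take, punList, List.length_ofFn] at h1
      simp only [List.getElem_take, punList, List.getElem_ofFn, pun]
      rw [h (Sum.inr ⟨n, by omega⟩) (fun c => by simp) (fun e => by
        have := congrArg Fin.val (Sum.inr_injective e)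
        simp only at this
        omega)]

theorem isX_push_pair (hD : ∀ j, (D j).det = 1) {i : Fin g} {j : Fin s} {x y : PT g s r ℂ}
    (hx : IsX D x) (hy : ∀ k, (y k).det = 1)
    (h : ∀ k, (∀ c, k ≠ Sum.inl (i, c)) → k ≠ Sum.inr j → y k = x k)
    (he : cm adjugate (y (Sum.inl (i, false))) (y (Sum.inl (i, true))) *
      (segM D i j x * pun D y j) =
      cm adjugate (x (Sum.inl (i, false))) (x (Sum.inl (i, true))) *
        (segM D i j x * pun D x j)) : IsX D y := by
  refine ⟨hy, ?_⟩
  have key : ∀ z : PT g s r ℂ, relX D z = pre i.1 (hd z) *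
      (cm adjugate (z (Sum.inl (i, false))) (z (Sum.inl (i, true))) *
        (segM D i j z * pun D z j)) * ((punList D z).drop (j.1 + 1)).prod := by
    intro z
    have hj : j.1 < (punList D z).length := by simp [punList]
    have hsplit : prodC D z = cpre D j.1 z * pun D z j * ((punList D z).drop (j.1 + 1)).prod := by
      unfold prodC cpre
      rw [← List.prod_take_mul_prod_drop (punList D z) (j.1 + 1), List.prod_take_succ _ _ hj]
      simp [punList]
    rw [relX, rel_split (hd z) i, hsplit, segM]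
    simp only [hd, mul_assoc]
  have e1 : pre i.1 (hd y) = pre i.1 (hd x) := pre_congr _ fun k hk c => h _ (fun c' e => by
    have := congrArg Prod.fst (Sum.inl_injective e)
    simp only at this
    subst this
    omega) (by simp)
  have e2 : ((punList D y).drop (j.1 + 1)).prod = ((punList D x).drop (j.1 + 1)).prod := by
    congr 1
    apply List.ext_getElem
    · simp [punList]
    · intro n h1 h2
      simp only [List.length_drop, punList, List.length_ofFn] at h1
      simp only [List.getElem_drop, punList, List.getElem_ofFn, pun]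
      rw [h (Sum.inr ⟨j.1 + 1 + n, by omega⟩) (fun c => by simp) (fun e => by
        have := congrArg Fin.val (Sum.inr_injective e)
        simp only at this
        omega)]
  rw [key y, segM_congr h, he, e1, e2, ← key x]
  exact hx.2

theorem det_segM (hD : ∀ j, (D j).det = 1) {x : PT g s r ℂ} (hx : ∀ k, (x k).det = 1) (i : Fin g)
    (j : Fin s) : (segM D i j x).det = 1 := by
  rw [segM, det_mul, det_post (σ := hd x) (fun k => hx (Sum.inl k)), det_cpre hD hx, one_mul]

theorem det_push (hD : ∀ j, (D j).det = 1) {x : PT g s r ℂ} (hx : ∀ k, (x k).det = 1) (i : Fin g)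
    (j : Fin s) : (∀ k, (push D i j x k).det = 1) ∧ ∀ k, (pushInv D i j x k).det = 1 := by
  constructor <;> intro k <;> simp only [push, pushInv, Function.update_apply] <;>
    split_ifs <;>
    simp [segC, det_adjugate, det_segM hD hx, det_pun hD hx, hD, hx]

theorem push_spec (hD : ∀ j, (D j).det = 1) (i : Fin g) (j : Fin s) {x : PT g s r ℂ}
    (hx : ∀ k, (x k).det = 1) :
    (IsX D x → IsX D (push D i j x)) ∧ (IsX D x → IsX D (pushInv D i j x)) ∧
      pushInv D i j (push D i j x) = x := by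
  let A : SpecialLinearGroup (Fin r) ℂ := ⟨x (Sum.inl (i, false)), hx _⟩
  let B : SpecialLinearGroup (Fin r) ℂ := ⟨x (Sum.inl (i, true)), hx _⟩
  let H : SpecialLinearGroup (Fin r) ℂ := ⟨x (Sum.inr j), hx _⟩
  let Dj : SpecialLinearGroup (Fin r) ℂ := ⟨D j, hD j⟩
  let m : SpecialLinearGroup (Fin r) ℂ := ⟨segM D i j x, det_segM hD hx i j⟩
  let c : SpecialLinearGroup (Fin r) ℂ := H * Dj * H⁻¹
  let C : SpecialLinearGroup (Fin r) ℂ := m * c * m⁻¹
  let φ : SpecialLinearGroup (Fin r) ℂ →* Matrix (Fin r) (Fin r) ℂ :=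
    SpecialLinearGroup.coeMonoidHom
  have hφ : ∀ z, φ z⁻¹ = adjugate (φ z) := fun z => rfl
  have eA : φ A = x (Sum.inl (i, false)) := rfl
  have eB : φ B = x (Sum.inl (i, true)) := rfl
  have eH : φ H = x (Sum.inr j) := rfl
  have eD : φ Dj = D j := rfl
  have em : φ m = segM D i j x := rfl
  have ec : φ c = pun D x j := rfl
  have eC : φ C = segC D i j x := rfl
  have hne1 : (Sum.inl (i, false) : Slot g s) ≠ Sum.inr j := by simp
  have hne2 : (Sum.inl (i, true) : Slot g s) ≠ Sum.inr j := by simp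
  have hne3 : (Sum.inl (i, false) : Slot g s) ≠ Sum.inl (i, true) := by simp
  have hkeep : ∀ k, (∀ c, k ≠ Sum.inl (i, c)) → k ≠ Sum.inr j →
      push D i j x k = x k ∧ pushInv D i j x k = x k := fun k h1 h2 => by
    simp [push, pushInv, Function.update_apply, h1 false, h1 true, h2]
  refine ⟨fun h => isX_push_pair hD h (det_push hD hx i j).1 (fun k h1 h2 => (hkeep k h1 h2).1) ?_,
    fun h => isX_push_pair hD h (det_push hD hx i j).2 (fun k h1 h2 => (hkeep k h1 h2).2) ?_, ?_⟩
  · have key : (A * C) * (C⁻¹ * B * C) * (A * C)⁻¹ * (C⁻¹ * B * C)⁻¹ *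
        (m * ((m⁻¹ * (C⁻¹ * B) * m * H * Dj) * Dj * (m⁻¹ * (C⁻¹ * B) * m * H * Dj)⁻¹)) =
        A * B * A⁻¹ * B⁻¹ * (m * c) := by
      simp only [C, c]; group
    have := congrArg φ key
    simp only [map_mul, hφ, eC, ec, eA, eB, eH, eD, em] at this
    simpa [push, pun, cm, Function.update_apply, hne1, hne2, hne3] using this
  · have key : (A * (B⁻¹ * C⁻¹ * B)) * (B⁻¹ * C * B * C⁻¹ * B) * (A * (B⁻¹ * C⁻¹ * B))⁻¹ *
        (B⁻¹ * C * B * C⁻¹ * B)⁻¹ *
        (m * ((m⁻¹ * (B⁻¹ * C) * m * H * Dj⁻¹) * Dj * (m⁻¹ * (B⁻¹ * C) * m * H * Dj⁻¹)⁻¹)) =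
        A * B * A⁻¹ * B⁻¹ * (m * c) := by
      simp only [C, c]; group
    have := congrArg φ key
    simp only [map_mul, hφ, eC, ec, eA, eB, eH, eD, em] at this
    simpa [pushInv, pun, cm, Function.update_apply, hne1, hne2, hne3] using this
  · set y := push D i j x with hy
    have hm' : segM D i j y = segM D i j x :=
      segM_congr fun k h1 h2 => (hkeep k h1 h2).1
    let A' : SpecialLinearGroup (Fin r) ℂ := A * C
    let B' : SpecialLinearGroup (Fin r) ℂ := C⁻¹ * B * C
    let H' : SpecialLinearGroup (Fin r) ℂ := m⁻¹ * (C⁻¹ * B) * m * H * Dj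
    let C' : SpecialLinearGroup (Fin r) ℂ := m * (H' * Dj * H'⁻¹) * m⁻¹
    have k1 : A' * (B'⁻¹ * C'⁻¹ * B') = A := by simp only [A', B', C', H', C, c]; group
    have k2 : B'⁻¹ * C' * B' * C'⁻¹ * B' = B := by simp only [B', C', H', C, c]; group
    have k3 : m⁻¹ * (B'⁻¹ * C') * m * H' * Dj⁻¹ = H := by simp only [B', C', H', C, c]; group
    have v1 : y (Sum.inl (i, false)) = φ A' := by
      simp [hy, push, Function.update_apply, hne1, hne3, A', eA, eC]
    have v2 : y (Sum.inl (i, true)) = φ B' := by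
      simp [hy, push, Function.update_apply, hne2, B', eB, eC, hφ]
    have v3 : y (Sum.inr j) = φ H' := by
      simp [hy, push, H', eB, eH, eD, em, eC, hφ]
    have v4 : segC D i j y = φ C' := by
      simp [segC, pun, hm', v3, C', eD, em, hφ]
    funext k
    simp only [pushInv, v1, v2, v3, v4, hm', Function.update_apply, map_mul, hφ, eA, eB, eH, eD, em, eC, A', B', H', C']
    have e1 := congrArg φ k1
    have e2 := congrArg φ k2
    have e3 := congrArg φ k3
    simp only [map_mul, hφ, eA, eB, eH, eD, em, eC, A', B', H', C'] at e1 e2 e3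
    split_ifs with h1 h2 h3
    · subst h1; exact e3
    · subst h2; exact e2
    · subst h3; exact e1
    · exact (hkeep k (fun c => by cases c <;> assumption) h1).1

theorem polyMat_segM (i : Fin g) (j : Fin s) : PolyMat fun x : PT g s r ℂ => segM D i j x :=
  (polyMat_post _).mul (polyMat_cpre _)

theorem mem_segM (hDO : ∀ j, D j ∈ MatR O r) {x : PT g s r ℂ} (hx : ∀ k, x k ∈ MatR O r)
    (i : Fin g) (j : Fin s) : segM D i j x ∈ MatR O r ∧ segC D i j x ∈ MatR O r := by
  have hp : ∀ l, pun D x l ∈ MatR O r := fun l =>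
    mul_mem (mul_mem (hx _) (hDO l)) (adjugate_mem_MatR (hx _))
  have hm : segM D i j x ∈ MatR O r := by
    refine mul_mem (list_prod_mem fun M hM => ?_) (list_prod_mem fun M hM => ?_)
    · obtain ⟨k, rfl⟩ := List.mem_ofFn.1 (List.mem_of_mem_drop hM)
      exact mul_mem (mul_mem (mul_mem (hx _) (hx _)) (adjugate_mem_MatR (hx _)))
        (adjugate_mem_MatR (hx _))
    · obtain ⟨k, rfl⟩ := List.mem_ofFn.1 (List.mem_of_mem_take hM)
      exact hp k
  exact ⟨hm, mul_mem (mul_mem hm (hp j)) (adjugate_mem_MatR hm)⟩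

theorem pullX_push (hD : ∀ j, (D j).det = 1) (hDO : ∀ j, D j ∈ MatR O r) (i : Fin g) (j : Fin s) :
    PullX D O (push D i j) ∧ PullX D O (pushInv D i j) := by
  have hm := polyMat_segM (g := g) (D := D) i j
  have hC : PolyMat fun x : PT g s r ℂ => segC D i j x := (hm.mul (polyMat_pun j)).mul hm.adj
  have ha := polyMat_proj (r := r) (Sum.inl (i, false) : Slot g s)
  have hb := polyMat_proj (r := r) (Sum.inl (i, true) : Slot g s)
  have hh := polyMat_proj (r := r) (Sum.inr j : Slot g s)
  constructor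
  · refine pullX_of (fun k => ?_) fun x hx =>
      ⟨(push_spec hD i j hx.1.1).1 hx.1, fun k => ?_⟩
    · simp only [push, Function.update_apply]
      by_cases h1 : k = Sum.inr j
      · simp only [h1, if_true]
        exact (((hm.adj.mul (hC.adj.mul hb)).mul hm).mul hh).mul (polyMat_const _)
      by_cases h2 : k = Sum.inl (i, true)
      · simp only [h2, reduceCtorEq, if_true, if_false]
        exact (hC.adj.mul hb).mul hC
      by_cases h3 : k = Sum.inl (i, false)
      · simp only [h3, reduceCtorEq, if_true, if_false, Sum.inl.injEq, Prod.mk.injEq, Bool.false_eq_true, and_false]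
        exact ha.mul hC
      simp only [h1, h2, h3, if_false]
      exact polyMat_proj k
    · obtain ⟨m1, m2⟩ := mem_segM hDO hx.2 i j
      simp only [push, Function.update_apply]
      split_ifs
      · exact mul_mem (mul_mem (mul_mem (mul_mem (adjugate_mem_MatR m1)
          (mul_mem (adjugate_mem_MatR m2) (hx.2 _))) m1) (hx.2 _)) (hDO j)
      · exact mul_mem (mul_mem (adjugate_mem_MatR m2) (hx.2 _)) m2
      · exact mul_mem (hx.2 _) m2
      · exact hx.2 _
  · refine pullX_of (fun k => ?_) fun x hx =>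
      ⟨(push_spec hD i j hx.1.1).2.1 hx.1, fun k => ?_⟩
    · simp only [pushInv, Function.update_apply]
      by_cases h1 : k = Sum.inr j
      · simp only [h1, if_true]
        exact (((hm.adj.mul (hb.adj.mul hC)).mul hm).mul hh).mul (polyMat_const _)
      by_cases h2 : k = Sum.inl (i, true)
      · simp only [h2, reduceCtorEq, if_true, if_false]
        exact (((hb.adj.mul hC).mul hb).mul hC.adj).mul hb
      by_cases h3 : k = Sum.inl (i, false)
      · simp only [h3, reduceCtorEq, if_true, if_false, Sum.inl.injEq, Prod.mk.injEq, Bool.false_eq_true, and_false]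
        exact ha.mul ((hb.adj.mul hC.adj).mul hb)
      simp only [h1, h2, h3, if_false]
      exact polyMat_proj k
    · obtain ⟨m1, m2⟩ := mem_segM hDO hx.2 i j
      have b' := adjugate_mem_MatR (hx.2 (Sum.inl (i, true)))
      simp only [pushInv, Function.update_apply]
      split_ifs
      · exact mul_mem (mul_mem (mul_mem (mul_mem (adjugate_mem_MatR m1) (mul_mem b' m2)) m1)
          (hx.2 _)) (adjugate_mem_MatR (hDO j))
      · exact mul_mem (mul_mem (mul_mem (mul_mem b' m2) (hx.2 _)) (adjugate_mem_MatR m2)) (hx.2 _)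
      · exact mul_mem (hx.2 _) (mul_mem (mul_mem b' (adjugate_mem_MatR m2)) (hx.2 _))
      · exact hx.2 _

end push

end Vale.Agent.P002.Sb
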