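import Vale.Agent.P002.Sb.ChartX

/-!
# P002: every punctured point with scalar commutant is in the closure of the integral points

A slice point is moved so that the last handle has a generic spectrum; the chart then spreads the
closure to every point with scalar commutant.
-/

namespace Vale.Agent.P002.Sb

open Matrix Filter Topology
open scoped Matrix.Norms.Operator

set_option backward.isDefEq.respectTransparency false

variable {r g s : ℕ} {L : Fin g} {A B : Matrix (Fin r) (Fin r) ℂ}
  {D : Fin s → Matrix (Fin r) (Fin r) ℂ} {O : Subring ℂ}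

/-- The move applied to a slice point. -/
def moveX (f L : Fin g) (x : PT g s r ℂ) : PT g s r ℂ := twX L (phiX f L (tbX f 1 x))

/-- The inverse move. -/
def moveX' (f L : Fin g) (x : PT g s r ℂ) : PT g s r ℂ := tbX' f (psiX f L (twX' L x))

theorem slide_psi_phi {G : Type*} [Group G] (i j : Fin g) (hij : i < j) (σ : Fin g × Bool → G) :
    slide (fun x : G => x⁻¹) (psiQ (fun x : G => x⁻¹)) i j
      (slide (fun x : G => x⁻¹) (phiQ (fun x : G => x⁻¹)) i j σ) = σ := by
  have hne : j ≠ i := ne_of_gt hij
  have hpq : ∀ q : G × G × G × G, psiQ (fun x : G => x⁻¹) (phiQ (fun x : G => x⁻¹) q) = q := by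
    rintro ⟨a, b, c, d⟩
    simp only [phiQ, psiQ, Prod.mk.injEq]
    refine ⟨?_, ?_, ?_, ?_⟩ <;> group
  have hq : quadAt (fun x : G => x⁻¹) i j (slide (fun x : G => x⁻¹) (phiQ (fun x : G => x⁻¹)) i j σ) =
      phiQ (fun x : G => x⁻¹) (quadAt (fun x : G => x⁻¹) i j σ) := by
    simp only [quadAt, mid_slide]
    simp only [slide, quadAt, hne, if_true, if_false, cond_false, cond_true]
    refine Prod.ext rfl (Prod.ext rfl (Prod.ext ?_ ?_)) <;> (simp only; group)
  funext ⟨k, c⟩
  show slide (fun x : G => x⁻¹) (psiQ (fun x : G => x⁻¹)) i j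
    (slide (fun x : G => x⁻¹) (phiQ (fun x : G => x⁻¹)) i j σ) (k, c) = _
  rw [slide]
  simp only [hq, hpq, mid_slide]
  split_ifs with h1 h2
  · subst h1; cases c <;> rfl
  · subst h2; cases c <;> simp only [quadAt, cond_false, cond_true] <;> group
  · simp [slide, h1, h2]

theorem psiM_phiM {i j : Fin g} (hij : i < j) {σ : Tup g r ℂ} (h : ∀ k, (σ k).det = 1) :
    psiM i j (phiM i j σ) = σ := by
  let σ' : Fin g × Bool → SpecialLinearGroup (Fin r) ℂ := fun k => ⟨σ k, h k⟩
  let c : SpecialLinearGroup (Fin r) ℂ →* Matrix (Fin r) (Fin r) ℂ :=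
    SpecialLinearGroup.coeMonoidHom
  have hc : ∀ x, c x⁻¹ = adjugate (c x) := fun x => rfl
  have h1 := map_slide_phi (fun x : SpecialLinearGroup (Fin r) ℂ => x⁻¹) adjugate c hc i j σ'
  have h2 := map_slide_psi (fun x : SpecialLinearGroup (Fin r) ℂ => x⁻¹) adjugate c hc i j
    (slide (fun x => x⁻¹) (phiQ fun x => x⁻¹) i j σ')
  rw [h1, slide_psi_phi i j hij] at h2
  exact h2.symm

theorem det_twX {x : PT g s r ℂ} (hx : ∀ k, (x k).det = 1) (i : Fin g) :
    (∀ k, (twX i x k).det = 1) ∧ ∀ k, (twX' i x k).det = 1 := by
  constructor <;> rintro (k | j) <;> try exact hx _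
  · simp only [twX, onHd, Sum.elim_inl, twA, Function.update_apply]
    split_ifs <;> simp [hd, hx]
  · simp only [twX', onHd, Sum.elim_inl, twA', Function.update_apply]
    split_ifs <;> simp [hd, hx, det_adjugate]

theorem det_onHd {T : Tup g r ℂ → Tup g r ℂ} (hT : ∀ σ : Tup g r ℂ, (∀ k, (σ k).det = 1) →
    ∀ k, (T σ k).det = 1) {x : PT g s r ℂ} (hx : ∀ k, (x k).det = 1) (k : Slot g s) :
    (onHd T x k).det = 1 := by
  cases k with
  | inl k => exact hT _ (fun k => hx _) k
  | inr j => exact hx _

theorem moveX_moveX' {f L : Fin g} (hfL : f < L) {x : PT g s r ℂ} (hx : ∀ k, (x k).det = 1) :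
    moveX f L (moveX' f L x) = x := by
  have h1 := (det_twX hx L).2
  have h2 : ∀ k, (psiX f L (twX' L x) k).det = 1 := fun k => det_onHd (fun σ h => det_psiM h) h1 k
  have e1 : tbX f 1 (tbX' f (psiX f L (twX' L x))) = psiX f L (twX' L x) := by
    set y := psiX f L (twX' L x)
    obtain ⟨a1, a2⟩ := mul_adj_cancel (h2 (Sum.inl (f, false)))
    funext k
    rcases k with k | j
    · show Vale.Agent.P002.twist f 1 (twB' f (hd y)) k = hd y k
      by_cases hk : k = (f, true)
      · subst hk
        simp only [Vale.Agent.P002.twist, twB', Function.update_self, pow_one, Function.update_of_ne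
          (show ((f, false) : Fin g × Bool) ≠ (f, true) by simp)]
        rw [mul_assoc, show adjugate (hd y (f, false)) * hd y (f, false) = 1 from a2, mul_one]
      · simp [Vale.Agent.P002.twist, twB', hk]
    · rfl
  have e2 : phiX f L (psiX f L (twX' L x)) = twX' L x := phiX_psiX hfL h1
  show twX L (phiX f L (tbX f 1 (tbX' f (psiX f L (twX' L x))))) = x
  rw [e1, e2, (twX_twX' hx L).1]

theorem moveX'_moveX {f L : Fin g} (hfL : f < L) {x : PT g s r ℂ} (hx : ∀ k, (x k).det = 1) :
    moveX' f L (moveX f L x) = x := by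
  have h1 : ∀ k, (tbX f 1 x k).det = 1 := fun k => det_onHd (fun σ h k => by
    by_cases hk : k = (f, true)
    · subst hk; simp [Vale.Agent.P002.twist, h]
    · simp [Vale.Agent.P002.twist, hk, h]) hx k
  have h2 : ∀ k, (phiX f L (tbX f 1 x) k).det = 1 := fun k => det_onHd (fun σ h => det_phiM h) h1 k
  have e1 : psiX f L (phiX f L (tbX f 1 x)) = tbX f 1 x := by
    funext k
    rcases k with k | j
    · show psiM f L (phiM f L (hd (tbX f 1 x))) k = _
      exact congrFun (psiM_phiM hfL fun k => h1 (Sum.inl k)) k
    · rfl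
  show tbX' f (psiX f L (twX' L (twX L (phiX f L (tbX f 1 x))))) = x
  rw [(twX_twX' h2 L).2, e1]
  obtain ⟨a1, a2⟩ := mul_adj_cancel (hx (Sum.inl (f, false)))
  funext k
  rcases k with k | j
  · show twB' f (Vale.Agent.P002.twist f 1 (hd x)) k = hd x k
    by_cases hk : k = (f, true)
    · subst hk
      simp only [Vale.Agent.P002.twist, twB', Function.update_self, pow_one, Function.update_of_ne
        (show ((f, false) : Fin g × Bool) ≠ (f, true) by simp)]
      rw [mul_assoc, show hd x (f, false) * adjugate (hd x (f, false)) = 1 from a1, mul_one]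
    · simp [Vale.Agent.P002.twist, twB', hk]
  · rfl

theorem pullX_moveX {f L : Fin g} (hfL : f < L) :
    PullX D O (moveX (s := s) (r := r) f L) ∧ PullX D O (moveX' (s := s) (r := r) f L) :=
  ⟨(pullX_twX L).comp ((pullX_phiX hfL).comp (pullX_tbX f 1)),
    (pullX_tbX' f).comp ((pullX_psiX hfL).comp (pullX_twX' L))⟩

theorem contDiff_moveX' (f L : Fin g) :
    ContDiff ℂ 1 (moveX' (s := s) (r := r) f L) := by
  have h1 := (contDiff_twX (contDiff_id : ContDiff ℂ 1 (id : PT g s r ℂ → PT g s r ℂ)) L).2
  have h2 := (contDiff_phiX h1 f L).1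
  refine contDiff_onHd (contDiff_pi.2 fun k => ?_) h2
  have h := contDiff_pi.1 (contDiff_hd h2)
  simp only [twB', Function.update_apply]
  split_ifs
  · exact (h _).mul (contDiff_adjugate.comp (h _))
  · exact h k

/-- A flowable base point: generic spectrum at the last handle, scalar commutant, and a
neighbourhood inside the closure. -/
theorem exists_baseX (h : Setup L A B D O) :
    ∃ (x₀ : PT g s r ℂ) (l : Fin r → ℂ) (S S' : Matrix (Fin r) (Fin r) ℂ),
      Indep l ∧ Spec (x₀ (Sum.inl (L, false))) l S S' ∧ IsX D x₀ ∧ IsSchurX D x₀ ∧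
      ∀ᶠ y in 𝓝 x₀, IsX D y → InX D O y := by
  classical
  have hr : r ≠ 0 := by have := h.two_r; omega
  have hs := h.seed.toSeedOK
  obtain ⟨l, hl, hl1, hl0⟩ := exists_indep h.two_r
  let f : Fin g := ⟨L.1 - 1, by have := h.last; omega⟩
  have hfL : f < L := by
    show L.1 - 1 < L.1
    have := h.last
    have := h.two_g
    omega
  have hne : f ≠ L := ne_of_lt hfL
  set A0 := adjugate A * diagonal l * adjugate B with hA0
  have hA0d : A0.det = 1 := by
    simp [hA0, det_adjugate, hs.detA, hs.detB, det_diagonal, hl1]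
  let a0 : Fin g → Matrix (Fin r) (Fin r) ℂ := fun k => if k = f then A0 else 1
  have ha0 : ∀ k, (a0 k).det = 1 := fun k => by
    by_cases hk : k = f <;> simp [a0, hk, hA0d]
  set p := pt (s := s) L A B a0 with hp
  have hdp : ∀ k, (p k).det = 1 := det_pt hs ha0
  obtain ⟨c1, c2⟩ := mul_adj_cancel hA0d
  obtain ⟨a1, a2⟩ := mul_adj_cancel hs.detA
  obtain ⟨b1, b2⟩ := mul_adj_cancel hs.detB
  set y := tbX (s := s) f 1 p with hy
  have hpf : ∀ b, hd p (f, b) = bif b then 1 else A0 := fun b => by
    show pt (s := s) L A B a0 (Sum.inl (f, b)) = _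
    simp [pt, hne, a0]
  have hpL : ∀ b, hd p (L, b) = bif b then B else A := fun b => by
    show pt (s := s) L A B a0 (Sum.inl (L, b)) = _
    simp [pt]
  have y1 : hd y (f, false) = A0 := by
    show Vale.Agent.P002.twist f 1 (hd p) (f, false) = A0
    simp [Vale.Agent.P002.twist, hpf]
  have y2 : hd y (f, true) = A0 := by
    show Vale.Agent.P002.twist f 1 (hd p) (f, true) = A0
    simp [Vale.Agent.P002.twist, hpf]
  have y3 : hd y (L, false) = A := by
    show Vale.Agent.P002.twist f 1 (hd p) (L, false) = A
    simp [Vale.Agent.P002.twist, hpL]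
  have y4 : hd y (L, true) = B := by
    show Vale.Agent.P002.twist f 1 (hd p) (L, true) = B
    simp [Vale.Agent.P002.twist, hpL, Ne.symm hne]
  have y5 : mid adjugate f L (hd y) = 1 := by
    refine List.prod_eq_one fun M hM => ?_
    obtain ⟨k, hk, rfl⟩ := List.mem_iff_getElem.1 hM
    simp only [List.length_drop, List.length_take, cmList, List.length_ofFn] at hk
    exfalso
    simp only [f] at hk
    omega
  set x₀ := moveX f L p with hx₀
  have v1 : x₀ (Sum.inl (f, false)) = A0 * (adjugate A0 * adjugate A * A0) := by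
    show twA L (phiM f L (hd y)) (f, false) = _
    simp [twA, hne, phiM, slide, quadAt, phiQ, y1, y2, y3, y5]
  have v2 : x₀ (Sum.inl (L, false)) = adjugate A0 * A * A0 * (B * A0) := by
    show twA L (phiM f L (hd y)) (L, false) = _
    simp [twA, Ne.symm hne, phiM, slide, quadAt, phiQ, y2, y3, y4, y5, mul_assoc]
  have v3 : x₀ (Sum.inl (L, true)) = B * A0 := by
    show twA L (phiM f L (hd y)) (L, true) = _
    simp [twA, Ne.symm hne, phiM, slide, quadAt, phiQ, y2, y4, y5]
  have v4 : ∀ j, pun D x₀ j = D j := fun j => by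
    show pun D p j = D j
    exact pun_pt a0 j
  have hX : IsX D x₀ := inX_isX ((pullX_moveX (D := D) (O := O) hfL).1.inX (inX_pt h ha0))
  refine ⟨x₀, l, adjugate A0, A0, hl, ⟨c2, ?_⟩, hX, fun c hc _ => ?_, ?_⟩
  · rw [v2]
    have e : A * A0 * B = diagonal l := by
      simp [hA0, mul_assoc, (cancel_left hs.detA _).2, b2]
    rw [← e]
    simp only [mul_assoc]
  · have k1 : Commute c (A0 * (adjugate A0 * adjugate A * A0)) := by
      rw [← v1]; exact hc (f, false)
    have k3 : Commute c (B * A0) := by rw [← v3]; exact hc (L, true)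
    have k2 : Commute c (adjugate A0 * A * A0) := by
      have e : x₀ (Sum.inl (L, false)) * adjugate (B * A0) = adjugate A0 * A * A0 := by
        rw [v2, mul_assoc (adjugate A0 * A * A0),
          (mul_adj_cancel (show (B * A0).det = 1 by simp [hs.detB, hA0d])).1, mul_one]
      rw [← e]
      exact Commute.mul_right (hc (L, false))
        (commute_adj (by simp [hs.detB, hA0d]) k3)
    have k4 : Commute c A0 := by
      have e : A0 * (adjugate A0 * adjugate A * A0) * (adjugate A0 * A * A0) = A0 := by
        simp only [mul_assoc, (cancel_left hA0d _).1, (cancel_left hA0d _).2,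
          (cancel_left hs.detA _).1]
      rw [← e]
      exact k1.mul_right k2
    have k5 : Commute c A := by
      have e : A0 * (adjugate A0 * A * A0) * adjugate A0 = A := by
        simp only [mul_assoc, c1, mul_one, (cancel_left hA0d _).2]
      rw [← e]
      exact (k4.mul_right k2).mul_right (commute_adj hA0d k4)
    have k6 : Commute c B := by
      have e : B * A0 * adjugate A0 = B := by rw [mul_assoc, c1, mul_one]
      rw [← e]
      exact k3.mul_right (commute_adj hA0d k4)
    have k7 : ∀ w, Commute c (wVal A B D w) → Commute c (wVal A B D w) := fun w hw => hw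
    -- the seed generates the algebra
    have hall : ∀ M, c * M = M * c := by
      intro M
      have hM : M ∈ Submodule.span ℂ (Set.range (wVal A B D)) := by
        rw [h.seed.span]; exact Submodule.mem_top
      induction hM using Submodule.span_induction with
      | mem M hM =>
        obtain ⟨w, rfl⟩ := hM
        have hD' : ∀ j, Commute c (D j) := fun j => by
          rw [← v4 j]; exact ‹∀ j, c * pun D x₀ j = pun D x₀ j * c› j
        induction w with
        | nil => simp [wVal]
        | cons m w ih =>
          have hl' : Commute c (ltrVal A B D m) := by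
            have hcm : Commute c (cm adjugate A B) :=
              ((k5.mul_right k6).mul_right (commute_adj hs.detA k5)).mul_right
                (commute_adj hs.detB k6)
            have hseg : ∀ j, Commute c (segV A B D j) := fun j =>
              hcm.mul_right (Commute.list_prod_right _ _ fun N hN => by
                obtain ⟨i, rfl⟩ := List.mem_ofFn.1 (List.mem_of_mem_take hN)
                exact hD' i)
            rcases m with (_ | _) | j
            · exact k5
            · exact k5.mul_right k6
            · exact ((hseg j).mul_right (hD' j)).mul_right (commute_adj (det_segV hs j) (hseg j))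
          exact (hl'.mul_right ih).eq
      | zero => simp
      | add M N _ _ hM hN => rw [mul_add, add_mul, hM, hN]
      | smul z M _ hM => rw [Matrix.mul_smul, Matrix.smul_mul, hM]
    obtain ⟨z, hz⟩ := Matrix.mem_range_scalar_iff_commute_single.2 fun i j _ =>
      (show Commute (Matrix.single i j 1) c from (hall _).symm)
    exact ⟨z, by rw [← hz, scalar_apply, ← smul_one_eq_diagonal]⟩
  · have hback : moveX' f L x₀ = p := moveX'_moveX hfL hdp
    have ht : Tendsto (moveX' (s := s) (r := r) f L) (𝓝 x₀) (𝓝 p) := by
      rw [← hback]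
      exact (contDiff_moveX' f L).continuous.tendsto x₀
    filter_upwards [ht.eventually (local_slice h ha0)] with z hz hzX
    obtain ⟨hM, hM'⟩ := pullX_moveX (D := D) (O := O) (s := s) (r := r) hfL
    have hz' : IsX D (moveX' f L z) := by
      have hpsi : IsX D (psiX f L (twX' L z)) :=
        isX_onHd (fun σ h => det_psiM h) (fun σ h => rel_psiM hfL h)
          (isX_onHd (fun σ h k => by
            simp only [twA', Function.update_apply]
            split_ifs <;> simp [h, det_adjugate]) (fun σ h => (rel_twA h L).2.1) hzX)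
      exact isX_onHd (fun σ h k => by
        simp only [twB', Function.update_apply]
        split_ifs <;> simp [h, det_adjugate]) (fun σ h => (rel_twA h f).2.2) hpsi
    have := hM.inX (hz hz')
    rwa [moveX_moveX' hfL hzX.1] at this

/-- Every point with scalar commutant is in the closure of the integral points. -/
theorem inX_of_schurX (h : Setup L A B D O) {x : PT g s r ℂ} (hx : IsX D x)
    (hS : IsSchurX D x) : InX D O x := by
  obtain ⟨x₀, l, S, S', hl, hspec, hx₀, hS₀, hloc⟩ := exists_baseX h
  let q : Fin r := ⟨0, by have := h.two_r; omega⟩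
  have hD := h.seed.toSeedOK.detD
  refine inX_of_near fun N hN => ?_
  obtain ⟨y, hyN, hy, hgood⟩ := exists_goodPtX_near h.two_g h.two_r hD h.last q hx hS hN
  exact ⟨y, hyN, inX_of_good h.two_r hD h.last q hspec hl hloc
    (fun N hN => exists_goodPtX_near h.two_g h.two_r hD h.last q hx₀ hS₀ hN) hy hgood⟩

end Vale.Agent.P002.Sb
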