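import Vale.Agent.P002.Sb.BaseX

/-!
# P002: semisimple punctured tuples are in the closure of the integral points
-/

namespace Vale.Agent.P002.Sb

open Matrix Filter Topology
open scoped Matrix.Norms.Operator

set_option backward.isDefEq.respectTransparency false

variable {r g s : ℕ} {L : Fin g} {A B : Matrix (Fin r) (Fin r) ℂ}
  {D : Fin s → Matrix (Fin r) (Fin r) ℂ} {O : Subring ℂ}

/-- The twist of a handle. -/
noncomputable def twCX {N : ℕ} (x : PT g s r ℂ) (i₀ : Fin g)
    (e : Fin N → Matrix (Fin r) (Fin r) ℂ) (μ : Fin N → ℂ) (t : ℂ) : PT g s r ℂ :=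
  onHd (fun σ => twC σ i₀ e μ t) x

theorem det_allT (hD : ∀ j, (D j).det = 1) {x : PT g s r ℂ} (hx : ∀ k, (x k).det = 1)
    (k : Fin (g + s) × Bool) : (allT D x k).det = 1 := by
  obtain ⟨m, b⟩ := k
  refine Fin.addCases (fun i => ?_) (fun j => ?_) m
  · simpa [allT] using hx (Sum.inl (i, b))
  · simpa [allT] using det_pun hD hx j

theorem allT_twCX {N : ℕ} (x : PT g s r ℂ) (i₀ : Fin g) (e : Fin N → Matrix (Fin r) (Fin r) ℂ)
    (μ : Fin N → ℂ) (t : ℂ) :
    allT D (twCX x i₀ e μ t) = twC (allT D x) (Fin.castAdd s i₀) e μ t := by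
  funext ⟨m, b⟩
  refine Fin.addCases (fun i => ?_) (fun j => ?_) m
  · simp only [allT, Fin.addCases_left, twC, Function.update_apply]
    show twC (hd x) i₀ e μ t (i, b) = _
    simp [twC, Function.update_apply, Prod.ext_iff, Fin.castAdd_inj, hd]
  · simp only [allT, Fin.addCases_right, twC, Function.update_apply]
    rw [if_neg fun h => by
      have := congrArg (fun p => (p.1 : Fin (g + s)).1) h
      simp at this
      omega]
    rfl

theorem isX_twCX {N : ℕ} {x : PT g s r ℂ} {e : Fin N → Matrix (Fin r) (Fin r) ℂ} {μ : Fin N → ℂ}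
    (hx : IsX D x) (h : IsBricks (allT D x) e) (hμ : ∑ i, μ i * trace (e i) = 0) (i₀ : Fin g)
    (t : ℂ) : IsX D (twCX x i₀ e μ t) := by
  have hd' : (zc e μ t).det = 1 := det_eq_one_of_group (zc_add h) (zc_zero h) hasDerivAt_zc
    (by simp [trace_sum, trace_smul, hμ]) t
  obtain ⟨z1, z2⟩ := mul_adj_cancel hd'
  have hzc : zc e μ t * hd x (i₀, true) = hd x (i₀, true) * zc e μ t := by
    simpa [allT, hd] using zc_comm (μ := μ) h t (Fin.castAdd s i₀, true)
  refine ⟨fun k => ?_, ?_⟩
  · cases k with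
    | inl k =>
      show (twC (hd x) i₀ e μ t k).det = 1
      simp only [twC, Function.update_apply]
      split_ifs <;> simp [hd, hx.1, hd']
    | inr j => exact hx.1 _
  · show rel adjugate (twC (hd x) i₀ e μ t) * prodC D x = 1
    rw [rel_congr (τ := hd x) fun i => ?_]
    · exact hx.2
    · by_cases hi : i = i₀
      · subst hi
        simp only [twC, Function.update_self, Function.update_of_ne
          (show ((i, true) : Fin g × Bool) ≠ (i, false) by simp), cm, adjugate_mul_distrib]
        rw [mul_assoc (hd x (i, false)) (zc e μ t), hzc, ← mul_assoc (hd x (i, false)),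
          mul_assoc (hd x (i, false) * hd x (i, true)) (zc e μ t), ← mul_assoc (zc e μ t), z1,
          one_mul]
      · simp [twC, Function.update_apply, hi]

/-- Joining two pieces without moving the punctures. -/
theorem exists_mergeX {N : ℕ} (hg : 2 ≤ g) {x : PT g s r ℂ}
    (hx : IsX D x) {e : Fin (N + 2) → Matrix (Fin r) (Fin r) ℂ} (h : IsBricks (allT D x) e)
    (hcross : ∀ c, (∀ k, c * allT D x k = allT D x k * c) → ∀ i j, i ≠ j → e i * c * e j = 0) :
    ∃ Y : PT g s r ℂ, ∀ t : ℂ, t ≠ 0 → IsX D (x + t • Y) ∧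
      ∃ f : Fin (N + 1) → Matrix (Fin r) (Fin r) ℂ, IsBricks (allT D (x + t • Y)) f := by
  classical
  have h01 : (0 : Fin (N + 2)) ≠ 1 := by simp [Fin.ext_iff]
  have i0 : e 0 * e 0 = e 0 := h.idem 0
  have i1 : e 1 * e 1 = e 1 := h.idem 1
  have o10 : e 1 * e 0 = 0 := h.orth 1 0 (Ne.symm h01)
  set V := cornerSub (e 0) (e 1)
  set σ := hd x
  have hc : ∀ (i : Fin (N + 2)) (k : Fin g × Bool), e i * σ k = σ k * e i := fun i k => by
    simpa [allT, σ, hd] using h.comm i (Fin.castAdd s k.1, k.2)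
  have hσ : ∀ k, (σ k).det = 1 := fun k => hx.1 _
  let ι : (Fin g × Bool → V) →ₗ[ℂ] Tup g r ℂ :=
    LinearMap.pi fun k => V.subtype.comp (LinearMap.proj k)
  have hadd : ∀ (y : Fin g × Bool → V) (t : ℂ) k,
      (σ + t • ι y) k = σ k + t • (y k : Matrix (Fin r) (Fin r) ℂ) := fun y t k => rfl
  have hdet : ∀ y t k, ((σ + t • ι y) k).det = 1 := fun y t k => by
    rw [hadd]
    exact (det_add_corner i0 i1 o10 (hσ k) (hc 0 k) (hc 1 k) (y k).2 t).1
  have haff : ∀ y, ∃ Q ∈ V, (∀ t : ℂ, rel adjugate (σ + t • ι y) = rel adjugate σ + t • Q) ∧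
      (fderiv ℂ Requ σ (ι y)).2 = Q := by
    intro y
    have hlin : ∀ k, Aff (e 0) (e 1) fun t => (σ + t • ι y) k := fun k =>
      ⟨σ k, y k, hc 0 k, hc 1 k, (y k).2, fun t => hadd y t k⟩
    have hadj : ∀ k, Aff (e 0) (e 1) fun t => adjugate ((σ + t • ι y) k) := fun k =>
      ⟨adjugate (σ k), -(adjugate (σ k) * y k * adjugate (σ k)),
        commute_adj (hσ k) (hc 0 k), commute_adj (hσ k) (hc 1 k),
        Submodule.neg_mem _ (mul_corner i0 i1
          (mul_corner i0 i1 (y k).2 (commute_adj (hσ k) (hc 0 k))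
            (commute_adj (hσ k) (hc 1 k))).1
          (commute_adj (hσ k) (hc 0 k)) (commute_adj (hσ k) (hc 1 k))).2,
        fun t => by
          show adjugate ((σ + t • ι y) k) = _
          rw [hadd]
          exact (det_add_corner i0 i1 o10 (hσ k) (hc 0 k) (hc 1 k) (y k).2 t).2⟩
    have hlist : ∀ l : List (Fin g), Aff (e 0) (e 1) fun t => (l.map fun i =>
        cm adjugate ((σ + t • ι y) (i, false)) ((σ + t • ι y) (i, true))).prod := by
      intro l
      induction l with
      | nil => exact ⟨1, 0, by simp, by simp, V.zero_mem, fun t => by simp⟩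
      | cons i l ih =>
        simp only [List.map_cons, List.prod_cons]
        exact aff_mul i0 i1 o10 (aff_mul i0 i1 o10 (aff_mul i0 i1 o10 (aff_mul i0 i1 o10
          (hlin (i, false)) (hlin (i, true))) (hadj (i, false))) (hadj (i, true))) ih
    obtain ⟨P, Q, -, -, hQ, hPQ⟩ := hlist (List.finRange g)
    have hrel : ∀ t : ℂ, rel adjugate (σ + t • ι y) = P + t • Q := fun t => by
      rw [← hPQ t]
      show _ = ((List.finRange g).map fun i =>
        cm adjugate ((σ + t • ι y) (i, false)) ((σ + t • ι y) (i, true))).prod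
      rw [← List.ofFn_eq_map]; rfl
    have hP : P = rel adjugate σ := by
      have := hrel 0
      rw [zero_smul, add_zero, zero_smul, add_zero] at this
      exact this.symm
    subst hP
    refine ⟨Q, hQ, hrel, ?_⟩
    have h0 : σ = (fun s : ℂ => σ + s • ι y) 0 := by simp
    have hR := ((contDiff_Requ (r := r) (g := g)).differentiable one_ne_zero
      σ).hasFDerivAt.comp_hasDerivAt_of_eq (0 : ℂ) (hasDerivAt_line σ (ι y)) h0
    have hR2 : HasDerivAt (fun s : ℂ => rel adjugate (σ + s • ι y)) (fderiv ℂ Requ σ (ι y)).2 0 :=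
      (ContinuousLinearMap.snd ℂ (Fin g × Bool → ℂ)
        (Matrix (Fin r) (Fin r) ℂ)).hasFDerivAt.comp_hasDerivAt (0 : ℂ) hR
    rw [funext hrel] at hR2
    exact hR2.unique (hasDerivAt_line _ Q)
  let Dl : (Fin g × Bool → V) →ₗ[ℂ] V := LinearMap.codRestrict V
    ((LinearMap.snd ℂ _ _).comp ((fderiv ℂ Requ σ).toLinearMap.comp ι)) fun y => by
      obtain ⟨Q, hQ, -, he⟩ := haff y
      show (fderiv ℂ Requ σ (ι y)).2 ∈ V
      rw [he]; exact hQ
  let cb : V →ₗ[ℂ] (Fin g × Bool → V) := LinearMap.pi fun k => LinearMap.codRestrict V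
    ((LinearMap.mulRight ℂ (σ k) - LinearMap.mulLeft ℂ (σ k)).comp V.subtype) fun X => by
      exact Submodule.sub_mem _ (mul_corner i0 i1 X.2 (hc 0 k) (hc 1 k)).2
        (mul_corner i0 i1 X.2 (hc 0 k) (hc 1 k)).1
  have hm : 0 < Module.finrank ℂ V := by
    have hex : ∀ i : Fin (N + 2), ∃ a b, e i a b ≠ 0 := fun i => by
      by_contra hno
      push Not at hno
      exact h.ne i (Matrix.ext hno)
    obtain ⟨a, c, hac⟩ := hex 0
    obtain ⟨b, d, hbd⟩ := hex 1
    have hX : e 0 * (Matrix.single c b (1 : ℂ) * e 1) ∈ V := by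
      rw [mem_cornerSub, mul_assoc (e 0), mul_assoc, i1, ← mul_assoc, i0]
    refine Module.finrank_pos_iff_exists_ne_zero.2 ⟨⟨_, hX⟩, fun hz => ?_⟩
    have hz' : (e 0 * (Matrix.single c b (1 : ℂ) * e 1) : Matrix (Fin r) (Fin r) ℂ) a d = 0 := by
      rw [show e 0 * (Matrix.single c b 1 * e 1) = 0 from congrArg Subtype.val hz]; rfl
    rw [Matrix.mul_apply, Finset.sum_eq_single c
      (fun x _ hx => by simp [Matrix.mul_apply, Matrix.single_apply, Ne.symm hx])
      (fun h' => absurd (Finset.mem_univ c) h')] at hz'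
    rw [Matrix.single_mul_apply_same, one_mul] at hz'
    exact mul_ne_zero hac hbd hz'
  obtain ⟨y, hyD, hyc⟩ : ∃ y ∈ LinearMap.ker Dl, y ∉ LinearMap.range cb := by
    by_contra hno
    push Not at hno
    have h1 := Submodule.finrank_mono (show LinearMap.ker Dl ≤ LinearMap.range cb from hno)
    have h2 := LinearMap.finrank_range_add_finrank_ker Dl
    have h3 := LinearMap.finrank_range_le cb
    have h4 := Submodule.finrank_le (LinearMap.range Dl)
    rw [Module.finrank_pi_fintype, Finset.sum_const, Finset.card_univ, Fintype.card_prod,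
      Fintype.card_fin, Fintype.card_bool, smul_eq_mul] at h2
    have : 4 * Module.finrank ℂ V ≤ g * 2 * Module.finrank ℂ V :=
      Nat.mul_le_mul_right _ (by omega)
    omega
  refine ⟨Sum.elim (ι y) 0, fun t ht => ?_⟩
  have hinr : ∀ j, (x + t • Sum.elim (ι y) 0 : PT g s r ℂ) (Sum.inr j) = x (Sum.inr j) := fun j => by
    simp
  have hhd : hd (x + t • Sum.elim (ι y) 0 : PT g s r ℂ) = σ + t • ι y := rfl
  have hpun : ∀ j, pun D (x + t • Sum.elim (ι y) 0 : PT g s r ℂ) j = pun D x j := fun j => by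
    simp only [pun, hinr]
  refine ⟨⟨fun k => ?_, ?_⟩, ?_⟩
  · cases k with
    | inl k => exact hdet y t k
    | inr j => rw [hinr]; exact hx.1 _
  · obtain ⟨Q, -, hrel, he⟩ := haff y
    have h0 : (fderiv ℂ Requ σ (ι y)).2 = 0 := congrArg Subtype.val (LinearMap.mem_ker.1 hyD)
    have hp : prodC D (x + t • Sum.elim (ι y) 0 : PT g s r ℂ) = prodC D x := by
      simp only [prodC, punList, funext hpun]
    rw [relX, hhd, hp, hrel, ← he, h0, smul_zero, add_zero]
    exact hx.2
  let yA : Fin (g + s) × Bool → V := fun k => Fin.addCases (fun i => y (i, k.2)) (fun _ => 0) k.1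
  obtain ⟨f, hf⟩ := isBricks_merge h hcross yA (fun X hX hk => hyc
    ⟨⟨X, hX⟩, funext fun k => Subtype.ext (by
      have := hk (Fin.castAdd s k.1, k.2)
      simp [yA, allT] at this
      exact this)⟩) ht
  refine ⟨f, ?_⟩
  have : allT D (x + t • Sum.elim (ι y) 0 : PT g s r ℂ) =
      fun k => allT D x k + t • (yA k : Matrix (Fin r) (Fin r) ℂ) := by
    funext ⟨m, b⟩
    refine Fin.addCases (fun i => ?_) (fun j => ?_) m
    · simp [allT, yA, ι]
    · simp [allT, yA, hpun]
  rw [this]
  exact hf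

theorem mem_of_bricks (hg : 2 ≤ g) (hr : 2 ≤ r) (hD : ∀ j, (D j).det = 1) {Z : Set (PT g s r ℂ)}
    (hZ : IsClosed Z) (hS : ∀ x, IsX D x → IsSchurX D x → x ∈ Z) : ∀ (N : ℕ) {x : PT g s r ℂ}
    {e : Fin N → Matrix (Fin r) (Fin r) ℂ}, IsX D x → IsBricks (allT D x) e → x ∈ Z
  | 0, x, e, _, he => by
    have h1 := congrArg Matrix.trace he.sum
    rw [Finset.univ_eq_empty, Finset.sum_empty, trace_zero, trace_one, Fintype.card_fin] at h1
    exact absurd (Nat.cast_eq_zero.1 h1.symm) (by omega)
  | 1, x, e, hx, he => by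
    refine hS x hx fun c h1c h2c => ?_
    have hc : ∀ k, c * allT D x k = allT D x k * c := by
      rintro ⟨m, b⟩
      refine Fin.addCases (fun i => ?_) (fun j => ?_) m
      · simpa [allT] using h1c (i, b)
      · simpa [allT] using h2c j
    obtain ⟨z, hz⟩ := he.corner c hc 0
    have h1 : e 0 = 1 := by simpa [Fin.sum_univ_one] using he.sum
    exact ⟨z, by simpa [h1] using hz⟩
  | N + 2, x, e, hx, he => by
    let μ : Fin (N + 2) → ℂ := fun i =>
      ((i : ℕ) : ℂ) * r - ∑ j : Fin (N + 2), ((j : ℕ) : ℂ) * trace (e j)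
    have htr : ∑ j, trace (e j) = (r : ℂ) := by
      rw [← trace_sum, he.sum, trace_one, Fintype.card_fin]
    have hμ : ∑ i, μ i * trace (e i) = 0 := by
      simp only [μ, sub_mul, Finset.sum_sub_distrib, ← Finset.mul_sum, htr]
      rw [Finset.sum_mul, ← Finset.sum_sub_distrib]
      exact Finset.sum_eq_zero fun i _ => by ring
    have hinj : Function.Injective μ := fun i j hij => by
      have h1 : ((i : ℕ) : ℂ) * r = ((j : ℕ) : ℂ) * r := sub_left_injective hij
      exact Fin.ext (by exact_mod_cast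
        mul_right_cancel₀ (Nat.cast_ne_zero.2 (by omega : r ≠ 0)) h1)
    let i₀ : Fin g := ⟨0, by omega⟩
    have hc : ContinuousAt (fun t => twCX x i₀ e μ t) 0 := by
      refine continuousAt_pi.2 fun k => ?_
      cases k with
      | inl k =>
        simp only [twCX, onHd, Sum.elim_inl, twC, Function.update_apply]
        split_ifs
        · exact continuousAt_const.mul (hasDerivAt_zc (e := e) (μ := μ)).continuousAt
        · exact continuousAt_const
      | inr j => exact continuousAt_const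
    have h0 : twCX x i₀ e μ 0 = x := by
      funext k
      cases k with
      | inl k =>
        show twC (hd x) i₀ e μ 0 k = hd x k
        rw [twC, zc_zero he, mul_one, Function.update_eq_self]
      | inr j => rfl
    refine hZ.closure_subset (mem_closure_iff_nhds.2 fun U hU => ?_)
    have hev := eventually_cross_zero (μ := μ) (det_allT hD hx.1) he hinj
      (Fin.castAdd s i₀)
    have hU' : ∀ᶠ t in 𝓝[≠] (0 : ℂ), twCX x i₀ e μ t ∈ U :=
      mem_nhdsWithin_of_mem_nhds (hc.preimage_mem_nhds (by rw [h0]; exact hU))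
    obtain ⟨t, ht, htU⟩ := (hev.and hU').exists
    refine ⟨_, htU, ?_⟩
    have hx' := isX_twCX hx he hμ i₀ t
    have he' : IsBricks (allT D (twCX x i₀ e μ t)) e := by
      rw [allT_twCX]; exact isBricks_twC he _ t
    obtain ⟨Y, hY⟩ := exists_mergeX hg hx' he' (by rw [allT_twCX]; exact ht)
    refine hZ.closure_subset (mem_closure_iff_nhds.2 fun W hW => ?_)
    have hc2 : ContinuousAt (fun s : ℂ => twCX x i₀ e μ t + s • Y) 0 :=
      (continuous_const.add (continuous_id.smul continuous_const)).continuousAt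
    have hW' : ∀ᶠ s in 𝓝[≠] (0 : ℂ), twCX x i₀ e μ t + s • Y ∈ W :=
      mem_nhdsWithin_of_mem_nhds (hc2.preimage_mem_nhds (by simpa using hW))
    obtain ⟨u, hu, huW⟩ := (eventually_mem_nhdsWithin.and hW').exists
    obtain ⟨h1, f, hf⟩ := hY u hu
    exact ⟨_, huW, mem_of_bricks hg hr hD hZ hS (N + 1) h1 hf⟩

theorem inX_of_bricks (h : Setup L A B D O) (N : ℕ) {x : PT g s r ℂ}
    {e : Fin N → Matrix (Fin r) (Fin r) ℂ} (hx : IsX D x) (he : IsBricks (allT D x) e) : InX D O x :=
  mem_of_bricks h.two_g h.two_r h.seed.toSeedOK.detD (isClosed_inX (D := D) (O := O))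
    (fun _ hy hS => inX_of_schurX h hy hS) N hx he

/-- Every semisimple punctured tuple is in the closure of the integral points. -/
theorem inX_of_semisimple (h : Setup L A B D O) {x : PT g s r ℂ} (hx : IsX D x)
    (hs : IsSemisimpleRep (allT D x)) : InX D O x := by
  obtain ⟨N, e, he⟩ := exists_bricks (by have := h.two_r; omega) hs
  exact inX_of_bricks h N hx he

end Vale.Agent.P002.Sb
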