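import Vale.Agent.P002.Sb.PerturbX

/-!
# P002: the chart of the punctured variety
-/

namespace Vale.Agent.P002.Sb

open Matrix Filter Topology
open scoped Matrix.Norms.Operator

set_option backward.isDefEq.respectTransparency false

variable {r g s : ℕ} {D : Fin s → Matrix (Fin r) (Fin r) ℂ} {O : Subring ℂ}

/-- The word in the relation opposite to the last commutator. -/
noncomputable def WX (L : Fin g) (D : Fin s → Matrix (Fin r) (Fin r) ℂ) (x : PT g s r ℂ) :
    Matrix (Fin r) (Fin r) ℂ :=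
  prodC D x * pre L.1 (hd x)

/-- Membership in the domain of the chart. -/
def GoodPtX (L : Fin g) (D : Fin s → Matrix (Fin r) (Fin r) ℂ) (q : Fin r) (x : PT g s r ℂ) :
    Prop :=
  (chartM q (WX L D x) (x (Sum.inl (L, false)))).det ≠ 0 ∧
    (kryl (x (Sum.inl (L, false))) 1).det ≠ 0

theorem relX_last {L : Fin g} (hL : L.1 + 1 = g) (x : PT g s r ℂ) :
    relX D x = pre L.1 (hd x) *
      cm adjugate (x (Sum.inl (L, false))) (x (Sum.inl (L, true))) * prodC D x := by
  have hpost : post (L.1 + 1) (hd x) = 1 := by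
    unfold post
    rw [List.drop_of_length_le (by simp [cmList, hL]), List.prod_nil]
  rw [relX, rel_split (hd x) L, hpost, mul_one]
  rfl

theorem WX_cm {L : Fin g} (hL : L.1 + 1 = g) {x : PT g s r ℂ} (hx : IsX D x) :
    WX L D x * cm adjugate (x (Sum.inl (L, false))) (x (Sum.inl (L, true))) = 1 := by
  have h := hx.2
  rw [relX_last hL] at h
  rw [WX, mul_assoc]
  exact mul_eq_one_comm.1 h

theorem good_factsX {L : Fin g} (hL : L.1 + 1 = g) {x : PT g s r ℂ} (hx : IsX D x) :
    x (Sum.inl (L, true)) * x (Sum.inl (L, false)) =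
        WX L D x * x (Sum.inl (L, false)) * x (Sum.inl (L, true)) ∧
      (WX L D x * x (Sum.inl (L, false))).charpoly = (x (Sum.inl (L, false))).charpoly := by
  set A := x (Sum.inl (L, false))
  set B := x (Sum.inl (L, true))
  obtain ⟨a1, a2⟩ := mul_adj_cancel (show A.det = 1 from hx.1 _)
  obtain ⟨b1, b2⟩ := mul_adj_cancel (show B.det = 1 from hx.1 _)
  have h : WX L D x * cm adjugate A B = 1 := WX_cm hL hx
  have h1 : B * A = WX L D x * A * B := by
    calc B * A = WX L D x * cm adjugate A B * (B * A) := by rw [h, one_mul]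
      _ = WX L D x * A * B := by
        simp only [cm, mul_assoc]
        rw [← mul_assoc (adjugate B) B, b2, one_mul, a2, mul_one]
  refine ⟨h1, ?_⟩
  calc (WX L D x * A).charpoly = (B * (A * adjugate B)).charpoly := by
        rw [← mul_assoc, h1, mul_assoc, b1, mul_one]
    _ = A.charpoly := by rw [Matrix.charpoly_mul_comm, mul_assoc, b2, mul_one]

theorem isX_of_chartX {L : Fin g} (hL : L.1 + 1 = g) {x : PT g s r ℂ}
    (hdet : ∀ k, (x k).det = 1)
    (h : x (Sum.inl (L, true)) * x (Sum.inl (L, false)) =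
      WX L D x * x (Sum.inl (L, false)) * x (Sum.inl (L, true))) : IsX D x := by
  refine ⟨hdet, ?_⟩
  obtain ⟨a1, a2⟩ := mul_adj_cancel (hdet (Sum.inl (L, false)))
  obtain ⟨b1, b2⟩ := mul_adj_cancel (hdet (Sum.inl (L, true)))
  have h1 : prodC D x * (pre L.1 (hd x) *
      cm adjugate (x (Sum.inl (L, false))) (x (Sum.inl (L, true)))) = 1 := by
    rw [← mul_assoc, show prodC D x * pre L.1 (hd x) = WX L D x from rfl, cm]
    simp only [← mul_assoc]
    rw [← h, mul_assoc (x (Sum.inl (L, true))), a1, mul_one, b1]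
  rw [relX_last hL]
  exact mul_eq_one_comm.1 h1

/-- The selection of the slots other than the last handle. -/
def selX (L : Fin g) : Slot g s → Bool := Sum.elim (selRest L) fun _ => true

/-- The equations with the last pair prescribed. -/
noncomputable def lastEqX (L : Fin g) (D : Fin s → Matrix (Fin r) (Fin r) ℂ)
    (p : PT g s r ℂ × ℂ) :
    ({k : Slot g s // selX L k = true} → ℂ) ×
      (Matrix (Fin r) (Fin r) ℂ × Matrix (Fin r) (Fin r) ℂ) × Matrix (Fin r) (Fin r) ℂ :=
  (fun k => (SeqX D p).1 k.1, (p.1 (Sum.inl (L, false)), p.1 (Sum.inl (L, true))), (SeqX D p).2)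

theorem contDiff_lastEqX (L : Fin g) : ContDiff ℂ 1 (lastEqX (r := r) L D) :=
  ((contDiff_pi.2 fun k => contDiff_pi.1 (contDiff_SeqX (g := g) (D := D)).fst k.1 :
    ContDiff ℂ 1 fun (p : PT g s r ℂ × ℂ) (k : {k : Slot g s // selX L k = true}) =>
      (SeqX D p).1 k.1)).prodMk
    ((((contDiff_apply ℂ _ (Sum.inl (L, false))).comp contDiff_fst).prodMk
      ((contDiff_apply ℂ _ (Sum.inl (L, true))).comp contDiff_fst)).prodMk contDiff_SeqX.snd)

theorem fderiv_lastEqX (L : Fin g) {x : PT g s r ℂ} (hx : IsX D x) (v : PT g s r ℂ) (t : ℂ) :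
    fderiv ℂ (lastEqX L D) (x, (0 : ℂ)) (v, t) =
      (fun k => trace (adjugate (x k.1) * v k.1),
        (v (Sum.inl (L, false)), v (Sum.inl (L, true))),
        (fderiv ℂ (RequX D) x v).2 + t • 1) := by
  have hS := ((contDiff_SeqX (g := g) (D := D)).differentiable one_ne_zero (x, (0 : ℂ))).hasFDerivAt
  have hp : ∀ k, HasFDerivAt (fun p : PT g s r ℂ × ℂ => p.1 k)
      ((ContinuousLinearMap.proj k).comp (ContinuousLinearMap.fst ℂ _ _)) (x, (0 : ℂ)) := fun k =>
    ((ContinuousLinearMap.proj k).comp (ContinuousLinearMap.fst ℂ (PT g s r ℂ) ℂ)).hasFDerivAt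
  have hpi : HasFDerivAt (fun (p : PT g s r ℂ × ℂ) (k : {k : Slot g s // selX L k = true}) =>
      (SeqX D p).1 k.1) _ (x, (0 : ℂ)) :=
    hasFDerivAt_pi.2 fun k => hasFDerivAt_pi'.1 hS.fst k.1
  rw [show fderiv ℂ (lastEqX L D) (x, (0 : ℂ)) = _ from HasFDerivAt.fderiv (f := lastEqX L D)
    (hpi.prodMk (((hp (Sum.inl (L, false))).prodMk (hp (Sum.inl (L, true)))).prodMk hS.snd))]
  have e := fderiv_SeqX hx v t
  refine Prod.ext (funext fun k => ?_) (Prod.ext rfl ?_)
  · show (fderiv ℂ (SeqX D) (x, (0 : ℂ)) (v, t)).1 k.1 = _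
    rw [e, fderiv_RequX_fst hx]
  · show (fderiv ℂ (SeqX D) (x, (0 : ℂ)) (v, t)).2 = _
    rw [e]

theorem fderiv_lastEqX_surjective (hr : r ≠ 0) (hD : ∀ j, (D j).det = 1) {L : Fin g}
    (hL : L.1 + 1 = g) {x : PT g s r ℂ} (hx : IsX D x)
    (hrest : Module.finrank ℂ (ComK (selRest L) (hd x)) ≤ 1) :
    (fderiv ℂ (lastEqX L D) (x, (0 : ℂ))).range = ⊤ := by
  rw [LinearMap.range_eq_top]
  intro ⟨τ, ⟨U, V⟩, M⟩
  let v0 : PT g s r ℂ := fun k =>
    if h : selX L k = true then (τ ⟨k, h⟩ / r) • x k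
    else if k = Sum.inl (L, false) then U else V
  let K : Submodule ℂ (Matrix (Fin r) (Fin r) ℂ) :=
    { carrier := {m | ∃ v, ∃ t : ℂ, (∀ k, trace (adjugate (x k) * v k) = 0) ∧
        (∀ c, v (Sum.inl (L, c)) = 0) ∧ m = (fderiv ℂ (RequX D) x v).2 + t • 1}
      zero_mem' := ⟨0, 0, fun k => by simp, fun c => rfl, by simp⟩
      add_mem' := by
        rintro m n ⟨v, t, hv, hvL, rfl⟩ ⟨w, q, hw, hwL, rfl⟩
        exact ⟨v + w, t + q, fun k => by simp [mul_add, hv, hw], fun c => by simp [hvL, hwL], by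
          simp [map_add, add_smul]; abel⟩
      smul_mem' := by
        rintro z m ⟨v, t, hv, hvL, rfl⟩
        exact ⟨z • v, z * t, fun k => by simp [hv], fun c => by simp [hvL],
          by simp [map_smul, smul_add, smul_smul]⟩ }
  have hK : K = ⊤ := by
    by_contra hne
    obtain ⟨u, hu0, hu⟩ := exists_matrix_functional hne
    have hcomm : ∀ i : Fin g, i.1 < L.1 → ∀ c, Commute u (hd x (i, c)) := by
      refine comm_of_ann (σ := hd x) (fun k => hx.1 _) L.1 fun i hi Ya Yb ha hb => ?_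
      let Y : PT g s r ℂ := Pi.single (Sum.inl (i, false)) Ya + Pi.single (Sum.inl (i, true)) Yb
      have hY : ∀ k, trace (Y k) = 0 := fun k => by
        simp only [Y, Pi.add_apply, trace_add, Pi.single_apply]
        split_ifs <;> simp [ha, hb]
      have ht : ∀ k, trace (adjugate (x k) * (Y k * x k)) = 0 := fun k => by
        rw [← mul_assoc, (trace_conj (hx.1 k) _).2, hY]
      have hiL : i ≠ L := fun e => by subst e; exact lt_irrefl _ hi
      have h1 := hu _ ⟨fun k => Y k * x k, 0, ht, fun c => by simp [Y, Ne.symm hiL], rfl⟩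
      rw [(fderiv_RequX_snd hD hx ht).1, zero_smul, add_zero,
        show logv x (fun k => Y k * x k) = Y from funext fun k => by
          rw [logv, mul_assoc, (mul_adj_cancel (hx.1 k)).1, mul_one], RV_handle] at h1
      exact h1
    obtain ⟨z, hz⟩ := (ComK_le_one_iff hr).1 hrest u (mem_ComK.2 fun k hk => by
      have hne : k.1 ≠ L := by simpa [selRest] using hk
      have : k.1.1 ≠ L.1 := fun e => hne (Fin.ext e)
      exact hcomm k.1 (by have := k.1.2; omega) k.2)
    have h1 := hu 1 ⟨0, 1, fun k => by simp, fun c => rfl, by simp⟩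
    rw [hz, mul_one, trace_smul, trace_one, Fintype.card_fin, smul_eq_mul] at h1
    rcases mul_eq_zero.1 h1 with h2 | h2
    · exact hu0 (by rw [hz, h2, zero_smul])
    · exact Nat.cast_ne_zero.2 hr h2
  obtain ⟨v, t, hv, hvL, hM⟩ : M - (fderiv ℂ (RequX D) x v0).2 ∈ K := by rw [hK]; trivial
  refine ⟨(v0 + v, t), ?_⟩
  show fderiv ℂ (lastEqX L D) (x, (0 : ℂ)) (v0 + v, t) = _
  rw [fderiv_lastEqX L hx]
  have hL0 : ∀ c, selX (s := s) L (Sum.inl (L, c)) ≠ true := fun c => by simp [selX, selRest]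
  refine Prod.ext (funext fun k => ?_) (Prod.ext (Prod.ext ?_ ?_) ?_)
  · show trace (adjugate (x k.1) * (v0 k.1 + v k.1)) = τ k
    rw [mul_add, trace_add, hv, add_zero]
    simp only [v0, dif_pos k.2, Subtype.coe_eta]
    rw [Matrix.mul_smul, (mul_adj_cancel (hx.1 _)).2, trace_smul, trace_one, Fintype.card_fin,
      smul_eq_mul, div_mul_cancel₀ _ (Nat.cast_ne_zero.2 hr)]
  · show v0 (Sum.inl (L, false)) + v (Sum.inl (L, false)) = U
    simp [v0, hL0, hvL]
  · show v0 (Sum.inl (L, true)) + v (Sum.inl (L, true)) = V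
    simp [v0, hL0, hvL]
  · show (fderiv ℂ (RequX D) x (v0 + v)).2 + t • 1 = M
    rw [map_add, Prod.snd_add, add_assoc, ← hM]
    abel

/-- When the other handles have scalar commutant the last pair can be prescribed nearby. -/
theorem exists_last (hr : r ≠ 0) (hD : ∀ j, (D j).det = 1) {L : Fin g} (hL : L.1 + 1 = g)
    {x : PT g s r ℂ} (hx : IsX D x) (hrest : Module.finrank ℂ (ComK (selRest L) (hd x)) ≤ 1)
    {N : Set (PT g s r ℂ)} (hN : N ∈ 𝓝 x) :
    ∀ᶠ p in 𝓝 (x (Sum.inl (L, false)), x (Sum.inl (L, true))), p.1.det = 1 → p.2.det = 1 →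
      ∃ y ∈ N, IsX D y ∧ y (Sum.inl (L, false)) = p.1 ∧ y (Sum.inl (L, true)) = p.2 := by
  have hfs : HasStrictFDerivAt (lastEqX L D) (fderiv ℂ (lastEqX L D) (x, (0 : ℂ))) (x, (0 : ℂ)) :=
    (contDiff_lastEqX L).contDiffAt.hasStrictFDerivAt one_ne_zero
  have hmap := hfs.map_nhds_eq_of_surj (fderiv_lastEqX_surjective hr hD hL hx hrest)
  have himg : lastEqX L D '' (N ×ˢ {t : ℂ | (1 + t) ^ r = 1 → t = 0}) ∈
      𝓝 (lastEqX L D (x, (0 : ℂ))) := by
    rw [← hmap]
    exact image_mem_map (prod_mem_nhds hN (eventually_slack_zero r hr))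
  have h0 : lastEqX L D (x, (0 : ℂ)) =
      (fun _ => 1, (x (Sum.inl (L, false)), x (Sum.inl (L, true))), 1) := by
    simp [lastEqX, SeqX, requX_eq hx]
  have hc : ContinuousAt (fun p : Matrix (Fin r) (Fin r) ℂ × Matrix (Fin r) (Fin r) ℂ =>
      (((fun _ => 1) : {k : Slot g s // selX L k = true} → ℂ), p,
        (1 : Matrix (Fin r) (Fin r) ℂ))) (x (Sum.inl (L, false)), x (Sum.inl (L, true))) :=
    (continuous_const.prodMk (continuous_id.prodMk continuous_const)).continuousAt
  rw [h0] at himg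
  filter_upwards [hc.preimage_mem_nhds himg] with p hp h1 h2
  obtain ⟨⟨y, t⟩, ⟨hyN, ht⟩, he⟩ := hp
  simp only [lastEqX, Prod.mk.injEq] at he
  obtain ⟨e1, e2, e3⟩ := he
  have e4 : y (Sum.inl (L, false)) = p.1 := congrArg Prod.fst e2
  have e5 : y (Sum.inl (L, true)) = p.2 := congrArg Prod.snd e2
  refine ⟨y, hyN, isX_of_SeqX hD (p := (y, t)) (Prod.ext (funext fun k => ?_) e3) ht, e4, e5⟩
  show (y k).det = 1
  rcases k with ⟨i, c⟩ | j
  · by_cases hi : i = L
    · subst hi; cases c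
      · rw [e4]; exact h1
      · rw [e5]; exact h2
    · exact congrFun e1 ⟨Sum.inl (i, c), by simp [selX, selRest, hi]⟩
  · exact congrFun e1 ⟨Sum.inr j, by simp [selX]⟩

/-- Near a point with scalar commutant there is one in the domain of the chart. -/
theorem exists_goodPtX_near (hg : 2 ≤ g) (hr : 2 ≤ r) (hD : ∀ j, (D j).det = 1) {L : Fin g}
    (hL : L.1 + 1 = g) (q : Fin r) {x : PT g s r ℂ} (hx : IsX D x) (hS : IsSchurX D x)
    {N : Set (PT g s r ℂ)} (hN : N ∈ 𝓝 x) : ∃ y ∈ N, IsX D y ∧ GoodPtX L D q y := by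
  obtain ⟨N', hN'N, hN'o, hxN'⟩ := mem_nhds_iff.1 hN
  obtain ⟨x₁, hx₁N, hx₁, -, hrest⟩ :=
    exists_rest_schurX hg (by omega) hD L hx hS (hN'o.mem_nhds hxN')
  have hev := exists_last (by omega) hD hL hx₁ hrest (hN'o.mem_nhds hx₁N)
  obtain ⟨A, B, hA, hB, hgood⟩ := exists_good_pair hr q
  obtain ⟨γ, hγ, hγ0, hγ1, hγd⟩ := exists_sl_path hr (hx₁.1 (Sum.inl (L, false))) hA
  obtain ⟨δ, hδ, hδ0, hδ1, hδd⟩ := exists_sl_path hr (hx₁.1 (Sum.inl (L, true))) hB
  let G : ℂ → ℂ := fun t => goodFun q (γ t) (δ t)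
  have hG : ContDiff ℂ 1 G :=
    (contDiff_det.comp (contDiff_chartM q (contDiff_adjugate.comp
      (((hγ.mul hδ).mul (contDiff_adjugate.comp hγ)).mul (contDiff_adjugate.comp hδ))) hγ)).mul
      (contDiff_det.comp (contDiff_kryl hγ contDiff_const))
  have hfreq : ∃ᶠ t in 𝓝 (0 : ℂ), G t ≠ 0 := by
    intro h
    simp only [not_not] at h
    have han : AnalyticOnNhd ℂ G Set.univ :=
      (hG.differentiable one_ne_zero).differentiableOn.analyticOnNhd isOpen_univ
    have := han.eqOn_zero_of_preconnected_of_eventuallyEq_zero isPreconnected_univ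
      (Set.mem_univ 0) h (Set.mem_univ 1)
    exact hgood (by simpa [G, hγ1, hδ1] using this)
  have ht : Tendsto (fun t => (γ t, δ t)) (𝓝 0)
      (𝓝 (x₁ (Sum.inl (L, false)), x₁ (Sum.inl (L, true)))) := by
    rw [← hγ0, ← hδ0]
    exact (hγ.continuous.prodMk hδ.continuous).tendsto 0
  obtain ⟨t, ht0, htev⟩ := (hfreq.and_eventually (ht.eventually hev)).exists
  obtain ⟨y, hyN, hy, e1, e2⟩ := htev (hγd t) (hδd t)
  have hW : WX L D y =
      adjugate (cm adjugate (y (Sum.inl (L, false))) (y (Sum.inl (L, true)))) := by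
    have hc := mul_adj_cancel (det_cm (hy.1 (Sum.inl (L, false))) (hy.1 (Sum.inl (L, true))))
    calc WX L D y = WX L D y * (cm adjugate (y (Sum.inl (L, false))) (y (Sum.inl (L, true))) *
          adjugate (cm adjugate (y (Sum.inl (L, false))) (y (Sum.inl (L, true))))) := by
          rw [hc.1, mul_one]
      _ = _ := by rw [← mul_assoc, WX_cm hL hy, one_mul]
  have hgp : GoodPtX L D q y := by
    rw [GoodPtX, hW, e1, e2]
    exact mul_ne_zero_iff.1 ht0
  exact ⟨y, hN'N hyN, hy, hgp⟩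

/-- A punctured point as a tuple with `g + s` handles. -/
def embT (x : PT g s r ℂ) : Tup (g + s) r ℂ :=
  fun k => Fin.addCases (fun i => x (Sum.inl (i, k.2))) (fun j => x (Sum.inr j)) k.1

/-- The variable of a slot in the larger tuple. -/
def embV (v : XVar g s r) : Var (g + s) r :=
  (Sum.elim (fun k => (Fin.castAdd s k.1, k.2)) (fun j => (Fin.natAdd g j, false)) v.1,
    v.2.1, v.2.2)

/-- The punctured point of a larger tuple. -/
def pullT (σ : Tup (g + s) r ℂ) : PT g s r ℂ :=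
  Sum.elim (fun k => σ (Fin.castAdd s k.1, k.2)) fun j => σ (Fin.natAdd g j, false)

theorem pullT_embT (x : PT g s r ℂ) : pullT (embT x) = x := by
  funext k; rcases k with ⟨i, c⟩ | j <;> simp [pullT, embT]

theorem eval_embV (σ : Tup (g + s) r ℂ) (f : MvPolynomial (XVar g s r) ℂ) :
    MvPolynomial.eval (coord σ) (MvPolynomial.rename embV f) =
      MvPolynomial.eval (xcoord (pullT σ)) f := by
  rw [MvPolynomial.eval_rename]
  congr 2
  funext v
  rcases v with ⟨⟨i, c⟩ | j, a, b⟩ <;> simp [embV, pullT, coord, xcoord]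

theorem pullT_update (σ : Tup (g + s) r ℂ) (i : Fin g) (c : Bool)
    (M : Matrix (Fin r) (Fin r) ℂ) :
    pullT (Function.update σ (Fin.castAdd s i, c) M) =
      Function.update (pullT σ) (Sum.inl (i, c)) M := by
  funext k
  rcases k with ⟨i', c'⟩ | j
  · by_cases h : (i', c') = (i, c)
    · rw [h]; simp [pullT]
    · rw [Function.update_of_ne (by simpa using h)]
      simp only [pullT, Sum.elim_inl]
      rw [Function.update_of_ne (fun e => h (by
        simp only [Prod.mk.injEq] at e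
        rw [(Fin.castAdd_injective g s) e.1, e.2]))]
  · rw [Function.update_of_ne (by simp)]
    simp only [pullT, Sum.elim_inr]
    rw [Function.update_of_ne (fun e => by
      have := congrArg (fun p : Fin (g + s) × Bool => (p.1 : ℕ)) e
      simp at this
      omega)]

theorem contDiff_pullT : ContDiff ℂ 1 (pullT : Tup (g + s) r ℂ → PT g s r ℂ) :=
  contDiff_pi.2 fun k => by
    cases k <;> exact contDiff_apply ℂ _ _

/-- The symmetric functions of the sheets, on punctured tuples. -/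
theorem vanish_of_sheetsX (hr : r ≠ 0) (L : Fin g) (f : MvPolynomial (XVar g s r) ℂ)
    {R : ℂ → PT g s r ℂ} {Ω : Set ℂ} (hΩo : IsOpen Ω) (hΩc : IsPreconnected Ω)
    (h0 : (0 : ℂ) ∈ Ω) (h1 : (1 : ℂ) ∈ Ω) (hR : ∀ t ∈ Ω, ContDiffAt ℂ 1 R t)
    (hd0 : (R 0 (Sum.inl (L, true))).det = 1) (hd1 : (R 1 (Sum.inl (L, true))).det = 1)
    {U : Set (PT g s r ℂ)} (hU : U ∈ 𝓝 (R 0))
    (hsheet : ∀ t ∈ Ω, ∀ y : ℂ, y ^ r * (R t (Sum.inl (L, true))).det = 1 →
      Function.update (R t) (Sum.inl (L, true)) (y • R t (Sum.inl (L, true))) ∈ U →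
      ∀ ζ : ℂ, ζ ^ r = 1 → MvPolynomial.eval (xcoord (Function.update (R t) (Sum.inl (L, true))
        ((ζ * y) • R t (Sum.inl (L, true))))) f = 0) :
    MvPolynomial.eval (xcoord (R 1)) f = 0 := by
  have hKB : ∀ z : PT g s r ℂ, embT z (Fin.castAdd s L, true) = z (Sum.inl (L, true)) := fun z => by
    simp [embT]
  have hE : ContDiff ℂ 1 (embT : PT g s r ℂ → Tup (g + s) r ℂ) := by
    refine contDiff_pi.2 fun ⟨m, c⟩ => ?_
    refine Fin.addCases (fun i => ?_) (fun j => ?_) m
    · simp only [embT, Fin.addCases_left]; exact contDiff_apply ℂ _ _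
    · simp only [embT, Fin.addCases_right]; exact contDiff_apply ℂ _ _
  have key := vanish_of_sheets hr (Fin.castAdd s L) (MvPolynomial.rename embV f)
    (R := fun t => embT (R t)) hΩo hΩc h0 h1 (fun t ht => hE.contDiffAt.comp t (hR t ht))
    (by rw [hKB]; exact hd0) (by rw [hKB]; exact hd1) (U := pullT ⁻¹' U)
    (contDiff_pullT.continuous.continuousAt.preimage_mem_nhds (by rw [pullT_embT]; exact hU))
    fun t ht y hy hmem ζ hζ => by
      rw [hKB] at hy hmem
      rw [Set.mem_preimage, pullT_update, pullT_embT] at hmem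
      rw [eval_embV, pullT_update, pullT_embT, hKB]
      exact hsheet t ht y hy hmem ζ hζ
  rw [eval_embV, pullT_embT] at key
  exact key

set_option maxHeartbeats 1000000 in
/-- Every point in the domain of the chart lies in the closure of the integral points, as soon as
some flowable base point is approached by that domain. -/
theorem inX_of_good (hr : 2 ≤ r) (hD : ∀ j, (D j).det = 1) {L : Fin g} (hL : L.1 + 1 = g)
    (q : Fin r) {x₀ : PT g s r ℂ} {l : Fin r → ℂ} {S S' : Matrix (Fin r) (Fin r) ℂ}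
    (hspec : Spec (x₀ (Sum.inl (L, false))) l S S') (hl : Indep l)
    (hloc : ∀ᶠ y in 𝓝 x₀, IsX D y → InX D O y)
    (hacc : ∀ N ∈ 𝓝 x₀, ∃ y ∈ N, IsX D y ∧ GoodPtX L D q y)
    {x : PT g s r ℂ} (hx : IsX D x) (hgood : GoodPtX L D q x) : InX D O x := by
  classical
  intro f hf
  have hr0 : r ≠ 0 := by omega
  obtain ⟨U, hU, hUo, hU0⟩ := eventually_nhds_iff.1 (hloc.and (flow_torusX hspec hl hf))
  obtain ⟨x₁, hx₁U, hx₁, hgood₁⟩ := hacc U (hUo.mem_nhds hU0)
  set KA : Slot g s := Sum.inl (L, false) with hKA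
  set KB : Slot g s := Sum.inl (L, true) with hKB
  -- invariance under the centre near the base point
  have hcentre : ∀ y ∈ U, IsX D y → ∀ ζ : ℂ, ζ ^ r = 1 →
      MvPolynomial.eval (xcoord (Function.update y KB (ζ • y KB))) f = 0 := by
    intro y hyU hy ζ hζ
    obtain ⟨P, P', w, hP, -, hyv⟩ := (hU y hyU).2 ((hU y hyU).1 hy)
    have h := hyv (fun _ => ζ) (by rw [Finset.prod_const, Finset.card_univ, Fintype.card_fin, hζ])
    have e : P * diagonal (fun _ => ζ) * P' = ζ • (1 : Matrix (Fin r) (Fin r) ℂ) := by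
      rw [show (diagonal fun _ => ζ : Matrix (Fin r) (Fin r) ℂ) = ζ • 1 from
        (Matrix.smul_one_eq_diagonal ζ).symm, Matrix.mul_smul, mul_one, Matrix.smul_mul, hP]
    rwa [e, Matrix.mul_smul, mul_one] at h
  -- paths of parameters
  choose γ hγ hγ0 hγ1 hγd using fun k => exists_sl_path hr (hx₁.1 k) (hx.1 k)
  let y₀ : ℂ → PT g s r ℂ := fun t k => if k = KA ∨ k = KB then 1 else γ k t
  have hy₀cd : ContDiff ℂ 1 y₀ := contDiff_pi.2 fun k => by
    by_cases hk : k = KA ∨ k = KB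
    · simp only [y₀, hk, if_true]; exact contDiff_const
    · simp only [y₀, hk, if_false]; exact hγ k
  have hy₀det : ∀ t k, (y₀ t k).det = 1 := fun t k => by
    by_cases hk : k = KA ∨ k = KB
    · simp [y₀, hk]
    · simp [y₀, hk, hγd]
  let W : ℂ → Matrix (Fin r) (Fin r) ℂ := fun t => WX L D (y₀ t)
  let a0 : ℂ → Matrix (Fin r) (Fin r) ℂ := fun t => (1 - t) • x₁ KA + t • x KA
  let u : ℂ → Fin r → ℂ := fun t => (1 - t) • (x₁ KB *ᵥ 1) + t • (x KB *ᵥ 1)
  let d : ℂ → ℂ := fun t => (chartM q (W t) (a0 t)).det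
  let Q : ℂ → Matrix (Fin r) (Fin r) ℂ := fun t => (d t • a0 t).updateCol q
    (adjugate (chartM q (W t) (a0 t)) *ᵥ chartRhs q (W t) (a0 t))
  let G : ℂ → ℂ := fun t => d t * (kryl (Q t) 1).det
  let a : ℂ → Matrix (Fin r) (Fin r) ℂ := fun t => (d t)⁻¹ • Q t
  let v : ℂ → Fin r → ℂ := fun t =>
    (d t)⁻¹ • (adjugate (chartM q (W t) (a0 t)) *ᵥ chartRhs q (W t) (a0 t))
  let b : ℂ → Matrix (Fin r) (Fin r) ℂ := fun t => intertw (a t) (W t * a t) 1 (u t)
  let Dt : ℂ → ℂ := fun t => (b t).det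
  let R : ℂ → PT g s r ℂ := fun t => Function.update (Function.update (y₀ t) KA (a t)) KB (b t)
  have ha0cd : ContDiff ℂ 1 a0 :=
    ((contDiff_const.sub contDiff_id).smul contDiff_const).add (contDiff_id.smul contDiff_const)
  have hucd : ContDiff ℂ 1 u :=
    ((contDiff_const.sub contDiff_id).smul contDiff_const).add (contDiff_id.smul contDiff_const)
  have hprod : ∀ {F : ℂ → PT g s r ℂ}, ContDiff ℂ 1 F → ContDiff ℂ 1 fun t => prodC D (F t) := by
    intro F hF
    have e : ∀ z : PT g s r ℂ, cpre D s z = prodC D z := fun z => by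
      rw [cpre, prodC, List.take_of_length_le (by simp [punList])]
    have h := contDiff_cpre (D := D) hF s
    simp only [e] at h
    exact h
  have hWcd : ContDiff ℂ 1 W := (hprod hy₀cd).mul (contDiff_pre (contDiff_hd hy₀cd) _)
  have hdcd : ContDiff ℂ 1 d := contDiff_det.comp (contDiff_chartM q hWcd ha0cd)
  have hQcd : ContDiff ℂ 1 Q := contDiff_updateCol q (hdcd.smul ha0cd)
    (contDiff_mulVec (contDiff_adjugate.comp (contDiff_chartM q hWcd ha0cd))
      (contDiff_chartRhs q hWcd ha0cd))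
  have hGcd : ContDiff ℂ 1 G := hdcd.mul (contDiff_det.comp (contDiff_kryl hQcd contDiff_const))
  have hWdet : ∀ t, (W t).det = 1 := fun t => by
    show (prodC D (y₀ t) * pre L.1 (hd (y₀ t))).det = 1
    rw [det_mul, det_pre (σ := hd (y₀ t)) (fun k => hy₀det t _), mul_one]
    exact det_list_prod _ fun M hM => by
      obtain ⟨k, rfl⟩ := List.mem_ofFn.1 hM
      exact det_pun hD (hy₀det t) k
  have hWR : ∀ (t : ℂ) (z : PT g s r ℂ), (∀ k, k ≠ KA → k ≠ KB → z k = y₀ t k) →
      WX L D z = W t := by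
    intro t z hz
    have h1 : pre L.1 (hd z) = pre L.1 (hd (y₀ t)) := pre_congr _ fun k hk c => by
      have hkL : k ≠ L := fun e => by subst e; exact lt_irrefl _ hk
      exact hz _ (by simp [hKA, hkL]) (by simp [hKB, hkL])
    have h2 : prodC D z = prodC D (y₀ t) := by
      simp only [prodC, punList]
      congr 2
      funext j
      rw [pun, pun, hz _ (by simp [hKA]) (by simp [hKB])]
    simp only [W, WX, h1, h2]
  have hav : ∀ t, d t ≠ 0 → a t = (a0 t).updateCol q (v t) := by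
    intro t ht
    ext i j
    by_cases hj : j = q
    · subst hj; simp [a, Q, v]
    · simp [a, Q, Matrix.updateCol_apply, hj, ht]
  have hsys : ∀ t, d t ≠ 0 → (a t).det = 1 ∧ (W t * a t).charpoly = (a t).charpoly := by
    intro t ht
    rw [hav t ht]
    refine (chart_iff (hWdet t) (v t)).1 ?_
    simp only [v, mulVec_smul, mulVec_mulVec, mul_adjugate, smul_mulVec, one_mulVec, smul_smul]
    rw [inv_mul_cancel₀ ht, one_smul]
  have hkr : ∀ t, G t ≠ 0 → (kryl (a t) 1).det ≠ 0 := by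
    intro t ht
    obtain ⟨h1, h2⟩ := mul_ne_zero_iff.1 ht
    simp only [a, kryl_smul, det_mul, det_diagonal]
    exact mul_ne_zero h2 (Finset.prod_ne_zero_iff.2 fun k _ => pow_ne_zero _ (inv_ne_zero h1))
  have hint : ∀ t, G t ≠ 0 → b t * a t = W t * a t * b t := fun t ht =>
    (intertw_spec (u t) (hkr t ht) (hsys t (mul_ne_zero_iff.1 ht).1).2).2
  have hne : KA ≠ KB := by simp [hKA, hKB]
  -- the end points
  have hend : ∀ (t₀ : ℂ) (z : PT g s r ℂ), IsX D z → GoodPtX L D q z → (∀ k, γ k t₀ = z k) →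
      a0 t₀ = z KA → u t₀ = z KB *ᵥ 1 → G t₀ ≠ 0 ∧ R t₀ = z := by
    intro t₀ z hz hg' hγs ha' hu'
    have hW' : W t₀ = WX L D z := (hWR t₀ z fun k h1 h2 => by simp [y₀, h1, h2, hγs]).symm
    have hd' : d t₀ ≠ 0 := by simp only [d, hW', ha']; exact hg'.1
    obtain ⟨hrel, hchar⟩ := good_factsX hL hz
    have hva : a t₀ = z KA := by
      have hcol : chartM q (W t₀) (a0 t₀) *ᵥ (fun i => z KA i q) =
          chartRhs q (W t₀) (a0 t₀) := by
        refine (chart_iff (hWdet t₀) _).2 ?_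
        rw [ha', show (z KA).updateCol q (fun i => z KA i q) = z KA from
          Matrix.updateCol_eq_self _ _, hW']
        exact ⟨hz.1 _, hchar⟩
      rw [hav t₀ hd']
      simp only [v]
      rw [← hcol, mulVec_mulVec, adjugate_mul, smul_mulVec, one_mulVec, smul_smul,
        inv_mul_cancel₀ hd', one_smul, ha']
      exact Matrix.updateCol_eq_self _ _
    have hG' : G t₀ ≠ 0 := by
      refine mul_ne_zero hd' ?_
      have : Q t₀ = d t₀ • a t₀ := by simp only [a]; rw [smul_inv_smul₀ hd']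
      rw [this, kryl_smul, det_mul, det_diagonal, hva]
      exact mul_ne_zero hg'.2 (Finset.prod_ne_zero_iff.2 fun k _ => pow_ne_zero _ hd')
    refine ⟨hG', ?_⟩
    have hb' : b t₀ = z KB := by
      simp only [b, hu', hW', hva]
      exact intertw_unique hg'.2 hrel
    funext k
    by_cases h2 : k = KB
    · subst h2; simp [R, hb']
    by_cases h1 : k = KA
    · subst h1; simp [R, hne, hva]
    simp [R, y₀, h1, h2, hγs]
  obtain ⟨hG0, hR0⟩ := hend 0 x₁ hx₁ hgood₁ hγ0 (by simp [a0]) (by simp [u])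
  obtain ⟨hG1, hR1⟩ := hend 1 x hx hgood hγ1 (by simp [a0]) (by simp [u])
  have hrep : ∀ t, G t ≠ 0 → ∀ y : ℂ, y ^ r * Dt t = 1 →
      IsX D (Function.update (R t) KB (y • R t KB)) := by
    intro t ht y hy
    refine isX_of_chartX hL (fun k => ?_) ?_
    · by_cases h2 : k = KB
      · subst h2; simpa [R, det_smul, Dt] using hy
      by_cases h1 : k = KA
      · subst h1; simpa [R, hne] using (hsys t (mul_ne_zero_iff.1 ht).1).1
      simpa [R, h1, h2] using hy₀det t k
    · rw [hWR t _ (fun k h1 h2 => by simp [R, h1, h2]), ← hKA, ← hKB]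
      simp [R, hne, Matrix.smul_mul, Matrix.mul_smul, hint t ht]
  have hRcd : ∀ t, G t ≠ 0 → ContDiffAt ℂ 1 R t := by
    intro t ht
    have ha : ContDiffAt ℂ 1 a t :=
      (hdcd.contDiffAt.inv (mul_ne_zero_iff.1 ht).1).smul hQcd.contDiffAt
    have hb : ContDiffAt ℂ 1 b t := by
      have hk : ∀ {v : ℂ → Fin r → ℂ} {M : ℂ → Matrix (Fin r) (Fin r) ℂ}, ContDiffAt ℂ 1 v t →
          ContDiffAt ℂ 1 M t → ContDiffAt ℂ 1 (fun z => kryl (M z) (v z)) t := fun hv hM =>
        (contDiff_kryl (E := Matrix (Fin r) (Fin r) ℂ × (Fin r → ℂ)) contDiff_fst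
          contDiff_snd).contDiffAt.comp t (hM.prodMk hv)
      have h1 := hk (v := fun _ => 1) contDiffAt_const ha
      have h2 := hk hucd.contDiffAt (hWcd.contDiffAt.mul ha)
      exact ((contDiff_det.contDiffAt.comp t h1).inv (hkr t ht)).smul
        (h2.mul (contDiff_adjugate.contDiffAt.comp t h1))
    refine contDiffAt_pi.2 fun k => ?_
    simp only [R, Function.update_apply]
    split_ifs
    · exact hb
    · exact ha
    · exact (contDiff_pi.1 hy₀cd k).contDiffAt
  have hΩo : IsOpen {t | G t ≠ 0} := isOpen_ne_fun hGcd.continuous continuous_const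
  have hΩc : IsPreconnected {t | G t ≠ 0} := by
    have h := ((countable_zeros hGcd hG1).isConnected_compl_of_one_lt_rank
      (by rw [Complex.rank_real_complex]; exact Cardinal.one_lt_two)).isPreconnected
    exact h
  have hd01 : ∀ (t₀ : ℂ) (z : PT g s r ℂ), IsX D z → R t₀ = z → (R t₀ KB).det = 1 :=
    fun t₀ z hz e => by rw [e]; exact hz.1 _
  have key := vanish_of_sheetsX hr0 L f (R := R) hΩo hΩc hG0 hG1 hRcd (hd01 0 x₁ hx₁ hR0)
    (hd01 1 x hx hR1) (U := U) (by rw [hR0]; exact hUo.mem_nhds hx₁U) fun t ht y hy hmem ζ hζ => by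
      rw [← hKB] at hy hmem ⊢
      have hy' : y ^ r * Dt t = 1 := by simpa [R, Dt] using hy
      have := hcentre _ hmem (hrep t ht y hy') ζ hζ
      simpa only [Function.update_idem, Function.update_self, smul_smul] using this
  rwa [hR1] at key

end Vale.Agent.P002.Sb
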