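import Vale.Agent.P002.Sb.Slide

/-!
# P002: linearisation of the slides of words at the slice, and of the relation
-/

namespace Vale.Agent.P002.Sb

open Matrix Filter Topology
open scoped Matrix.Norms.Operator

variable {r g s : ℕ} {L : Fin g} {A B : Matrix (Fin r) (Fin r) ℂ}
  {D : Fin s → Matrix (Fin r) (Fin r) ℂ}

theorem blkL_free (l : Ltr s) (X : Matrix (Fin r) (Fin r) ℂ) {k : Fin g} (hk : k ≠ L) (c : Bool) :
    blkL A B D L l X (Sum.inl (k, c)) = 0 := by
  rcases l with (_ | _) | j <;> simp [blkL, hk]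

theorem blkW_free : ∀ (w : List (Ltr s)) (X : Matrix (Fin r) (Fin r) ℂ) {k : Fin g}, k ≠ L →
    ∀ c : Bool, blkW A B D L w X (Sum.inl (k, c)) = 0
  | [], _, _, _, _ => rfl
  | l :: w, X, k, hk, c => by simp [blkW, blkW_free w X hk c, blkL_free l _ hk c]

theorem twX_pt (A B : Matrix (Fin r) (Fin r) ℂ) (a : Fin g → Matrix (Fin r) (Fin r) ℂ) :
    twX L (pt (s := s) L A B a) = pt L (A * B) B a := by
  funext k
  rcases k with ⟨k, c⟩ | j
  · show twA L (hd (pt (s := s) L A B a)) (k, c) = _
    by_cases hk : k = L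
    · subst hk; cases c <;> simp [twA, hd, pt]
    · simp [twA, hd, pt, hk]
  · rfl

theorem dif_bwdL (h : SeedOK A B D) (hL : L.1 + 1 = g) {i : Fin g} (hi : i < L) (l : Ltr s)
    {a a' : Fin g → Matrix (Fin r) (Fin r) ℂ} (ha' : ∀ k, (a' k).det = 1)
    {γ : ℂ → PT g s r ℂ} {Y : PT g s r ℂ} (hγ : DifX γ (pt L A B a') Y)
    (hY : ∀ k, k ≠ i → k ≠ L → Y (Sum.inl (k, true)) = 0)
    (hbase : bwdL L D i l (pt L A B a') = pt L A B a) :
    ∃ Y' : PT g s r ℂ, DifX (fun t => bwdL L D i l (γ t)) (pt L A B a) Y' ∧
      (∀ k, k ≠ i → k ≠ L → Y' (Sum.inl (k, true)) = 0) ∧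
      Y' (Sum.inl (i, true)) =
        ltrVal A B D l * Y (Sum.inl (i, true)) * adjugate (ltrVal A B D l) ∧
      (∀ c, Y' (Sum.inl (L, c)) = Y (Sum.inl (L, c)) +
        blkL A B D L l (Y (Sum.inl (i, true))) (Sum.inl (L, c))) ∧
      ∀ j, Y' (Sum.inr j) = Y (Sum.inr j) + blkL A B D L l (Y (Sum.inl (i, true))) (Sum.inr j) := by
  have hne : i ≠ L := ne_of_lt hi
  obtain ⟨a1, a2⟩ := mul_adj_cancel h.detA
  obtain ⟨b1, b2⟩ := mul_adj_cancel h.detB
  rcases l with (_ | _) | j
  · obtain ⟨Y', h1, h2, h3, h4, h5, h6⟩ := dif_phiX hi h.detA h.detB hγ hY hbase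
    refine ⟨Y', h1, h2, h3, fun c => ?_, fun j => ?_⟩
    · cases c
      · simp [h4, blkL]
      · simp [h5, blkL]
    · simp [h6, blkL]
  · set X := Y (Sum.inl (i, true))
    set P := A * B with hPdef
    have hP : P.det = 1 := by rw [hPdef, det_mul, h.detA, h.detB, one_mul]
    have hdx : ∀ k, (twX L (pt (s := s) L A B a') k).det = 1 := fun k => by
      rw [twX_pt, ← hPdef]
      rcases k with ⟨k, c⟩ | j
      · by_cases hk : k = L
        · subst hk; cases c <;> simp [pt, hP, h.detB]
        · cases c <;> simp [pt, hk, ha']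
      · simp [pt]
    let Yw : PT g s r ℂ := Function.update Y (Sum.inl (L, false))
      (Y (Sum.inl (L, false)) + A * Y (Sum.inl (L, true)) * adjugate A)
    have hw : DifX (fun t => twX L (γ t)) (pt L P B a') Yw := by
      intro k
      by_cases hk : k = Sum.inl (L, false)
      · subst hk
        have := (hγ (Sum.inl (L, false))).mul (hγ (Sum.inl (L, true)))
        simpa [Yw, twX, onHd, twA, hd, pt, P] using this
      · have h1 : Yw k = Y k := Function.update_of_ne hk _ _
        have h2 : pt (s := s) L P B a' k = pt L A B a' k := by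
          rcases k with ⟨k, c⟩ | j
          · by_cases hkL : k = L
            · subst hkL; cases c
              · exact absurd rfl hk
              · simp [pt]
            · simp [pt, hkL]
          · rfl
        have h3 : (fun t => twX L (γ t) k) = fun t => γ t k := by
          funext t
          rcases k with k | j
          · exact Function.update_of_ne (fun e => hk (by rw [e])) _ _
          · rfl
        rw [h1, h2]
        exact h3 ▸ hγ k
    have hb2 : phiX i L (pt (s := s) L P B a') = pt L P B a := by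
      have h1 := congrArg (twX L) hbase
      have hd2 : ∀ k, (phiX i L (twX L (pt (s := s) L A B a')) k).det = 1 := by
        rintro (k | j)
        · exact det_phiM (fun k => hdx (Sum.inl k)) k
        · exact hdx (Sum.inr j)
      change twX L (twX' L (phiX i L (twX L (pt (s := s) L A B a')))) = _ at h1
      rwa [(twX_twX' hd2 L).1, twX_pt, twX_pt, ← hPdef] at h1
    obtain ⟨Y', h1, h2, h3, h4, h5, h6⟩ := dif_phiX hi hP h.detB hw
      (fun k hk hk' => by simpa [Yw] using hY k hk hk') hb2
    have eX : Yw (Sum.inl (i, true)) = X := by simp [Yw, X]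
    rw [eX] at h3 h4 h5
    refine ⟨Function.update Y' (Sum.inl (L, false))
      (Y (Sum.inl (L, false)) + -X), fun k => ?_, fun k hk hk' => ?_, ?_, fun c => ?_, fun j => ?_⟩
    · by_cases hk : k = Sum.inl (L, false)
      · subst hk
        have := (h1 (Sum.inl (L, false))).mul (h1 (Sum.inl (L, true))).adj
        rw [Function.update_self]
        convert this using 1
        · funext t; simp [bwdL, twX', onHd, twA', hd]
        · simp [pt, P, mul_assoc, b1]
        · simp only [h4, h5, Yw, Function.update_self,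
            Function.update_of_ne (show (Sum.inl (L, true) : Slot g s) ≠ Sum.inl (L, false) by simp)]
          simp only [pt, Sum.elim_inl, if_true, cond_true, cond_false, P, adjugate_mul_distrib,
            mul_add, add_mul, mul_neg, neg_mul, mul_assoc,
            (cancel_left h.detB _).1, (cancel_left h.detB _).2]
          abel
      · have h7 : pt (s := s) L A B a k = pt L P B a k := by
          rcases k with ⟨k, c⟩ | j
          · by_cases hkL : k = L
            · subst hkL; cases c
              · exact absurd rfl hk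
              · simp [pt]
            · simp [pt, hkL]
          · rfl
        have h8 : (fun t => bwdL L D i (Sum.inl true) (γ t) k) =
            fun t => phiX i L (twX L (γ t)) k := by
          funext t
          rcases k with k | j
          · exact Function.update_of_ne (fun e => hk (by rw [e])) _ _
          · rfl
        rw [Function.update_of_ne hk, h7, h8]
        exact h1 k
    · rw [Function.update_of_ne (by simp)]; exact h2 k hk hk'
    · rw [Function.update_of_ne (by simp)]; exact h3
    · cases c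
      · simp [blkL, X]
      · rw [Function.update_of_ne (by simp), h5]
        simp [Yw, blkL, X]
    · rw [Function.update_of_ne (by simp), h6]
      simp [Yw, blkL]
  · obtain ⟨Y', h1, h2, h3, h4⟩ := dif_pushInv h hL hi j ha' hγ hbase
    refine ⟨Y', h1, fun k hk hk' => ?_, h2, fun c => ?_, fun j' => ?_⟩
    · rw [h4 _ (by simp) (by simp [hk]) (by simp)]; exact hY k hk hk'
    · rw [h4 _ (by simp [Ne.symm hne]) (by simp [Ne.symm hne]) (by simp)]
      simp [blkL]
    · by_cases hj : j' = j
      · subst hj; simp [h3, blkL, sub_eq_add_neg]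
      · rw [h4 _ (by simp) (by simp) (by simp [hj])]
        simp [blkL, hj]

theorem det_update {i : Fin g} {a : Fin g → Matrix (Fin r) (Fin r) ℂ} (ha : ∀ k, (a k).det = 1)
    {M : Matrix (Fin r) (Fin r) ℂ} (hM : M.det = 1) (k : Fin g) :
    (Function.update a i (a i * M) k).det = 1 := by
  by_cases hk : k = i
  · subst hk; simp [ha, hM]
  · simp [hk, ha]

/-- The slide of a word applied to a curve of tuples. -/
theorem dif_bwdW (h : SeedOK A B D) (hL : L.1 + 1 = g) {i : Fin g} (hi : i < L)
    {γ : ℂ → PT g s r ℂ} {Y : PT g s r ℂ}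
    (hY : ∀ k, k ≠ i → k ≠ L → Y (Sum.inl (k, true)) = 0) :
    ∀ (w : List (Ltr s)) {a : Fin g → Matrix (Fin r) (Fin r) ℂ}, (∀ k, (a k).det = 1) →
      DifX γ (pt L A B (Function.update a i (a i * wVal A B D w))) Y →
      ∃ Y' : PT g s r ℂ, DifX (fun t => bwdW L D i w (γ t)) (pt L A B a) Y' ∧
        (∀ k, k ≠ i → k ≠ L → Y' (Sum.inl (k, true)) = 0) ∧
        Y' (Sum.inl (i, true)) =
          wVal A B D w * Y (Sum.inl (i, true)) * adjugate (wVal A B D w) ∧
        (∀ c, Y' (Sum.inl (L, c)) = Y (Sum.inl (L, c)) +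
          blkW A B D L w (Y (Sum.inl (i, true))) (Sum.inl (L, c))) ∧
        ∀ j, Y' (Sum.inr j) = Y (Sum.inr j) +
          blkW A B D L w (Y (Sum.inl (i, true))) (Sum.inr j)
  | [], a, ha, hγ => by
    refine ⟨Y, ?_, hY, by simp [wVal], fun c => by simp [blkW], fun j => by simp [blkW]⟩
    simpa [wVal, bwdW] using hγ
  | l :: w, a, ha, hγ => by
    set al := Function.update a i (a i * ltrVal A B D l) with hal
    have hal' : ∀ k, (al k).det = 1 := det_update ha (det_ltrVal h l)
    have e : Function.update a i (a i * wVal A B D (l :: w)) =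
        Function.update al i (al i * wVal A B D w) := by
      simp [hal, wVal, mul_assoc]
    rw [e] at hγ
    obtain ⟨Y1, g1, g2, g3, g4, g5⟩ := dif_bwdW h hL hi hY w hal' hγ
    have hbase : bwdL L D i l (pt L A B al) = pt L A B a := by
      rw [hal, ← fwdL_pt h hL hi ha l]
      exact bwdL_fwdL h.detD hi (det_pt h ha) l
    obtain ⟨Y2, f1, f2, f3, f4, f5⟩ := dif_bwdL h hL hi l hal' g1 g2 hbase
    refine ⟨Y2, f1, f2, ?_, fun c => ?_, fun j => ?_⟩
    · rw [f3, g3]; simp [wVal, mul_assoc, adjugate_mul_distrib]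
    · rw [f4, g4, g3]; simp [blkW, add_assoc]
    · rw [f5, g5, g3]; simp [blkW, add_assoc]

/-- The derivative of a product of curves. -/
theorem dif_prod : ∀ {n : ℕ} {γ : Fin n → ℂ → Matrix (Fin r) (Fin r) ℂ}
    {x Y : Fin n → Matrix (Fin r) (Fin r) ℂ}, (∀ k, Dif (γ k) (x k) (Y k)) →
    Dif (fun t => (List.ofFn fun k => γ k t).prod) (List.ofFn x).prod
      (∑ k : Fin n, ((List.ofFn x).take k.1).prod * Y k *
        adjugate ((List.ofFn x).take k.1).prod)
  | 0, γ, x, Y, _ => by simpa using Dif.const (det_one (R := ℂ) (n := Fin r))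
  | n + 1, γ, x, Y, h => by
    have := (h 0).mul (dif_prod (γ := fun k : Fin n => γ k.succ) fun k => h k.succ)
    simpa [List.ofFn_succ, Fin.sum_univ_succ, Finset.mul_sum, Finset.sum_mul, mul_assoc,
      adjugate_mul_distrib] using this

/-- The linearised relation at a slice point. -/
noncomputable def relV (L : Fin g) (A B : Matrix (Fin r) (Fin r) ℂ)
    (D : Fin s → Matrix (Fin r) (Fin r) ℂ) (a : Fin g → Matrix (Fin r) (Fin r) ℂ)
    (Y : PT g s r ℂ) : Matrix (Fin r) (Fin r) ℂ :=
  (∑ k ∈ Finset.univ.erase L,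
      (a k * Y (Sum.inl (k, true)) * adjugate (a k) - Y (Sum.inl (k, true)))) +
    cmVar A B (Y (Sum.inl (L, false))) (Y (Sum.inl (L, true))) +
    ∑ j, segV A B D j * (Y (Sum.inr j) - D j * Y (Sum.inr j) * adjugate (D j)) *
      adjugate (segV A B D j)

theorem dif_relX (h : SeedOK A B D) (hL : L.1 + 1 = g) {a : Fin g → Matrix (Fin r) (Fin r) ℂ}
    (ha : ∀ k, (a k).det = 1) {γ : ℂ → PT g s r ℂ} {Y : PT g s r ℂ}
    (hγ : DifX γ (pt L A B a) Y) :
    Dif (fun t => relX D (γ t)) 1 (relV L A B D a Y) := by
  let γ' : ℂ → Tup g r ℂ := fun t k => if k.1 = L then 1 else hd (γ t) k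
  let a0 : Fin g → Matrix (Fin r) (Fin r) ℂ := fun k => if k = L then 1 else a k
  let Y0 : Fin g → Matrix (Fin r) (Fin r) ℂ := fun k =>
    if k = L then 0 else Y (Sum.inl (k, true))
  have hT : DifT γ' a0 Y0 := by
    intro k
    by_cases hk : k = L
    · simp only [γ', a0, Y0, hk, if_true]
      exact ⟨⟨0, Dif.const det_one⟩, Dif.const det_one⟩
    · have h1 := hγ (Sum.inl (k, false))
      have h2 := hγ (Sum.inl (k, true))
      simp only [γ', a0, Y0, hk, if_false]
      exact ⟨⟨_, by simpa [pt, hk, hd] using h1⟩, by simpa [pt, hk, hd] using h2⟩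
  have hpost : ∀ σ : Tup g r ℂ, post (L.1 + 1) σ = 1 := fun σ => by
    unfold post
    rw [List.drop_of_length_le (by simp [cmList, hL]), List.prod_nil]
  have hrel : ∀ t, rel adjugate (γ' t) = pre L.1 (hd (γ t)) := by
    intro t
    rw [rel_split (γ' t) L, hpost, mul_one,
      pre_congr (τ := hd (γ t)) L.1 fun k hk c => by
        have : k ≠ L := fun e => by subst e; exact lt_irrefl _ hk
        simp [γ', this]]
    simp [γ', cm]
  have h1 : Dif (fun t => pre L.1 (hd (γ t))) 1
      (∑ k ∈ Finset.univ.erase L,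
        (a k * Y (Sum.inl (k, true)) * adjugate (a k) - Y (Sum.inl (k, true)))) := by
    have := hT.rel
    simp only [hrel] at this
    rw [← Finset.add_sum_erase _ _ (Finset.mem_univ L)] at this
    simp only [a0, Y0, if_true, mul_zero, zero_mul, sub_zero, zero_add] at this
    convert this using 1
    exact Finset.sum_congr rfl fun k hk => by simp [Finset.ne_of_mem_erase hk]
  have h2 : Dif (fun t => cm adjugate (γ t (Sum.inl (L, false))) (γ t (Sum.inl (L, true))))
      (cm adjugate A B) (cmVar A B (Y (Sum.inl (L, false))) (Y (Sum.inl (L, true)))) := by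
    have hA : Dif (fun t => γ t (Sum.inl (L, false))) A (Y (Sum.inl (L, false))) := by
      simpa [pt] using hγ (Sum.inl (L, false))
    have hB : Dif (fun t => γ t (Sum.inl (L, true))) B (Y (Sum.inl (L, true))) := by
      simpa [pt] using hγ (Sum.inl (L, true))
    exact hA.cm_gen hB
  have h3 := dif_prod (γ := fun j t => pun D (γ t) j) (x := D)
    (Y := fun j => Y (Sum.inr j) - D j * Y (Sum.inr j) * adjugate (D j)) fun j => by
    have hh : Dif (fun t => γ t (Sum.inr j)) 1 (Y (Sum.inr j)) := by
      simpa [pt] using hγ (Sum.inr j)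
    have := (hh.mul (Dif.const (h.detD j))).mul hh.adj
    simpa [pun, sub_eq_add_neg] using this
  have h4 := (h1.mul h2).mul h3
  rw [one_mul, h.rel] at h4
  have e : (fun t => relX D (γ t)) = fun t => pre L.1 (hd (γ t)) *
      cm adjugate (γ t (Sum.inl (L, false))) (γ t (Sum.inl (L, true))) *
        (List.ofFn fun j => pun D (γ t) j).prod := by
    funext t
    rw [relX, rel_split (hd (γ t)) L, hpost, mul_one]
    rfl
  rw [e]
  convert h4 using 1
  simp only [relV, segV, one_mul, adjugate_one, mul_one, Finset.mul_sum, Finset.sum_mul,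
    adjugate_mul_distrib, mul_assoc]

end Vale.Agent.P002.Sb
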