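import Vale.Agent.P002.Main

/-!
# P002: a parametrised piece of a level set fills it near a point where the tangent spaces agree
-/

namespace Vale.Agent.P002.Sb

open Filter Topology

variable {E V W : Type*} [NormedAddCommGroup E] [NormedSpace ℂ E] [FiniteDimensional ℂ E]
  [NormedAddCommGroup V] [NormedSpace ℂ V] [FiniteDimensional ℂ V]
  [NormedAddCommGroup W] [NormedSpace ℂ W] [FiniteDimensional ℂ W]

/-- If the level set of `R` contains the image of `F` and has no larger tangent space at `F 0`,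
it agrees with that image near `F 0`. -/
theorem eventually_of_param {F : E → V} {R : V → W} {c : W} {P : V → Prop} (hF : ContDiff ℂ 1 F)
    (hR : ContDiff ℂ 1 R) (hconst : ∀ p, R (F p) = c) (hP : ∀ p, P (F p))
    (hker : ∀ v, fderiv ℂ R (F 0) v = 0 → ∃ d, fderiv ℂ F 0 d = v) :
    ∀ᶠ x in 𝓝 (F 0), R x = c → P x := by
  have : CompleteSpace E := FiniteDimensional.complete ℂ E
  have : CompleteSpace V := FiniteDimensional.complete ℂ V
  set DF := fderiv ℂ F 0
  set DR := fderiv ℂ R (F 0)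
  obtain ⟨C, hC⟩ := Submodule.exists_isCompl (LinearMap.range DF.toLinearMap)
  have : CompleteSpace C := FiniteDimensional.complete ℂ C
  have hFs : HasStrictFDerivAt F DF 0 := hF.contDiffAt.hasStrictFDerivAt one_ne_zero
  have hPs : HasStrictFDerivAt (fun x : E × C => F x.1 + C.subtypeL x.2) (DF.coprod C.subtypeL) 0 := by
    have h1 : HasStrictFDerivAt (fun x : E × C => F x.1)
        (DF.comp (ContinuousLinearMap.fst ℂ _ _)) 0 :=
      HasStrictFDerivAt.comp 0 hFs hasStrictFDerivAt_fst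
    have h2 : HasStrictFDerivAt (fun x : E × C => C.subtypeL x.2)
        (C.subtypeL.comp (ContinuousLinearMap.snd ℂ _ _)) 0 :=
      HasStrictFDerivAt.comp 0 C.subtypeL.hasStrictFDerivAt hasStrictFDerivAt_snd
    exact h1.add h2
  have hsurj : (DF.coprod C.subtypeL).range = ⊤ := by
    rw [LinearMap.range_eq_top]
    intro v
    have hm : v ∈ LinearMap.range DF.toLinearMap ⊔ C := by rw [hC.sup_eq_top]; trivial
    obtain ⟨a, ⟨d, rfl⟩, w, hw, rfl⟩ := Submodule.mem_sup.1 hm
    exact ⟨(d, ⟨w, hw⟩), rfl⟩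
  have hmap := hPs.map_nhds_eq_of_surj hsurj
  simp only [Prod.fst_zero, Prod.snd_zero, map_zero, add_zero] at hmap
  suffices H : ∀ᶠ x in 𝓝 (0 : E × C),
      R (F x.1 + C.subtypeL x.2) = c → P (F x.1 + C.subtypeL x.2) by
    exact Eventually.filter_mono hmap.ge (Filter.eventually_map.2 H)
  have hRs : HasStrictFDerivAt R DR ((fun x : E × C => F x.1 + C.subtypeL x.2) 0) := by
    simp only [Prod.fst_zero, Prod.snd_zero, map_zero, add_zero]
    exact hR.contDiffAt.hasStrictFDerivAt one_ne_zero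
  have hΦ := hRs.comp 0 hPs
  have hinjC : Function.Injective (DR.toLinearMap.comp C.subtype) := by
    rw [← LinearMap.ker_eq_bot, LinearMap.ker_eq_bot']
    intro w hw
    have h1 : (w : V) ∈ LinearMap.range DF.toLinearMap ⊓ C := ⟨hker _ hw, w.2⟩
    rw [hC.inf_eq_bot] at h1
    exact Subtype.ext h1
  obtain ⟨K, -, hK⟩ :=
    (DR.toLinearMap.comp C.subtype).exists_antilipschitzWith (LinearMap.ker_eq_bot.2 hinjC)
  have hlit := hΦ.isLittleO.def (show (0 : ℝ) < 1 / (2 * (K : ℝ) + 1) by positivity)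
  have htend : Tendsto (fun x : E × C => (x, (x.1, (0 : C)))) (𝓝 0) (𝓝 (0, 0)) :=
    (continuous_id.prodMk (continuous_fst.prodMk continuous_const)).tendsto 0
  filter_upwards [htend.eventually hlit] with x hx hxc
  have hx2 : x.2 = 0 := by
    have e2 : R (F x.1 + C.subtypeL (0 : C)) = c := by rw [map_zero, add_zero]; exact hconst x.1
    have e3 : (DR.comp (DF.coprod C.subtypeL)) (x - (x.1, (0 : C))) = DR (x.2 : V) := by
      rw [show x - (x.1, (0 : C)) = (0, x.2) from Prod.ext (sub_self _) (sub_zero _)]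
      show DR (DF 0 + C.subtypeL x.2) = _
      rw [map_zero, zero_add]
      rfl
    have e4 : ‖x - (x.1, (0 : C))‖ = ‖x.2‖ := by
      rw [show x - (x.1, (0 : C)) = (0, x.2) from Prod.ext (sub_self _) (sub_zero _)]
      simp [Prod.norm_def]
    replace hx : ‖R (F x.1 + C.subtypeL x.2) - R (F x.1 + C.subtypeL (0 : C)) -
      (DR.comp (DF.coprod C.subtypeL)) (x - (x.1, (0 : C)))‖ ≤
        1 / (2 * (K : ℝ) + 1) * ‖x - (x.1, (0 : C))‖ := hx
    rw [hxc, e2, sub_self, e3, zero_sub, norm_neg, e4] at hx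
    have h5 : ‖x.2‖ ≤ K * ‖DR (x.2 : V)‖ := by
      simpa [dist_zero_right] using hK.le_mul_dist x.2 0
    have hK0 : (0 : ℝ) ≤ K := K.2
    have hd : (1 / (2 * (K : ℝ) + 1)) * ‖x.2‖ * K ≤ ‖x.2‖ / 2 := by
      rw [div_mul_eq_mul_div, one_mul, div_mul_eq_mul_div, div_le_div_iff₀ (by positivity) two_pos]
      nlinarith [norm_nonneg x.2]
    have h6 : ‖x.2‖ ≤ ‖x.2‖ / 2 :=
      h5.trans (le_trans (le_of_le_of_eq (mul_le_mul_of_nonneg_left hx hK0) (by ring)) hd)
    exact norm_eq_zero.1 (le_antisymm (by linarith [norm_nonneg x.2]) (norm_nonneg _))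
  show P (F x.1 + C.subtypeL x.2)
  rw [hx2, map_zero, add_zero]
  exact hP x.1

end Vale.Agent.P002.Sb
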