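import Vale.Agent.P002.Sb.FlowX
import Vale.Agent.P002.Sb.Local

/-!
# P002: near a slice point the punctured relation lies in the closure of the integral points
-/

namespace Vale.Agent.P002.Sb

open Matrix Filter Topology
open scoped Matrix.Norms.Operator

set_option backward.isDefEq.respectTransparency false

variable {r g s : ℕ} {L : Fin g} {A B : Matrix (Fin r) (Fin r) ℂ}
  {D : Fin s → Matrix (Fin r) (Fin r) ℂ} {O : Subring ℂ}

/-- The hypotheses on the seed and the ring. -/
structure Setup (L : Fin g) (A B : Matrix (Fin r) (Fin r) ℂ)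
    (D : Fin s → Matrix (Fin r) (Fin r) ℂ) (O : Subring ℂ) : Prop where
  seed : SeedFull A B D
  last : L.1 + 1 = g
  two_g : 2 ≤ g
  two_r : 2 ≤ r
  memA : A ∈ MatR O r
  memB : B ∈ MatR O r
  memD : ∀ j, D j ∈ MatR O r

theorem Setup.lt (h : Setup L A B D O) {i : Fin g} (hi : i ≠ L) : i < L := by
  have := h.last
  have : i.1 ≠ L.1 := fun e => hi (Fin.ext e)
  show i.1 < L.1
  omega

/-- The slice lies in the closure of the integral points. -/
theorem inX_pt (h : Setup L A B D O) {a : Fin g → Matrix (Fin r) (Fin r) ℂ}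
    (ha : ∀ i, (a i).det = 1) : InX D O (pt L A B a) := by
  intro f hf
  let T : XVar g s r → MvPolynomial (Var g r) ℂ := fun v => match v.1 with
    | Sum.inl (k, c) =>
        if k = L then MvPolynomial.C ((bif c then B else A) v.2.1 v.2.2)
        else bif c then MvPolynomial.C ((1 : Matrix (Fin r) (Fin r) ℂ) v.2.1 v.2.2)
          else MvPolynomial.X ((k, false), v.2.1, v.2.2)
    | Sum.inr _ => MvPolynomial.C ((1 : Matrix (Fin r) (Fin r) ℂ) v.2.1 v.2.2)
  have hT : ∀ (σ : Tup g r ℂ) k p q, MvPolynomial.eval (coord σ) (T (k, p, q)) =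
      pt (s := s) L A B (fun i => σ (i, false)) k p q := by
    intro σ k p q
    rcases k with ⟨k, c⟩ | j
    · by_cases hk : k = L
      · cases c <;> simp [T, pt, hk]
      · cases c <;> simp [T, pt, hk, coord]
    · simp [T, pt]
  have hV : VanL (MvPolynomial.bind₁ T f) := by
    intro C
    rw [eval_bind (fun k p q => hT _ k p q)]
    refine hf _ ⟨isX_pt h.seed.toSeedOK (fun i => ?_) h.last, fun k => ?_⟩
    · show ((Int.castRingHom ℂ).mapMatrix (C i : Matrix (Fin r) (Fin r) ℤ)).det = 1
      rw [← RingHom.map_det, (C i).2, map_one]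
    · rcases k with ⟨k, c⟩ | j
      · by_cases hk : k = L
        · cases c
          · simpa [pt, hk] using h.memA
          · simpa [pt, hk] using h.memB
        · cases c
          · simp only [pt, Sum.elim_inl, hk, if_false, cond_false, mem_MatR, castT]
            intro p q
            simp
          · simpa [pt, hk] using one_mem (MatR O r)
      · simpa [pt] using one_mem (MatR O r)
  have := inL_all h.two_r (fun i => ⟨a i, ha i⟩) _ hV
  rw [eval_bind (fun k p q => hT _ k p q)] at this
  simpa [lagC, lag] using this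

/-- The starting parameters. -/
abbrev Start (g r n : ℕ) := (Fin g → Matrix (Fin r) (Fin r) ℂ) × (Fin n → ℂ)

/-- The starting family of free handle matrices. -/
noncomputable def aStart {n : ℕ} (a0 : Fin g → Matrix (Fin r) (Fin r) ℂ)
    (γ : Fin n → ℂ → Matrix (Fin r) (Fin r) ℂ) (p : Start g r n) (i : Fin g) :
    Matrix (Fin r) (Fin r) ℂ :=
  a0 i * NormedSpace.exp (tl (p.1 i)) * (List.ofFn fun k => γ k (p.2 k)).prod

/-- Paths from the identity in the special linear group. -/
structure Paths {n : ℕ} (γ : Fin n → ℂ → Matrix (Fin r) (Fin r) ℂ) : Prop where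
  smooth : ∀ k, ContDiff ℂ 1 (γ k)
  det : ∀ k t, (γ k t).det = 1
  zero : ∀ k, γ k 0 = 1

section start

variable {n : ℕ} {a0 : Fin g → Matrix (Fin r) (Fin r) ℂ} {γ : Fin n → ℂ → Matrix (Fin r) (Fin r) ℂ}

theorem det_aStart (ha0 : ∀ i, (a0 i).det = 1) (hγ : Paths γ) (p : Start g r n) (i : Fin g) :
    (aStart a0 γ p i).det = 1 := by
  have h1 := det_exp_tl (p.1 i) 1
  rw [one_smul] at h1
  rw [aStart, det_mul, det_mul, ha0, h1, one_mul, one_mul]
  exact det_list_prod _ fun M hM => by
    obtain ⟨k, rfl⟩ := List.mem_ofFn.1 hM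
    exact hγ.det k _

theorem contDiff_aStart (hγ : Paths γ) :
    ContDiff ℂ 1 fun p : Start g r n => pt (s := s) L A B (aStart a0 γ p) := by
  refine contDiff_pi.2 fun k => ?_
  rcases k with ⟨k, c⟩ | j
  · by_cases hk : k = L
    · cases c <;> simp only [pt, Sum.elim_inl, hk, if_true] <;> exact contDiff_const
    · cases c
      · simp only [pt, Sum.elim_inl, hk, if_false, cond_false, aStart]
        refine (contDiff_const.mul (contDiff_exp.comp (contDiff_tl.comp
          ((contDiff_apply ℂ _ k).comp contDiff_fst)))).mul ?_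
        have := contDiff_list_prod (List.ofFn fun m (p : Start g r n) => γ m (p.2 m))
          fun G hG => by
            obtain ⟨m, rfl⟩ := List.mem_ofFn.1 hG
            exact (hγ.smooth m).comp ((contDiff_apply ℂ ℂ m).comp contDiff_snd)
        simpa only [List.map_ofFn, Function.comp_def] using this
      · simp only [pt, Sum.elim_inl, hk, if_false, cond_true]; exact contDiff_const
  · exact contDiff_const

theorem list_prod_ones : ∀ {n : ℕ} (F : Fin n → Matrix (Fin r) (Fin r) ℂ), (∀ k, F k = 1) →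
    (List.ofFn F).prod = 1
  | 0, F, _ => by simp
  | n + 1, F, hF => by simp [List.ofFn_succ, hF, list_prod_ones (fun k => F k.succ) fun k => hF _]

theorem list_prod_single : ∀ {n : ℕ} (F : Fin n → Matrix (Fin r) (Fin r) ℂ) (k : Fin n),
    (∀ m, m ≠ k → F m = 1) → (List.ofFn F).prod = F k
  | n + 1, F, k, hF => by
    cases k using Fin.cases with
    | zero =>
      rw [List.ofFn_succ, List.prod_cons,
        list_prod_ones (fun m => F m.succ) fun m => hF _ (Fin.succ_ne_zero m), mul_one]
    | succ k =>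
      rw [List.ofFn_succ, List.prod_cons, hF 0 (Fin.succ_ne_zero k).symm, one_mul,
        list_prod_single (fun m => F m.succ) k fun m hm => hF _ fun e => hm (Fin.succ_injective _ e)]

theorem aStart_zero (hγ : Paths γ) : aStart a0 γ (0 : Start g r n) = a0 := by
  funext i
  simp [aStart, tl, list_prod_ones _ hγ.zero]

end start

/-- A twist at handle `i` conjugated by the slide of the word `w`. -/
noncomputable def GX (L : Fin g) (D : Fin s → Matrix (Fin r) (Fin r) ℂ) (i : Fin g)
    (w : List (Ltr s)) (t : ℂ) (x : PT g s r ℂ) : PT g s r ℂ :=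
  bwdW L D i w (tauX i t (fwdW L D i w x))

theorem contDiff_GX {E : Type*} [NormedAddCommGroup E] [NormedSpace ℂ E] {F : E → PT g s r ℂ}
    (hF : ContDiff ℂ 1 F) {t : E → ℂ} (ht : ContDiff ℂ 1 t) (i : Fin g) (w : List (Ltr s)) :
    ContDiff ℂ 1 fun x => GX L D i w (t x) (F x) := by
  refine (contDiff_fwdW L i w ?_).2
  have hG := (contDiff_fwdW (D := D) L i w hF).1
  refine contDiff_pi.2 fun k => ?_
  rcases k with c | j
  swap
  · exact contDiff_pi.1 hG (Sum.inr j)
  have h := contDiff_pi.1 (contDiff_hd hG)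
  show ContDiff ℂ 1 fun x => tau i 1 (t x) (hd (fwdW L D i w (F x))) c
  by_cases hc : c = (i, true)
  · subst hc
    simp only [tau, Function.update_self]
    exact (h _).mul (contDiff_exp.comp (ht.smul (contDiff_tl.comp ((h _).pow 1))))
  · simp only [tau, Function.update_of_ne hc]
    exact h c

theorem tauX_zero (i : Fin g) (x : PT g s r ℂ) : tauX i 0 x = x := by
  funext k
  rcases k with k | j
  · show tau i 1 0 (hd x) k = hd x k
    simp [tau]
  · rfl

section family

variable {n : ℕ} {a0 : Fin g → Matrix (Fin r) (Fin r) ℂ} {γ : Fin n → ℂ → Matrix (Fin r) (Fin r) ℂ}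

/-- A family inside the closure extending the starting family. -/
structure IsFamX (D : Fin s → Matrix (Fin r) (Fin r) ℂ) (O : Subring ℂ) (L : Fin g)
    (A B : Matrix (Fin r) (Fin r) ℂ) (a0 : Fin g → Matrix (Fin r) (Fin r) ℂ)
    (γ : Fin n → ℂ → Matrix (Fin r) (Fin r) ℂ) {m : ℕ}
    (F : Start g r n × (Fin m → ℂ) → PT g s r ℂ) : Prop where
  smooth : ContDiff ℂ 1 F
  inX : ∀ p, InX D O (F p)
  start : ∀ q, F (q, 0) = pt L A B (aStart a0 γ q)
  dets : ∀ p k, (F p k).det = 1

theorem inX_det {x : PT g s r ℂ} (hx : InX D O x) (k : Slot g s) : (x k).det = 1 := by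
  have e : ∀ y : PT g s r ℂ, MvPolynomial.eval (xcoord y)
      ((Matrix.of fun a b => (MvPolynomial.X (k, a, b) : MvPolynomial (XVar g s r) ℂ)).det - 1) =
      (y k).det - 1 := by
    intro y
    rw [map_sub, map_one, RingHom.map_det]
    congr 2
    ext a b; simp [xcoord]
  have := hx _ fun y hy => by rw [e, hy.1.1 k, sub_self]
  rwa [e, sub_eq_zero] at this

theorem isFamX_init (h : Setup L A B D O) (ha0 : ∀ i, (a0 i).det = 1) (hγ : Paths γ) :
    IsFamX D O L A B a0 γ (fun p : Start g r n × (Fin 0 → ℂ) => pt L A B (aStart a0 γ p.1)) :=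
  ⟨(contDiff_aStart hγ).comp contDiff_fst, fun p => inX_pt h (det_aStart ha0 hγ p.1),
    fun _ => rfl, fun p => det_pt h.seed.toSeedOK (det_aStart ha0 hγ p.1)⟩

/-- A step is usable when some starting parameter gives the slid handle a generic spectrum. -/
def Reach (L : Fin g) (A B : Matrix (Fin r) (Fin r) ℂ) (D : Fin s → Matrix (Fin r) (Fin r) ℂ)
    (a0 : Fin g → Matrix (Fin r) (Fin r) ℂ) (γ : Fin n → ℂ → Matrix (Fin r) (Fin r) ℂ)
    (t : Fin g × List (Ltr s)) : Prop :=
  t.1 ≠ L ∧ ∃ (q : Start g r n) (l : Fin r → ℂ), Indep l ∧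
    aStart a0 γ q t.1 * wVal A B D t.2 = diagonal l

theorem inX_step (h : Setup L A B D O) (ha0 : ∀ i, (a0 i).det = 1) (hγ : Paths γ) {m : ℕ}
    {F : Start g r n × (Fin m → ℂ) → PT g s r ℂ} (hF : IsFamX D O L A B a0 γ F) {i : Fin g}
    {w : List (Ltr s)} (hreach : Reach L A B D a0 γ (i, w))
    (p : (Start g r n × (Fin m → ℂ)) × ℂ) : InX D O (GX L D i w p.2 (F p.1)) := by
  intro f hf
  obtain ⟨hiL, q, l, hl, hq⟩ := hreach
  have hi := h.lt hiL
  obtain ⟨hfwd, hbwd⟩ := pullX_fwdW (O := O) (L := L) h.seed.detD h.memD hi w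
  obtain ⟨f', hf', he⟩ := hbwd f hf
  let u := fun x : (Start g r n × (Fin m → ℂ)) × ℂ =>
    MvPolynomial.eval (xcoord (GX L D i w x.2 (F x.1))) f
  have hu : ContDiff ℂ 1 u :=
    contDiff_evalX f (contDiff_GX (hF.smooth.comp contDiff_fst) contDiff_snd i w)
  let p1 : (Start g r n × (Fin m → ℂ)) × ℂ := ((q, 0), 0)
  have hspec : Spec (fwdW L D i w (pt L A B (aStart a0 γ q)) (Sum.inl (i, false))) l 1 1 := by
    rw [fwdW_pt h.seed.toSeedOK h.last hi w (det_aStart ha0 hγ q)]
    exact ⟨one_mul 1, by simp [pt, hiL, hq]⟩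
  have hloc : ∀ᶠ x in 𝓝 p1, u x = 0 := by
    have hc : Tendsto (fun x : (Start g r n × (Fin m → ℂ)) × ℂ => fwdW L D i w (F x.1)) (𝓝 p1)
        (𝓝 (fwdW L D i w (pt L A B (aStart a0 γ q)))) := by
      rw [← hF.start]
      exact ((contDiff_fwdW L i w (hF.smooth.comp contDiff_fst)).1).continuous.tendsto p1
    filter_upwards [hc.eventually (flow_lemmaX hspec hl hf')] with x hx
    show MvPolynomial.eval (xcoord (GX L D i w x.2 (F x.1))) f = 0
    rw [GX, ← he]
    exact hx (hfwd.inX (hF.inX _)) x.2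
  let v := fun t : ℂ => u (p1 + t • (p - p1))
  have hline : ContDiff ℂ 1 fun t : ℂ => p1 + t • (p - p1) :=
    contDiff_const.add (contDiff_id.smul contDiff_const)
  have hv : AnalyticOnNhd ℂ v Set.univ := fun z _ =>
    ((hu.comp hline).differentiable one_ne_zero).analyticAt z
  have hv0 : v =ᶠ[𝓝 0] 0 := by
    have ht : Tendsto (fun t : ℂ => p1 + t • (p - p1)) (𝓝 0) (𝓝 p1) := by
      have := hline.continuous.tendsto 0
      rw [zero_smul, add_zero] at this
      exact this
    exact ht.eventually hloc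
  have := hv.eqOn_zero_of_preconnected_of_eventuallyEq_zero isPreconnected_univ (Set.mem_univ 0)
    hv0 (Set.mem_univ 1)
  simpa [v, u] using this

/-- The tangent vector of a step. -/
noncomputable def vstepX (L : Fin g) (A B : Matrix (Fin r) (Fin r) ℂ)
    (D : Fin s → Matrix (Fin r) (Fin r) ℂ) (a0 : Fin g → Matrix (Fin r) (Fin r) ℂ)
    (t : Fin g × List (Ltr s)) : PT g s r ℂ :=
  deriv (fun z => GX L D t.1 t.2 z (pt L A B a0)) 0

theorem exists_famX (h : Setup L A B D O) (ha0 : ∀ i, (a0 i).det = 1) (hγ : Paths γ)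
    (S : List (Fin g × List (Ltr s))) (hS : ∀ t ∈ S, Reach L A B D a0 γ t) :
    ∃ m, ∃ F : Start g r n × (Fin m → ℂ) → PT g s r ℂ, IsFamX D O L A B a0 γ F ∧
      ∀ t ∈ S, ∃ d, fderiv ℂ F 0 d = vstepX L A B D a0 t := by
  induction S with
  | nil => exact ⟨0, _, isFamX_init h ha0 hγ, by simp⟩
  | cons t S ih =>
    obtain ⟨m, F, hF, hd⟩ := ih fun u hu => hS u (by simp [hu])
    obtain ⟨i, w⟩ := t
    have hr := hS (i, w) (by simp)
    let X := Start g r n
    let ini : (Fin (m + 1) → ℂ) →L[ℂ] (Fin m → ℂ) :=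
      ContinuousLinearMap.pi fun a => ContinuousLinearMap.proj a.castSucc
    let F' : X × (Fin (m + 1) → ℂ) → PT g s r ℂ :=
      fun p => GX L D i w (p.2 (Fin.last m)) (F (p.1, ini p.2))
    have hsm : ContDiff ℂ 1 F' :=
      contDiff_GX (hF.smooth.comp (contDiff_fst.prodMk (ini.contDiff.comp contDiff_snd)))
        ((contDiff_apply ℂ ℂ (Fin.last m)).comp contDiff_snd) i w
    have hzero : ∀ (q : X) (z : Fin (m + 1) → ℂ), z (Fin.last m) = 0 → F' (q, z) = F (q, ini z) :=
      fun q z hz => by
        simp only [F', hz, GX, tauX_zero]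
        exact bwdW_fwdW h.seed.detD (h.lt hr.1) w (hF.dets _)
    have hin : ∀ p, InX D O (F' p) := fun p =>
      inX_step h ha0 hγ hF hr ((p.1, ini p.2), p.2 (Fin.last m))
    refine ⟨m + 1, F', ⟨hsm, hin, fun q => ?_, fun p k => inX_det (hin p) k⟩, ?_⟩
    · rw [hzero q 0 rfl, map_zero, hF.start]
    · have hdiff : DifferentiableAt ℂ F' 0 := hsm.differentiable one_ne_zero 0
      intro u hu
      rw [List.mem_cons] at hu
      rcases hu with rfl | hu
      · let e : ℂ →L[ℂ] X × (Fin (m + 1) → ℂ) :=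
          (ContinuousLinearMap.inr ℂ X _).comp
            (ContinuousLinearMap.pi fun a => if a = Fin.last m then ContinuousLinearMap.id ℂ ℂ else 0)
        refine ⟨e 1, ?_⟩
        have he : (fun z => GX L D i w z (pt L A B a0)) = fun z => F' (e z) := by
          funext z
          have h1 : ini (e z).2 = 0 := by
            funext a
            simp [ini, e, Fin.castSucc_ne_last]
          have h2 : (e z).2 (Fin.last m) = z := by simp [e]
          have h3 : (e z).1 = 0 := by simp [e]
          simp only [F', h1, h2, h3, hF.start, aStart_zero hγ]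
        simp only [vstepX, he]
        have := hdiff.hasFDerivAt.comp_hasDerivAt_of_eq (0 : ℂ) e.hasDerivAt (map_zero e).symm
        exact this.deriv.symm
      · obtain ⟨d, hd'⟩ := hd u hu
        let emb : (Fin m → ℂ) →L[ℂ] (Fin (m + 1) → ℂ) := ContinuousLinearMap.pi
          fun a => Fin.lastCases 0 (fun b => ContinuousLinearMap.proj b) a
        let ι := (ContinuousLinearMap.id ℂ X).prodMap emb
        refine ⟨ι d, ?_⟩
        have he : F = fun p => F' (ι p) := by
          funext ⟨q, z⟩
          have h1 : ini (emb z) = z := by funext a; simp [ini, emb]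
          show F (q, z) = F' (q, emb z)
          rw [hzero q _ (by simp [emb]), h1]
        have hc : HasFDerivAt (fun p => F' (ι p)) ((fderiv ℂ F' 0).comp ι) 0 :=
          (show HasFDerivAt F' (fderiv ℂ F' 0) (ι 0) by
            rw [map_zero]; exact hdiff.hasFDerivAt).comp 0 ι.hasFDerivAt
        rw [← hd', ← (he ▸ hc : HasFDerivAt F _ 0).fderiv.symm]
        rfl

/-- The right logarithmic derivative of a step. -/
theorem vstepX_spec (h : Setup L A B D O) (ha0 : ∀ i, (a0 i).det = 1) {i : Fin g} (hiL : i ≠ L)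
    (w : List (Ltr s)) :
    ∃ Y : PT g s r ℂ, (∀ k, vstepX L A B D a0 (i, w) k = Y k * pt L A B a0 k) ∧
      (∀ k, trace (Y k) = 0) ∧
      ∀ k, (∀ m, m ≠ L → k ≠ Sum.inl (m, false)) →
        Y k = (Pi.single (Sum.inl (i, true))
          (wVal A B D w * tl (a0 i * wVal A B D w) * adjugate (wVal A B D w)) +
          blkW A B D L w (tl (a0 i * wVal A B D w)) : PT g s r ℂ) k := by
  have hr : r ≠ 0 := by have := h.two_r; omega
  have hi := h.lt hiL
  have hs := h.seed.toSeedOK
  set W := wVal A B D w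
  set a1 := Function.update a0 i (a0 i * W) with ha1
  have ha1' : ∀ k, (a1 k).det = 1 := det_update ha0 (det_wVal hs w)
  set X := tl (a0 i * W) with hX
  let Y0 : PT g s r ℂ := Pi.single (Sum.inl (i, true)) X
  have h0 : DifX (fun t => tauX i t (pt L A B a1)) (pt L A B a1) Y0 := by
    intro k
    by_cases hk : k = Sum.inl (i, true)
    · subst hk
      refine ⟨by simp [tauX, onHd, tau, hd], det_pt hs ha1' _, by simp [Y0, hX, trace_tl hr], ?_⟩
      have h1 := hasDerivAt_exp_smul_const (𝕂 := ℂ) X (0 : ℂ)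
      rw [zero_smul, NormedSpace.exp_zero, one_mul] at h1
      have e : (fun t => tauX i t (pt (s := s) L A B a1) (Sum.inl (i, true))) =
          fun t => NormedSpace.exp (t • X) := by
        funext t; simp [tauX, onHd, tau, hd, pt, hiL, ha1, hX]
      rw [e, show pt (s := s) L A B a1 (Sum.inl (i, true)) = 1 by simp [pt, hiL]]
      simpa [Y0] using h1
    · have e : (fun t => tauX i t (pt (s := s) L A B a1) k) = fun _ => pt L A B a1 k := by
        funext t
        rcases k with k | j
        · exact Function.update_of_ne (fun e => hk (by rw [e])) _ _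
        · rfl
      rw [e, show Y0 k = 0 from Pi.single_eq_of_ne hk _]
      exact Dif.const (det_pt hs ha1' k)
  obtain ⟨Y, h1, h2, h3, h4, h5⟩ := dif_bwdW hs h.last hi
    (fun k hk _ => by simp [Y0, hk]) w ha0 h0
  refine ⟨Y, fun k => ?_, fun k => (h1 k).tr, fun k hk => ?_⟩
  · have e : (fun z => GX L D i w z (pt L A B a0)) =
        fun z => bwdW L D i w (tauX i z (pt L A B a1)) := by
      funext z
      rw [GX, fwdW_pt hs h.last hi w ha0]
    have hder : HasDerivAt (fun z => GX L D i w z (pt L A B a0))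
        (fun k => Y k * pt L A B a0 k) 0 := by
      rw [e]; exact hasDerivAt_pi.2 fun k => (h1 k).der
    show deriv (fun z => GX L D i w z (pt L A B a0)) 0 k = _
    rw [hder.deriv]
  · rcases k with ⟨k, c⟩ | j
    · by_cases hkL : k = L
      · subst hkL
        rw [h4 c]
        simp [Y0, Ne.symm hiL, hX]
      · cases c
        · exact absurd rfl (hk k hkL)
        · by_cases hki : k = i
          · subst hki
            rw [h3]
            simp [Y0, blkW_free w _ hkL, hX, W]
          · rw [h2 k hki hkL]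
            simp [blkW_free w _ hkL, hki]
    · rw [h5 j]
      simp [Y0, hX]

end family

/-- The equations of the punctured variety. -/
noncomputable def RequX (D : Fin s → Matrix (Fin r) (Fin r) ℂ) (x : PT g s r ℂ) :
    (Slot g s → ℂ) × Matrix (Fin r) (Fin r) ℂ :=
  (fun k => (x k).det, relX D x)

theorem contDiff_RequX (D : Fin s → Matrix (Fin r) (Fin r) ℂ) :
    ContDiff ℂ 1 (RequX (g := g) D) :=
  (contDiff_pi.2 fun k => contDiff_det.comp (contDiff_apply ℂ _ k)).prodMk
    (contDiff_relX contDiff_id)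

theorem requX_eq {x : PT g s r ℂ} (hx : IsX D x) : RequX D x = (fun _ => 1, 1) :=
  Prod.ext (funext hx.1) hx.2

theorem inX_isX {x : PT g s r ℂ} (hx : InX D O x) : IsX D x := by
  refine ⟨inX_det hx, ?_⟩
  have hrel : PolyMat fun y : PT g s r ℂ => relX D y := by
    have h1 : PolyMat fun y : PT g s r ℂ => post 0 (hd y) := polyMat_post 0
    have h2 : PolyMat fun y : PT g s r ℂ => cpre D s y := polyMat_cpre s
    have := h1.mul h2
    have e : ∀ y : PT g s r ℂ, post 0 (hd y) * cpre D s y = relX D y := fun y => by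
      rw [relX, prodC, cpre, List.take_of_length_le (by simp [punList])]
      rfl
    simpa only [e] using this
  obtain ⟨T, hT⟩ := hrel
  ext a b
  have := hx (T a b - MvPolynomial.C ((1 : Matrix (Fin r) (Fin r) ℂ) a b)) fun y hy => by
    rw [map_sub, MvPolynomial.eval_C,
      show MvPolynomial.eval (xcoord y) (T a b) = relX D y a b from congrFun (congrFun (hT y) a) b,
      hy.1.2, sub_self]
  rw [map_sub, MvPolynomial.eval_C,
    show MvPolynomial.eval (xcoord x) (T a b) = relX D x a b from congrFun (congrFun (hT x) a) b,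
    sub_eq_zero] at this
  exact this

/-- Near every slice point the variety is inside the closure of the integral points. -/
theorem local_slice (h : Setup L A B D O) {a0 : Fin g → Matrix (Fin r) (Fin r) ℂ}
    (ha0 : ∀ i, (a0 i).det = 1) :
    ∀ᶠ x in 𝓝 (pt L A B a0), IsX D x → InX D O x := by
  classical
  have hr : r ≠ 0 := by have := h.two_r; omega
  have hs := h.seed.toSeedOK
  let Sset : Set (PT g s r ℂ) := {V | ∃ i, i ≠ L ∧ ∃ w : List (Ltr s),
    V = Pi.single (Sum.inl (i, true))
      (wVal A B D w * tl (a0 i * wVal A B D w) * adjugate (wVal A B D w)) +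
      blkW A B D L w (tl (a0 i * wVal A B D w))}
  obtain ⟨Ts, hTs, hspan⟩ := exists_finset_span_eq Sset
  choose ii hii ww hVY using fun (v : Ts) => hTs v.2
  let steps : Fin Ts.card → Fin g × List (Ltr s) := fun k =>
    (ii (Ts.equivFin.symm k), ww (Ts.equivFin.symm k))
  obtain ⟨l, hl, hl1, hl0⟩ := exists_indep h.two_r
  have hld : (diagonal l).det = 1 := by rw [det_diagonal, hl1]
  have htarget : ∀ k : Fin Ts.card, (adjugate (a0 (steps k).1) * diagonal l *
      adjugate (wVal A B D (steps k).2)).det = 1 := fun k => by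
    simp only [det_mul, det_adjugate, ha0, hld, det_wVal hs, one_pow, mul_one]
  choose γ hγ hγ0 hγ1 hγd using fun k => exists_sl_path h.two_r det_one (htarget k)
  have hP : Paths γ := ⟨hγ, hγd, hγ0⟩
  have hreach : ∀ t ∈ List.ofFn steps, Reach L A B D a0 γ t := by
    intro t ht
    obtain ⟨k, rfl⟩ := List.mem_ofFn.1 ht
    refine ⟨hii _, (0, Pi.single k 1), l, hl, ?_⟩
    rw [aStart]
    dsimp only
    rw [list_prod_single _ k (fun m hm => by simp [Pi.single_eq_of_ne hm, hγ0]),
      Pi.single_eq_same, hγ1, show tl ((0 : Fin g → Matrix (Fin r) (Fin r) ℂ) (steps k).1) = 0 by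
        simp [tl], NormedSpace.exp_zero, mul_one, ← mul_assoc, ← mul_assoc,
      (mul_adj_cancel (ha0 _)).1, one_mul, mul_assoc,
      (mul_adj_cancel (det_wVal hs _)).2, mul_one]
  obtain ⟨m, F, hF, hsteps⟩ := exists_famX h ha0 hP (List.ofFn steps) hreach
  have hbase : F 0 = pt L A B a0 := by
    show F (0, 0) = _
    rw [hF.start, aStart_zero hP]
  suffices hev : ∀ᶠ x in 𝓝 (F 0), RequX D x = (fun _ => 1, 1) → InX D O x by
    rw [hbase] at hev
    exact hev.mono fun x hx hxX => hx (requX_eq hxX)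
  refine eventually_of_param hF.smooth (contDiff_RequX D)
    (fun p => requX_eq (inX_isX (hF.inX p))) hF.inX fun v hv => ?_
  rw [hbase] at hv
  -- logarithmic coordinates
  let Mm : PT g s r ℂ →ₗ[ℂ] PT g s r ℂ :=
    LinearMap.pi fun k => (LinearMap.mulRight ℂ (pt L A B a0 k)).comp (LinearMap.proj k)
  have hMm : ∀ Y k, Mm Y k = Y k * pt L A B a0 k := fun Y k => rfl
  let Y : PT g s r ℂ := fun k => v k * adjugate (pt L A B a0 k)
  have hdet := det_pt (L := L) (A := A) (B := B) hs ha0
  have hYv : Mm Y = v := funext fun k => by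
    rw [hMm, mul_assoc, (mul_adj_cancel (hdet k)).2, mul_one]
  have hline : HasDerivAt (fun t : ℂ => pt L A B a0 + t • v) v 0 := hasDerivAt_line _ _
  have h0 : pt L A B a0 = (fun t : ℂ => pt L A B a0 + t • v) 0 := by
    show _ = pt L A B a0 + (0 : ℂ) • v
    rw [zero_smul, add_zero]
  have hR := ((contDiff_RequX D).differentiable one_ne_zero
    (pt L A B a0)).hasFDerivAt.comp_hasDerivAt_of_eq (0 : ℂ) hline h0
  replace hR := hR.congr_deriv hv
  have hcomp : ∀ k, HasDerivAt (fun t : ℂ => pt L A B a0 k + t • v k) (v k) 0 :=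
    fun k => hasDerivAt_pi.1 hline k
  have htr : ∀ k, trace (adjugate (pt L A B a0 k) * v k) = 0 := fun k =>
    (hasDerivAt_det (by simp) (hdet k) (hcomp k)).unique (hasDerivAt_pi.1 hR.fst k)
  have hYtr : ∀ k, trace (Y k) = 0 := fun k => by
    show trace (v k * adjugate _) = 0
    rw [trace_mul_comm]; exact htr k
  have hDif : DifX (fun t : ℂ => pt L A B a0 + t • v) (pt L A B a0) Y := fun k =>
    ⟨by simp, hdet k, hYtr k, (hcomp k).congr_deriv (by
      show v k = v k * adjugate _ * _
      rw [mul_assoc, (mul_adj_cancel (hdet k)).2, mul_one])⟩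
  have hrel : relV L A B D a0 Y = 0 := by
    have h1 := (dif_relX hs h.last ha0 hDif).der.unique hR.snd
    rwa [mul_one] at h1
  have hmem := span_tangent hr h.two_g h.seed ha0 hYtr hrel
  -- the starting family realises the free variations
  have hfree : ∀ Z : Fin g → Matrix (Fin r) (Fin r) ℂ, (∀ k, trace (Z k) = 0) →
      ∃ d, fderiv ℂ F 0 d = Mm (Sum.elim (fun k => if k.1 ≠ L ∧ k.2 = false then Z k.1 else 0)
        fun _ => 0) := by
    intro Z hZ
    let P0 : Start g r Ts.card := (fun k => adjugate (a0 k) * (Z k * a0 k), 0)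
    refine ⟨(P0, 0), ?_⟩
    have hcurve : HasDerivAt (fun t : ℂ => F (t • P0, 0)) (fderiv ℂ F 0 (P0, 0)) 0 := by
      have hl' : HasDerivAt (fun t : ℂ => ((t • P0, 0) : Start g r Ts.card × (Fin m → ℂ)))
          (P0, 0) 0 :=
        (((hasDerivAt_id (0 : ℂ)).smul_const P0).prodMk (hasDerivAt_const (0 : ℂ)
          (0 : Fin m → ℂ))).congr_deriv (by rw [one_smul])
      exact (hF.smooth.differentiable one_ne_zero 0).hasFDerivAt.comp_hasDerivAt_of_eq (0 : ℂ) hl'
        (by rw [zero_smul]; rfl)
    refine hcurve.unique ?_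
    simp only [hF.start]
    refine hasDerivAt_pi.2 fun k => ?_
    rcases k with ⟨k, c⟩ | j
    · by_cases hk : k = L
      · subst hk
        simp only [hMm, Sum.elim_inl, ne_eq, not_true_eq_false, false_and, if_false, zero_mul]
        cases c <;> simpa [pt] using hasDerivAt_const (0 : ℂ) _
      · cases c
        · simp only [hMm, Sum.elim_inl, ne_eq, hk, not_false_eq_true, and_self, if_true, pt, if_false,
            cond_false]
          have htl : ∀ t : ℂ, tl ((t • P0).1 k) = t • (adjugate (a0 k) * (Z k * a0 k)) := by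
            intro t
            have h9 : trace (adjugate (a0 k) * (Z k * a0 k)) = 0 := by
              rw [← mul_assoc, (trace_conj (ha0 k) _).2, hZ k]
            simp [P0, tl, trace_smul, h9]
          have he : ∀ t : ℂ, aStart a0 γ (t • P0) k =
              a0 k * NormedSpace.exp (t • (adjugate (a0 k) * (Z k * a0 k))) := fun t => by
            rw [aStart, htl, list_prod_ones _ (fun m => by simp [P0, hγ0]), mul_one]
          simp only [he]
          have h1 := hasDerivAt_exp_smul_const (𝕂 := ℂ) (adjugate (a0 k) * (Z k * a0 k)) (0 : ℂ)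
          rw [zero_smul, NormedSpace.exp_zero, one_mul] at h1
          exact (h1.const_mul (a0 k)).congr_deriv (cancel_left (ha0 k) _).2
        · simp only [hMm, Sum.elim_inl, Bool.true_eq_false, and_false, if_false, zero_mul]
          simpa [pt, hk] using hasDerivAt_const (0 : ℂ) (1 : Matrix (Fin r) (Fin r) ℂ)
    · simp only [hMm, Sum.elim_inr, zero_mul]
      simpa [pt] using hasDerivAt_const (0 : ℂ) (1 : Matrix (Fin r) (Fin r) ℂ)
  let DF : Submodule ℂ (PT g s r ℂ) := LinearMap.range (fderiv ℂ F 0).toLinearMap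
  have hA : ∀ k, k ≠ L → ∀ Z, trace Z = 0 → Mm (Pi.single (Sum.inl (k, false)) Z) ∈ DF := by
    intro k hk Z hZ
    obtain ⟨d, hd⟩ := hfree (Pi.single k Z) fun m => by
      by_cases hm : m = k
      · subst hm; simpa using hZ
      · simp [hm]
    refine ⟨d, hd.trans (congrArg Mm (funext fun x => ?_))⟩
    rcases x with ⟨m, c⟩ | j
    · by_cases hm : m = k
      · subst hm; cases c <;> simp [hk]
      · cases c <;> simp [hm]
    · simp
  have hS : Submodule.span ℂ Sset ≤ Submodule.comap Mm DF := by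
    rw [← hspan, Submodule.span_le]
    intro V hV
    set k := Ts.equivFin ⟨V, hV⟩
    obtain ⟨d, hd⟩ := hsteps (steps k) (List.mem_ofFn.2 ⟨k, rfl⟩)
    have hst : steps k = (ii ⟨V, hV⟩, ww ⟨V, hV⟩) := by simp [steps, k]
    obtain ⟨Yt, hY1, hY2, hY3⟩ := vstepX_spec h ha0 (hii ⟨V, hV⟩) (ww ⟨V, hV⟩)
    have hVeq : V = _ := hVY ⟨V, hV⟩
    obtain ⟨d', hd'⟩ := hfree (fun m => Yt (Sum.inl (m, false))) fun m => hY2 _
    refine ⟨d - d', ?_⟩
    show fderiv ℂ F 0 (d - d') = Mm V
    rw [map_sub, hd, hd', hst]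
    funext x
    rw [Pi.sub_apply, hY1, hMm, hMm, ← sub_mul]
    congr 1
    by_cases hx : ∀ m, m ≠ L → x ≠ Sum.inl (m, false)
    · rw [hY3 x hx, ← hVeq]
      rcases x with ⟨m, c⟩ | j
      · have : ¬ (m ≠ L ∧ c = false) := fun hc => hx m hc.1 (by rw [hc.2])
        simp [this]
      · simp
    · push Not at hx
      obtain ⟨m, hm, rfl⟩ := hx
      have hV0 : V (Sum.inl (m, false)) = 0 := by
        rw [hVeq]; simp [blkW_free _ _ hm]
      simp [hm, hV0]
  have hle : Y ∈ Submodule.comap Mm DF := by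
    refine (?_ : Submodule.span ℂ _ ≤ Submodule.comap Mm DF) hmem
    rw [Submodule.span_le, Set.union_subset_iff]
    exact ⟨by rintro V ⟨k, hk, Z, hZ, rfl⟩; exact hA k hk Z hZ,
      fun V hV => hS (Submodule.subset_span hV)⟩
  obtain ⟨d, hd⟩ := hle
  exact ⟨d, hd.trans hYv⟩

end Vale.Agent.P002.Sb
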