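import Vale.Agent.P002.Sb.Span
import Vale.Agent.P002.Bricks

/-!
# P002: twist flows and smoothness of the moves on punctured tuples
-/

namespace Vale.Agent.P002.Sb

open Matrix Filter Topology
open scoped Matrix.Norms.Operator

set_option backward.isDefEq.respectTransparency false

variable {r g s : ℕ} {D : Fin s → Matrix (Fin r) (Fin r) ℂ} {O : Subring ℂ}

section smooth

variable {E : Type*} [NormedAddCommGroup E] [NormedSpace ℂ E] {F : E → PT g s r ℂ}

theorem contDiff_hd (hF : ContDiff ℂ 1 F) : ContDiff ℂ 1 fun x => hd (F x) :=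
  contDiff_pi.2 fun k => contDiff_pi.1 hF (Sum.inl k)

theorem contDiff_onHd {T : Tup g r ℂ → Tup g r ℂ} (hT : ContDiff ℂ 1 fun x => T (hd (F x)))
    (hF : ContDiff ℂ 1 F) : ContDiff ℂ 1 fun x => onHd T (F x) :=
  contDiff_pi.2 fun k => by
    cases k with
    | inl k => exact contDiff_pi.1 hT k
    | inr j => exact contDiff_pi.1 hF (Sum.inr j)

theorem contDiff_pun (hF : ContDiff ℂ 1 F) (j : Fin s) : ContDiff ℂ 1 fun x => pun D (F x) j := by
  have h := contDiff_pi.1 hF (Sum.inr j)
  exact (h.mul contDiff_const).mul (contDiff_adjugate.comp h)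

theorem contDiff_cpre (hF : ContDiff ℂ 1 F) (n : ℕ) : ContDiff ℂ 1 fun x => cpre D n (F x) := by
  have := contDiff_list_prod ((List.ofFn fun k x => pun D (F x) k).take n) fun G hG => by
    obtain ⟨k, rfl⟩ := List.mem_ofFn.1 (List.mem_of_mem_take hG)
    exact contDiff_pun hF k
  simpa only [cpre, punList, List.map_take, List.map_ofFn, Function.comp_def] using this

theorem contDiff_post (hF : ContDiff ℂ 1 F) (n : ℕ) :
    ContDiff ℂ 1 fun x => post n (hd (F x)) := by
  have := contDiff_list_prod
    ((List.ofFn fun k x => cm adjugate (hd (F x) (k, false)) (hd (F x) (k, true))).drop n)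
    fun G hG => by
      obtain ⟨k, rfl⟩ := List.mem_ofFn.1 (List.mem_of_mem_drop hG)
      exact contDiff_cm (contDiff_hd hF) k
  simpa only [post, cmList, List.map_drop, List.map_ofFn, Function.comp_def] using this

theorem contDiff_update_slot {G : E → Matrix (Fin r) (Fin r) ℂ} (hG : ContDiff ℂ 1 G)
    (hF : ContDiff ℂ 1 F) (k : Slot g s) :
    ContDiff ℂ 1 fun x => Function.update (F x) k (G x) := by
  refine contDiff_pi.2 fun m => ?_
  simp only [Function.update_apply]
  split_ifs
  · exact hG
  · exact contDiff_pi.1 hF m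

theorem contDiff_twX (hF : ContDiff ℂ 1 F) (i : Fin g) :
    (ContDiff ℂ 1 fun x => twX i (F x)) ∧ ContDiff ℂ 1 fun x => twX' i (F x) := by
  have h := contDiff_pi.1 (contDiff_hd hF)
  constructor <;> refine contDiff_onHd (contDiff_pi.2 fun k => ?_) hF <;>
    simp only [twA, twA', Function.update_apply] <;> split_ifs
  · exact (h _).mul (h _)
  · exact h k
  · exact (h _).mul (contDiff_adjugate.comp (h _))
  · exact h k

theorem contDiff_push (hF : ContDiff ℂ 1 F) (i : Fin g) (j : Fin s) :
    (ContDiff ℂ 1 fun x => push D i j (F x)) ∧ ContDiff ℂ 1 fun x => pushInv D i j (F x) := by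
  have h := contDiff_pi.1 hF
  have hm : ContDiff ℂ 1 fun x => segM D i j (F x) :=
    (contDiff_post hF _).mul (contDiff_cpre hF _)
  have hC : ContDiff ℂ 1 fun x => segC D i j (F x) :=
    (hm.mul (contDiff_pun hF j)).mul (contDiff_adjugate.comp hm)
  have hC' : ContDiff ℂ 1 fun x => adjugate (segC D i j (F x)) := contDiff_adjugate.comp hC
  have hm' : ContDiff ℂ 1 fun x => adjugate (segM D i j (F x)) := contDiff_adjugate.comp hm
  have hb' : ContDiff ℂ 1 fun x => adjugate (F x (Sum.inl (i, true))) := contDiff_adjugate.comp (h _)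
  constructor
  · exact contDiff_update_slot ((((hm'.mul (hC'.mul (h _))).mul hm).mul (h _)).mul contDiff_const)
      (contDiff_update_slot ((hC'.mul (h _)).mul hC)
        (contDiff_update_slot ((h _).mul hC) hF _) _) _
  · exact contDiff_update_slot ((((hm'.mul (hb'.mul hC)).mul hm).mul (h _)).mul contDiff_const)
      (contDiff_update_slot ((((hb'.mul hC).mul (h _)).mul hC').mul (h _))
        (contDiff_update_slot ((h _).mul ((hb'.mul hC').mul (h _))) hF _) _) _

theorem contDiff_phiX (hF : ContDiff ℂ 1 F) (i j : Fin g) :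
    (ContDiff ℂ 1 fun x => psiX i j (F x)) ∧ ContDiff ℂ 1 fun x => phiX i j (F x) :=
  ⟨contDiff_onHd (contDiff_psiM (contDiff_hd hF) i j) hF,
    contDiff_onHd (contDiff_phiM (contDiff_hd hF) i j) hF⟩

theorem contDiff_fwdW (L i : Fin g) : ∀ (w : List (Ltr s)) {F : E → PT g s r ℂ},
    ContDiff ℂ 1 F →
      (ContDiff ℂ 1 fun x => fwdW L D i w (F x)) ∧ ContDiff ℂ 1 fun x => bwdW L D i w (F x)
  | [], _, hF => ⟨hF, hF⟩
  | l :: w, F, hF => by
    have hl : ∀ {G : E → PT g s r ℂ}, ContDiff ℂ 1 G →
        (ContDiff ℂ 1 fun x => fwdL L D i l (G x)) ∧ ContDiff ℂ 1 fun x => bwdL L D i l (G x) := by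
      intro G hG
      rcases l with (_ | _) | j
      · exact contDiff_phiX hG i L
      · exact ⟨(contDiff_twX ((contDiff_phiX ((contDiff_twX hG L).1) i L).1) L).2,
          (contDiff_twX ((contDiff_phiX ((contDiff_twX hG L).1) i L).2) L).2⟩
      · exact contDiff_push hG i j
    exact ⟨(contDiff_fwdW L i w (hl hF).1).1, (hl (contDiff_fwdW L i w hF).2).2⟩

theorem contDiff_relX (hF : ContDiff ℂ 1 F) : ContDiff ℂ 1 fun x => relX D (F x) := by
  have h := (contDiff_rel (contDiff_hd hF)).mul (contDiff_cpre (D := D) hF s)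
  have e : ∀ x, cpre D s (F x) = prodC D (F x) := fun x => by
    rw [cpre, prodC, List.take_of_length_le (by simp [punList])]
  simp only [e] at h
  exact h

theorem contDiff_evalX (f : MvPolynomial (XVar g s r) ℂ) (hF : ContDiff ℂ 1 F) :
    ContDiff ℂ 1 fun x => MvPolynomial.eval (xcoord (F x)) f := by
  induction f using MvPolynomial.induction_on with
  | C a => simpa using contDiff_const
  | add p q hp hq => simpa using hp.add hq
  | mul_X p v hp =>
    simpa [xcoord] using hp.mul ((contDiff_entry v.2.1 v.2.2).comp (contDiff_pi.1 hF v.1))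

end smooth

/-- Near `ρ₀` the closure of the integral points is invariant under the torus of `a_i`. -/
theorem flow_torusX {i : Fin g} {x₀ : PT g s r ℂ} {l : Fin r → ℂ}
    {S S' : Matrix (Fin r) (Fin r) ℂ} (hspec : Spec (x₀ (Sum.inl (i, false))) l S S') (hl : Indep l)
    {f : MvPolynomial (XVar g s r) ℂ} (hf : VanX D O f) :
    ∀ᶠ x in 𝓝 x₀, InX D O x → ∃ (P P' : Matrix (Fin r) (Fin r) ℂ) (w : Fin r → ℂ),
      P * P' = 1 ∧ x (Sum.inl (i, false)) = P * diagonal w * P' ∧
        ∀ y : Fin r → ℂ, ∏ a, y a = 1 → MvPolynomial.eval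
          (xcoord (Function.update x (Sum.inl (i, true))
            (x (Sum.inl (i, true)) * (P * diagonal y * P')))) f = 0 := by
  set K : Slot g s := Sum.inl (i, true)
  set A : Slot g s := Sum.inl (i, false)
  let W : Set (Fin r → ℂ) := {w | ∀ m m' : Fin r → Fin (f.totalDegree + 1),
    ¬ DiffConst (fun a => (m a).1) (fun a => (m' a).1) →
      ∏ a, w a ^ (m a).1 ≠ ∏ a, w a ^ (m' a).1}
  have hW : W ∈ 𝓝 l := by
    show ∀ᶠ w in 𝓝 l, w ∈ W
    simp only [W, Set.mem_setOf_eq, Filter.eventually_all]
    intro m m' hm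
    have hc : ∀ e : Fin r → ℕ, Continuous fun w : Fin r → ℂ => ∏ a, w a ^ e a :=
      fun e => continuous_finsetProd _ fun a _ => (continuous_apply a).pow _
    exact ((hc fun a => (m a).1).sub (hc fun a => (m' a).1)).continuousAt.eventually_ne
      (sub_ne_zero.2 fun h => hm (hl _ _ h)) |>.mono fun w hw e => hw (sub_eq_zero.2 e)
  have hN : ∀ᶠ a in 𝓝 (x₀ A), ∃ X, ∃ w ∈ W, a = diagParam S S' (X, w) := by
    rw [hspec.2, ← nhds_diagParam hspec.1 hl.injective, Filter.eventually_map, nhds_prod_eq]
    exact (Filter.Eventually.prod_inr hW _).mono fun p hp => ⟨p.1, p.2, hp, rfl⟩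
  have hcont : Tendsto (fun x : PT g s r ℂ => x A) (𝓝 x₀) (𝓝 (x₀ A)) :=
    (continuous_apply A).tendsto x₀
  filter_upwards [hcont.eventually hN] with x ⟨X, w, hw, ha⟩ hV
  set P := NormedSpace.exp X * S
  set P' := S' * NormedSpace.exp (-X)
  have hP : P * P' = 1 := by
    simp only [P, P', mul_assoc]
    rw [← mul_assoc S, hspec.1, one_mul, exp_mul_exp_neg_self]
  have haP : x A = P * diagonal w * P' := by
    rw [ha]; simp only [diagParam, P, P', mul_assoc]
  let C' : Matrix (Fin r) (Fin r) ℂ →+* Matrix (Fin r) (Fin r) (MvPolynomial (Fin r) ℂ) :=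
    (MvPolynomial.C : ℂ →+* MvPolynomial (Fin r) ℂ).mapMatrix
  let T : PT g s r (MvPolynomial (Fin r) ℂ) := fun c => if c = K then
      C' (x K * P) * diagonal MvPolynomial.X * C' P' else C' (x c)
  have hT : ∀ (y : Fin r → ℂ) c, (MvPolynomial.eval y).mapMatrix (T c) =
      Function.update x K (x K * (P * diagonal y * P')) c := by
    intro y c
    have hD : (MvPolynomial.eval y).mapMatrix (diagonal MvPolynomial.X) = diagonal y := by
      ext a b; by_cases hab : a = b
      · subst hab; simp
      · simp [hab]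
    by_cases hc : c = K
    · subst hc
      simp only [T, if_true, Function.update_self, map_mul, C', mapMatrix_adjoin_C, hD, mul_assoc]
    · simp only [T, if_neg hc, Function.update_of_ne hc, C', mapMatrix_adjoin_C]
  let q : MvPolynomial (Fin r) ℂ := MvPolynomial.bind₁ (xcoord T) f
  have hq : ∀ y, MvPolynomial.eval y q = MvPolynomial.eval
      (xcoord (Function.update x K (x K * (P * diagonal y * P')))) f := fun y =>
    eval_bind (fun k a b => congrFun (congrFun (hT y k) a) b) f
  have hdeg : q.totalDegree ≤ f.totalDegree := by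
    refine totalDegree_bind_le _ (fun v => ?_) f
    simp only [xcoord, T]
    split_ifs
    · rw [Matrix.mul_apply]
      refine (MvPolynomial.totalDegree_finsetSum _ _).trans (Finset.sup_le fun c _ => ?_)
      rw [mul_diagonal]
      simp only [C', RingHom.mapMatrix_apply, Matrix.map_apply]
      refine (MvPolynomial.totalDegree_mul _ _).trans ?_
      refine le_trans (Nat.add_le_add_right (MvPolynomial.totalDegree_mul _ _) _) ?_
      simp [MvPolynomial.totalDegree_C, MvPolynomial.totalDegree_X]
    · simp [C', MvPolynomial.totalDegree_C]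
  have hpow : ∀ n : ℕ, MvPolynomial.eval (fun a => w a ^ n) q = 0 := by
    intro n
    rw [hq]
    have := (pullX_tbX i n).inX hV f hf
    convert this using 4
    funext c
    rcases c with c | c
    · by_cases hc : c = (i, true)
      · subst hc
        show Function.update x K _ K = Vale.Agent.P002.twist i n (hd x) (i, true)
        simp only [Vale.Agent.P002.twist, Function.update_self]
        rw [show hd x (i, false) = P * diagonal w * P' from haP, conj_pow hP, diagonal_pow]
        rfl
      · show Function.update x K _ (Sum.inl c) = Vale.Agent.P002.twist i n (hd x) c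
        rw [Function.update_of_ne (fun e => hc (Sum.inl_injective e)), Vale.Agent.P002.twist,
          Function.update_of_ne hc]
        rfl
    · exact Function.update_of_ne (by simp [K]) _ _
  have hrel : ∀ m ∈ q.support, ∀ m' ∈ q.support,
      ∏ a, w a ^ m a = ∏ a, w a ^ m' a → DiffConst m m' := by
    intro m hm m' hm' he
    have hb : ∀ (e : Fin r →₀ ℕ), e ∈ q.support → ∀ a, e a < f.totalDegree + 1 := by
      intro e he a
      have h2 : e a ≤ e.sum fun _ x => x := by
        by_cases h : a ∈ e.support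
        · exact Finset.single_le_sum (f := fun x => e x) (fun x _ => Nat.zero_le _) h
        · simp [Finsupp.notMem_support_iff.1 h]
      exact Nat.lt_succ_of_le (h2.trans ((MvPolynomial.le_totalDegree he).trans hdeg))
    by_contra hne
    exact hw (fun a => ⟨m a, hb m hm a⟩) (fun a => ⟨m' a, hb m' hm' a⟩) hne he
  exact ⟨P, P', w, hP, haP, fun y hy => by rw [← hq]; exact eval_eq_zero_of_pow hpow hrel hy⟩

/-- The twist flow at handle `i`. -/
noncomputable def tauX (i : Fin g) (t : ℂ) : PT g s r ℂ → PT g s r ℂ := onHd (tau i 1 t)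

theorem det_exp_tl (X : Matrix (Fin r) (Fin r) ℂ) (t : ℂ) :
    (NormedSpace.exp (t • tl X)).det = 1 := by
  rcases Nat.eq_zero_or_pos r with hr | hr
  · subst hr; exact Matrix.det_isEmpty
  refine det_eq_one_of_group (γ := fun t : ℂ => NormedSpace.exp (t • tl X)) (H := tl X)
    (fun u v => ?_) (by simp) ?_ (trace_tl hr.ne' X) t
  · rw [add_smul, Matrix.exp_add_of_commute]
    exact ((Commute.refl (tl X)).smul_left u).smul_right v
  · have := hasDerivAt_exp_smul_const (𝕂 := ℂ) (tl X) (0 : ℂ)
    rw [zero_smul, NormedSpace.exp_zero, one_mul] at this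
    exact this

theorem flow_lemmaX {i : Fin g} {x₀ : PT g s r ℂ} {l : Fin r → ℂ}
    {S S' : Matrix (Fin r) (Fin r) ℂ} (hspec : Spec (x₀ (Sum.inl (i, false))) l S S') (hl : Indep l)
    {f : MvPolynomial (XVar g s r) ℂ} (hf : VanX D O f) :
    ∀ᶠ x in 𝓝 x₀, InX D O x → ∀ t, MvPolynomial.eval (xcoord (tauX i t x)) f = 0 := by
  filter_upwards [flow_torusX hspec hl hf] with x hx hV t
  obtain ⟨P, P', w, hP, haP, hy⟩ := hx hV
  set a := hd x (i, false) with ha
  have haP' : a = P * diagonal w * P' := haP
  set c := trace a / (r : ℂ)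
  have hX : t • tl (a ^ 1) = P * diagonal (fun b => t * (w b - c)) * P' := by
    have e2 : diagonal (fun b => t * (w b - c)) =
        t • (diagonal w - c • (1 : Matrix (Fin r) (Fin r) ℂ)) := by
      ext b d; by_cases hbd : b = d
      · subst hbd; simp
      · simp [hbd]
    rw [e2, tl, pow_one, Matrix.mul_smul, Matrix.smul_mul, mul_sub, sub_mul, ← haP',
      Matrix.mul_smul, Matrix.smul_mul, mul_one, hP]
  have e : tauX i t x = Function.update x (Sum.inl (i, true))
      (x (Sum.inl (i, true)) * (P * diagonal (fun b => Complex.exp (t * (w b - c))) * P')) := by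
    funext k
    rw [← exp_diag_conj hP, ← hX]
    rcases k with k | j
    · by_cases hk : k = (i, true)
      · subst hk; simp [tauX, onHd, tau, hd, ha]
      · simp [tauX, onHd, tau, hd, hk, Function.update_apply]
    · simp [tauX, onHd]
  rw [e]
  refine hy _ ?_
  rw [← Complex.exp_sum, ← Finset.mul_sum, Finset.sum_sub_distrib, Finset.sum_const,
    Finset.card_univ, Fintype.card_fin, nsmul_eq_mul]
  have htr : trace a = ∑ b, w b := by
    rw [haP', trace_mul_comm, ← mul_assoc, mul_eq_one_comm.1 hP, one_mul, trace_diagonal]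
  rcases Nat.eq_zero_or_pos r with hr | hr
  · subst hr; simp
  · simp only [c, htr]
    rw [mul_div_cancel₀ _ (Nat.cast_ne_zero.2 hr.ne'), sub_self, mul_zero, Complex.exp_zero]

end Vale.Agent.P002.Sb
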