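import Vale.Agent.P002.Sb.TangentX

/-!
# P002: a punctured point with scalar commutant is a limit of ones whose first `g - 1` handles have
scalar commutant
-/

namespace Vale.Agent.P002.Sb

open Matrix Filter Topology
open scoped Matrix.Norms.Operator

set_option backward.isDefEq.respectTransparency false

variable {r g s : ℕ} {D : Fin s → Matrix (Fin r) (Fin r) ℂ}

/-- The handles and the puncture matrices as one tuple. -/
noncomputable def allT (D : Fin s → Matrix (Fin r) (Fin r) ℂ) (x : PT g s r ℂ) :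
    Tup (g + s) r ℂ :=
  fun k => Fin.addCases (fun i => x (Sum.inl (i, k.2))) (fun j => pun D x j) k.1

theorem contDiff_allT : ContDiff ℂ 1 (allT (g := g) D) := by
  refine contDiff_pi.2 fun ⟨m, c⟩ => ?_
  refine Fin.addCases (fun i => ?_) (fun j => ?_) m
  · simp only [allT, Fin.addCases_left]
    exact contDiff_apply ℂ _ (Sum.inl (i, c))
  · simp only [allT, Fin.addCases_right]
    exact contDiff_pun contDiff_id j

theorem isSchurX_iff (hr : r ≠ 0) {x : PT g s r ℂ} :
    IsSchurX D x ↔ Module.finrank ℂ (ComK (fun _ => true) (allT D x)) ≤ 1 := by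
  rw [ComK_le_one_iff hr]
  constructor
  · intro h c hc
    refine h c (fun k => ?_) fun j => ?_
    · have := mem_ComK.1 hc (Fin.castAdd s k.1, k.2) rfl
      simpa [allT] using this
    · have := mem_ComK.1 hc (Fin.natAdd g j, false) rfl
      simpa [allT] using this
  · intro h c h1 h2
    refine h c (mem_ComK.2 fun ⟨m, b⟩ _ => ?_)
    refine Fin.addCases (fun i => ?_) (fun j => ?_) m
    · simpa [allT] using h1 (i, b)
    · simpa [allT] using h2 j

theorem eventually_isSchurX (hr : r ≠ 0) {x : PT g s r ℂ} (h : IsSchurX D x) :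
    ∀ᶠ y in 𝓝 x, IsSchurX D y := by
  filter_upwards [(contDiff_allT.continuous.tendsto x).eventually
    (usc_ComK (fun _ => true) (allT D x))] with y hy
  exact (isSchurX_iff hr).2 (hy.trans ((isSchurX_iff hr).1 h))

/-- Semicontinuity of the commutant of selected handles. -/
theorem usc_ComKX (p : Fin g × Bool → Bool) (x : PT g s r ℂ) :
    ∀ᶠ y in 𝓝 x, Module.finrank ℂ (ComK p (hd y)) ≤ Module.finrank ℂ (ComK p (hd x)) :=
  ((contDiff_hd (contDiff_id (𝕜 := ℂ) (n := 1))).continuous.tendsto x).eventually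
    (usc_ComK p (hd x))

theorem exists_comm_sectionX {p : Fin g × Bool → Bool} {x : PT g s r ℂ}
    (hconst : ∀ᶠ y in 𝓝 x, IsX D y →
      Module.finrank ℂ (ComK p (hd y)) = Module.finrank ℂ (ComK p (hd x)))
    {c₀ : Matrix (Fin r) (Fin r) ℂ} (hc : c₀ ∈ ComK p (hd x)) :
    ∃ c : PT g s r ℂ → Matrix (Fin r) (Fin r) ℂ, ContDiffAt ℂ 1 c x ∧ c x = c₀ ∧
      ∀ᶠ y in 𝓝 x, IsX D y → c y ∈ ComK p (hd y) := by
  obtain ⟨c, h1, h2, h3⟩ := (ker_family x
    ((contDiff_commCLM p).comp (contDiff_hd (contDiff_id (𝕜 := ℂ) (n := 1)))).contDiffAt).2 c₀ hc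
  exact ⟨c, h1, h2, (h3.and hconst).mono fun y hy hyX => hy.1 (hy.2 hyX)⟩

theorem fderiv_eq_zero_of_isX (hr : r ≠ 0) (hD : ∀ j, (D j).det = 1) {x : PT g s r ℂ}
    (hx : IsX D x) (hS : IsSchurX D x) {F : Type*} [NormedAddCommGroup F] [NormedSpace ℂ F]
    {f : PT g s r ℂ → F} (hf : DifferentiableAt ℂ f x)
    (h : ∀ᶠ y in 𝓝 x, IsX D y → f y = 0) {v : PT g s r ℂ} (hv : v ∈ TanX D x) :
    fderiv ℂ f x v = 0 := by
  obtain ⟨γ, hγ0, hγ, hγr⟩ := exists_curveX hr hD hx hS hv
  have h1 := hf.hasFDerivAt.comp_hasDerivAt_of_eq (0 : ℂ) hγ hγ0.symm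
  have h2 : (f ∘ γ) =ᶠ[𝓝 0] fun _ => (0 : F) := by
    have ht : Tendsto γ (𝓝 0) (𝓝 x) := hγ0 ▸ hγ.continuousAt.tendsto
    exact ((ht.eventually h).and hγr).mono fun t ht => ht.1 ht.2
  exact h1.unique ((hasDerivAt_const (0 : ℂ) (0 : F)).congr_of_eventuallyEq h2)

theorem section_derivX (hr : r ≠ 0) (hD : ∀ j, (D j).det = 1) {p : Fin g × Bool → Bool}
    {x : PT g s r ℂ} (hx : IsX D x) (hS : IsSchurX D x)
    {c : PT g s r ℂ → Matrix (Fin r) (Fin r) ℂ} (hc : ContDiffAt ℂ 1 c x)
    (hmem : ∀ᶠ y in 𝓝 x, IsX D y → c y ∈ ComK p (hd y)) {v : PT g s r ℂ} (hv : v ∈ TanX D x)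
    {k : Fin g × Bool} (hk : p k = true) :
    c x * v (Sum.inl k) - v (Sum.inl k) * c x =
      x (Sum.inl k) * fderiv ℂ c x v - fderiv ℂ c x v * x (Sum.inl k) := by
  have hd' := hc.differentiableAt one_ne_zero
  have hP : HasFDerivAt (fun y : PT g s r ℂ => y (Sum.inl k)) (ContinuousLinearMap.proj (Sum.inl k) :
      PT g s r ℂ →L[ℂ] Matrix (Fin r) (Fin r) ℂ) x := hasFDerivAt_apply (Sum.inl k) x
  have hF := (hd'.hasFDerivAt.mul' hP).sub (hP.mul' hd'.hasFDerivAt)
  have h0 := fderiv_eq_zero_of_isX hr hD hx hS hF.differentiableAt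
    (hmem.mono fun y hy hyX => sub_eq_zero.2 (mem_ComK.1 (hy hyX) k hk)) hv
  rw [hF.fderiv] at h0
  simp [sub_eq_zero] at h0
  rw [sub_eq_sub_iff_add_eq_add]
  exact h0

/-- The restriction to the handles other than `L`. -/
noncomputable def resRestX (L : Fin g) (D : Fin s → Matrix (Fin r) (Fin r) ℂ) (x : PT g s r ℂ) :
    TanX D x →ₗ[ℂ] ({k : Fin g × Bool // selRest L k = true} → Matrix (Fin r) (Fin r) ℂ) :=
  LinearMap.pi fun k => (LinearMap.proj (Sum.inl k.1)).comp (TanX D x).subtype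

/-- The restriction to the conjugators, moved to the identity. -/
noncomputable def resPun (D : Fin s → Matrix (Fin r) (Fin r) ℂ) (x : PT g s r ℂ) :
    TanX D x →ₗ[ℂ] (Fin s → Matrix (Fin r) (Fin r) ℂ) :=
  LinearMap.pi fun j => (LinearMap.mulLeft ℂ (adjugate (x (Sum.inr j)))).comp
    ((LinearMap.proj (Sum.inr j)).comp (TanX D x).subtype)

theorem count_imageX (hr : r ≠ 0) (hD : ∀ j, (D j).det = 1) {x : PT g s r ℂ} (hx : IsX D x)
    (L : Fin g) {c : Matrix (Fin r) (Fin r) ℂ} (hc : c ∈ ComK (selRest L) (hd x))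
    (hext : ∀ v ∈ TanX D x, ∃ X : Matrix (Fin r) (Fin r) ℂ, ∀ k, selRest L k = true →
      c * v (Sum.inl k) - v (Sum.inl k) * c = x (Sum.inl k) * adc c X - adc c X * x (Sum.inl k)) :
    Module.finrank ℂ (LinearMap.range (resRestX L D x)) +
        Fintype.card {k : Fin g × Bool // selRest L k = true} ≤
      Fintype.card {k : Fin g × Bool // selRest L k = true} * Module.finrank ℂ (Cen c) +
        Module.finrank ℂ (LinearMap.range (adc c)) := by
  classical
  let κ := {k : Fin g × Bool // selRest L k = true}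
  have hne : ∀ k : Slot g s, trace (adjugate (x k) * x k) ≠ 0 := fun k => by
    rw [(mul_adj_cancel (hx.1 k)).2, trace_one, Fintype.card_fin]
    exact Nat.cast_ne_zero.2 hr
  let E : (κ → Matrix (Fin r) (Fin r) ℂ) →ₗ[ℂ] (κ → Matrix (Fin r) (Fin r) ℂ) :=
    LinearMap.pi fun k => (adc c).comp (LinearMap.proj k)
  let F : Matrix (Fin r) (Fin r) ℂ →ₗ[ℂ] (κ → Matrix (Fin r) (Fin r) ℂ) :=
    LinearMap.pi fun k => adc (x (Sum.inl k.1))
  let E' := E.domRestrict (LinearMap.range (resRestX L D x))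
  have h1 := LinearMap.finrank_range_add_finrank_ker E'
  have hEr : Module.finrank ℂ (LinearMap.range E') ≤
      Module.finrank ℂ (LinearMap.range (adc c)) := by
    refine le_trans (Submodule.finrank_mono (t := Submodule.map F (LinearMap.range (adc c))) ?_)
      (Submodule.finrank_map_le _ _)
    rintro _ ⟨⟨_, ⟨v, rfl⟩⟩, rfl⟩
    obtain ⟨X, hX⟩ := hext v.1 v.2
    exact ⟨adc c X, ⟨X, rfl⟩, funext fun k => (hX k.1 k.2).symm⟩
  have hEk : Module.finrank ℂ (LinearMap.ker E') + Fintype.card κ ≤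
      Fintype.card κ * Module.finrank ℂ (Cen c) := by
    let W : κ → Submodule ℂ (Matrix (Fin r) (Fin r) ℂ) := fun k => Cen c ⊓
      LinearMap.ker ((Matrix.traceLinearMap (Fin r) ℂ ℂ).comp
        (LinearMap.mulLeft ℂ (adjugate (x (Sum.inl k.1)))))
    have hW : ∀ k, Module.finrank ℂ (W k) + 1 ≤ Module.finrank ℂ (Cen c) := by
      intro k
      refine Submodule.finrank_lt_finrank_of_lt (lt_of_le_of_ne inf_le_left fun e => ?_)
      have : x (Sum.inl k.1) ∈ W k := by rw [e]; exact mem_Cen.2 ((mem_ComK.1 hc k.1 k.2).symm)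
      exact hne (Sum.inl k.1) this.2
    have hmem : ∀ (y : LinearMap.ker E') k, y.1.1 k ∈ W k := by
      intro y k
      refine Submodule.mem_inf.2 ⟨mem_Cen.2 ?_, ?_⟩
      · have := congrFun (LinearMap.mem_ker.1 y.2) k
        exact (sub_eq_zero.1 (show c * y.1.1 k - y.1.1 k * c = 0 from this)).symm
      · obtain ⟨v, hv⟩ := y.1.2
        rw [← hv]
        exact (tanX_spec hD hx v.2).1 (Sum.inl k.1)
    let j : LinearMap.ker E' →ₗ[ℂ] (∀ k, W k) :=
      { toFun := fun y k => ⟨y.1.1 k, hmem y k⟩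
        map_add' := fun y z => rfl
        map_smul' := fun z y => rfl }
    have hj := LinearMap.finrank_le_finrank_of_injective (f := j) (fun y z e => Subtype.ext
      (Subtype.ext (funext fun k => congrArg Subtype.val (congrFun e k))))
    rw [Module.finrank_pi_fintype] at hj
    calc _ ≤ ∑ k, (Module.finrank ℂ (W k) + 1) := by
            rw [Finset.sum_add_distrib, Finset.sum_const, Finset.card_univ, smul_eq_mul, mul_one]
            exact Nat.add_le_add_right hj _
      _ ≤ ∑ _k : κ, Module.finrank ℂ (Cen c) := Finset.sum_le_sum fun k _ => hW k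
      _ = _ := by rw [Finset.sum_const, Finset.card_univ, smul_eq_mul]
  have eκ : Fintype.card κ = Fintype.card {k : Fin g × Bool // selRest L k = true} := rfl
  rw [eκ] at hEk
  have h1' : Module.finrank ℂ (LinearMap.range E') + Module.finrank ℂ (LinearMap.ker E') =
      Module.finrank ℂ (LinearMap.range (resRestX L D x)) := h1
  omega

theorem count_punX (hr : r ≠ 0) (hD : ∀ j, (D j).det = 1) {x : PT g s r ℂ} (hx : IsX D x) :
    Module.finrank ℂ (LinearMap.range (resPun D x)) + s ≤ s * (r * r) := by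
  let W : Submodule ℂ (Matrix (Fin r) (Fin r) ℂ) := LinearMap.ker (Matrix.traceLinearMap (Fin r) ℂ ℂ)
  have hW : Module.finrank ℂ W + 1 ≤ r * r := by
    have h1 : W < ⊤ := lt_top_iff_ne_top.2 fun e => by
      have h0 : (1 : Matrix (Fin r) (Fin r) ℂ) ∈ W := by rw [e]; trivial
      have h0' : trace (1 : Matrix (Fin r) (Fin r) ℂ) = 0 := h0
      rw [trace_one, Fintype.card_fin] at h0'
      exact Nat.cast_ne_zero.2 hr h0'
    have := Submodule.finrank_lt_finrank_of_lt h1
    simpa [Module.finrank_matrix, finrank_top] using this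
  let P : Submodule ℂ (Fin s → Matrix (Fin r) (Fin r) ℂ) := Submodule.pi Set.univ fun _ => W
  have hle : LinearMap.range (resPun D x) ≤ P := by
    rintro _ ⟨v, rfl⟩ j -
    exact (tanX_spec hD hx v.2).1 (Sum.inr j)
  let ι : LinearMap.range (resPun D x) →ₗ[ℂ] (Fin s → W) :=
    { toFun := fun y j => ⟨y.1 j, hle y.2 j (Set.mem_univ j)⟩
      map_add' := fun y z => rfl
      map_smul' := fun z y => rfl }
  have hι := LinearMap.finrank_le_finrank_of_injective (f := ι) (fun y z e => Subtype.ext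
    (funext fun k => congrArg Subtype.val (congrFun e k)))
  rw [Module.finrank_pi_fintype, Finset.sum_const, Finset.card_univ, Fintype.card_fin,
    smul_eq_mul] at hι
  have := Nat.mul_le_mul_left s hW
  rw [mul_add, mul_one] at this
  omega

theorem count_kernelX (hr : r ≠ 0) (hD : ∀ j, (D j).det = 1) {x : PT g s r ℂ} (hx : IsX D x)
    (L : Fin g)
    (hperp : ∀ v ∈ TanX D x, ∀ y ∈ CenComm (x (Sum.inl (L, false))),
      trace (y * v (Sum.inl (L, false))) = 0) :
    Module.finrank ℂ (LinearMap.ker ((resRestX L D x).prod (resPun D x))) +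
      (Module.finrank ℂ (CenComm (x (Sum.inl (L, false)))) + 2) ≤
        r * r + Module.finrank ℂ (Cen (x (Sum.inl (L, false)))) := by
  classical
  set A := x (Sum.inl (L, false)) with hA
  set B := x (Sum.inl (L, true)) with hB
  have hne : ∀ k : Slot g s, trace (adjugate (x k) * x k) ≠ 0 := fun k => by
    rw [(mul_adj_cancel (hx.1 k)).2, trace_one, Fintype.card_fin]
    exact Nat.cast_ne_zero.2 hr
  let K2 : Submodule ℂ (PT g s r ℂ) :=
    Submodule.map (TanX D x).subtype (LinearMap.ker ((resRestX L D x).prod (resPun D x)))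
  have hK2 : Module.finrank ℂ K2 =
      Module.finrank ℂ (LinearMap.ker ((resRestX L D x).prod (resPun D x))) :=
    Submodule.finrank_map_subtype_eq _ _
  have hK2T : ∀ v ∈ K2, v ∈ TanX D x := by
    rintro _ ⟨y, -, rfl⟩
    exact y.2
  have hzero : ∀ v ∈ K2, (∀ k : Fin g × Bool, k.1 ≠ L → v (Sum.inl k) = 0) ∧
      ∀ j, v (Sum.inr j) = 0 := by
    rintro _ ⟨y, hy, rfl⟩
    have hy' := LinearMap.mem_ker.1 hy
    refine ⟨fun k hk => congrFun (congrArg Prod.fst hy') ⟨k, by simp [selRest, hk]⟩, fun j => ?_⟩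
    have h0 : adjugate (x (Sum.inr j)) * (y : PT g s r ℂ) (Sum.inr j) = 0 :=
      congrFun (congrArg Prod.snd hy') j
    have := congrArg (fun M => x (Sum.inr j) * M) h0
    simpa [← mul_assoc, (mul_adj_cancel (hx.1 _)).1] using this
  let α : K2 →ₗ[ℂ] Matrix (Fin r) (Fin r) ℂ :=
    (LinearMap.proj (Sum.inl (L, false)) : PT g s r ℂ →ₗ[ℂ] Matrix (Fin r) (Fin r) ℂ).domRestrict K2
  have h3 := LinearMap.finrank_range_add_finrank_ker α
  have hdA : A.det = 1 := hx.1 _
  have hdB : B.det = 1 := hx.1 _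
  have hαr : Module.finrank ℂ (LinearMap.range α) +
      (Module.finrank ℂ (CenComm A) + 1) ≤ r * r := by
    have hA0 : adjugate A ≠ 0 := fun e => hne (Sum.inl (L, false)) (by
      rw [← hA, e, zero_mul, trace_zero])
    have hS' : Module.finrank ℂ (CenComm A ⊔ Submodule.span ℂ {adjugate A} :
        Submodule ℂ (Matrix (Fin r) (Fin r) ℂ)) = Module.finrank ℂ (CenComm A) + 1 := by
      have := Submodule.finrank_sup_add_finrank_inf_eq (CenComm A)
        (Submodule.span ℂ {adjugate A})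
      rw [finrank_span_singleton hA0, show CenComm A ⊓ Submodule.span ℂ {adjugate A} = ⊥ from ?_,
        finrank_bot] at this
      · omega
      · rw [eq_bot_iff]
        intro y hy
        obtain ⟨z, rfl⟩ := Submodule.mem_span_singleton.1 hy.2
        have h0 := trace_CenComm_mul hy.1
        rw [Matrix.smul_mul, trace_smul, smul_eq_mul] at h0
        rw [Submodule.mem_bot, (mul_eq_zero.1 h0).resolve_right (hne (Sum.inl (L, false))),
          zero_smul]
    rw [← hS']
    refine finrank_perp_le _ ?_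
    rintro y hy _ ⟨v, rfl⟩
    obtain ⟨y1, hy1, y2, hy2, rfl⟩ := Submodule.mem_sup.1 hy
    obtain ⟨z, rfl⟩ := Submodule.mem_span_singleton.1 hy2
    rw [add_mul, trace_add, Matrix.smul_mul, trace_smul]
    rw [show trace (y1 * α v) = 0 from hperp v.1 (hK2T _ v.2) y1 hy1,
      show trace (adjugate A * α v) = 0 from (tanX_spec hD hx (hK2T _ v.2)).1 _, smul_zero,
      add_zero]
  have hαk : Module.finrank ℂ (LinearMap.ker α) + 1 ≤ Module.finrank ℂ (Cen A) := by
    let W : Submodule ℂ (Matrix (Fin r) (Fin r) ℂ) :=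
      Cen A ⊓ LinearMap.ker (Matrix.traceLinearMap (Fin r) ℂ ℂ)
    have hW : Module.finrank ℂ W < Module.finrank ℂ (Cen A) := by
      refine Submodule.finrank_lt_finrank_of_lt (lt_of_le_of_ne inf_le_left fun e => ?_)
      have : (1 : Matrix (Fin r) (Fin r) ℂ) ∈ W := by
        rw [show W = Cen A from e]; exact mem_Cen.2 (by rw [one_mul, mul_one])
      have h0 : trace (1 : Matrix (Fin r) (Fin r) ℂ) = 0 := this.2
      rw [trace_one, Fintype.card_fin] at h0
      exact Nat.cast_ne_zero.2 hr h0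
    have hval : ∀ y : LinearMap.ker α,
        y.1.1 = Pi.single (Sum.inl (L, true)) (y.1.1 (Sum.inl (L, true))) := by
      intro y
      obtain ⟨z1, z2⟩ := hzero y.1.1 y.1.2
      funext k
      rcases k with ⟨k, c⟩ | j
      · by_cases hk : k = L
        · subst hk; cases c
          · simp [show y.1.1 (Sum.inl (k, false)) = 0 from y.2]
          · simp
        · simp [z1 (k, c) hk, hk]
      · simp [z2 j]
    have hmem : ∀ y : LinearMap.ker α, adjugate B * y.1.1 (Sum.inl (L, true)) ∈ W := by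
      intro y
      set δ := y.1.1 (Sum.inl (L, true))
      obtain ⟨ht, h0⟩ := tanX_spec hD hx (hK2T _ y.1.2)
      have htB : trace (adjugate B * δ) = 0 := ht _
      have elog : logv x y.1.1 = Pi.single (Sum.inl (L, false)) (0 : Matrix (Fin r) (Fin r) ℂ) +
          Pi.single (Sum.inl (L, true)) (δ * adjugate B) := by
        funext k
        rw [logv, hval y]
        by_cases hk : k = Sum.inl (L, true)
        · subst hk; simp [hB]; rfl
        · simp [hk]
      rw [elog, RV_handle] at h0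
      obtain ⟨p1, p2⟩ := mul_adj_cancel (det_pre (σ := hd x) (fun k => hx.1 _) L.1)
      have h1 : cmVar A B 0 (δ * adjugate B) = 0 := by
        have := congrArg (fun M => adjugate (pre L.1 (hd x)) * M * pre L.1 (hd x)) h0
        simp only [mul_assoc, p2, mul_one, mul_zero, zero_mul] at this
        rw [← mul_assoc (adjugate (pre L.1 (hd x))), p2, one_mul] at this
        simpa [hA, hB] using this
      obtain ⟨a1, a2⟩ := mul_adj_cancel hdA
      obtain ⟨b1, b2⟩ := mul_adj_cancel hdB
      refine Submodule.mem_inf.2 ⟨mem_Cen.2 ?_, ?_⟩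
      · set Y := δ * adjugate B with hY
        have hδ : δ = Y * B := by rw [hY, mul_assoc, b2, mul_one]
        simp only [cmVar, mul_zero, zero_mul, sub_zero, zero_add, sub_eq_zero] at h1
        have hw := mul_adj_cancel (det_cm hdA hdB)
        have e2 : adjugate (cm adjugate A B) * A * Y =
            Y * adjugate (cm adjugate A B) * A := by
          have := congrArg (fun M => adjugate (cm adjugate A B) * M * A) h1
          simp only [mul_assoc, a2, mul_one] at this
          rw [← mul_assoc (adjugate (cm adjugate A B)) (cm adjugate A B), hw.2, one_mul] at this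
          simpa only [mul_assoc] using this
        have e3 : adjugate (cm adjugate A B) * A = B * A * adjugate B := by
          simp only [cm, adjugate_mul_distrib, adjugate_adjugate_of_det hdA,
            adjugate_adjugate_of_det hdB, mul_assoc, a2, mul_one]
        rw [e3, mul_assoc Y, e3] at e2
        have h5 := congrArg (fun M => adjugate B * M * B) e2
        simp only [mul_assoc] at h5
        rw [← mul_assoc (adjugate B) B, b2, one_mul, mul_one] at h5
        rw [hδ]
        simp only [mul_assoc]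
        exact h5.symm
      · exact htB
    let j0 : K2 →ₗ[ℂ] Matrix (Fin r) (Fin r) ℂ :=
      ((LinearMap.mulLeft ℂ (adjugate B)).comp (LinearMap.proj (Sum.inl (L, true)) :
        PT g s r ℂ →ₗ[ℂ] Matrix (Fin r) (Fin r) ℂ)).domRestrict K2
    let j : LinearMap.ker α →ₗ[ℂ] W := (j0.domRestrict (LinearMap.ker α)).codRestrict W hmem
    have hj := LinearMap.finrank_le_finrank_of_injective (f := j) fun y z e => by
      have e' : adjugate B * y.1.1 (Sum.inl (L, true)) = adjugate B * z.1.1 (Sum.inl (L, true)) :=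
        congrArg Subtype.val e
      have e'' : y.1.1 (Sum.inl (L, true)) = z.1.1 (Sum.inl (L, true)) := by
        have := congrArg (fun M => B * M) e'
        simpa only [← mul_assoc, (mul_adj_cancel hdB).1, one_mul] using this
      refine Subtype.ext (Subtype.ext ?_)
      rw [hval y, hval z, e'']
    omega
  omega

/-- The dimension count on a stratum. -/
theorem count_falseX (hg : 2 ≤ g) (hr : r ≠ 0) (hD : ∀ j, (D j).det = 1) {x : PT g s r ℂ}
    (hx : IsX D x) (hS : IsSchurX D x) (L : Fin g)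
    (hperp : ∀ v ∈ TanX D x, ∀ y ∈ CenComm (x (Sum.inl (L, false))),
      trace (y * v (Sum.inl (L, false))) = 0)
    {c : Matrix (Fin r) (Fin r) ℂ} (hc : c ∈ ComK (selRest L) (hd x)) (hns : ∀ z : ℂ, c ≠ z • 1)
    (hext : ∀ v ∈ TanX D x, ∃ X : Matrix (Fin r) (Fin r) ℂ, ∀ k, selRest L k = true →
      c * v (Sum.inl k) - v (Sum.inl k) * c = x (Sum.inl k) * adc c X - adc c X * x (Sum.inl k)) :
    False := by
  have hI := count_imageX hr hD hx L hc hext
  have hP := count_punX hr hD hx
  have hK := count_kernelX hr hD hx L hperp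
  rw [card_rest] at hI
  have h2 := LinearMap.finrank_range_add_finrank_ker ((resRestX L D x).prod (resPun D x))
  have h2' : Module.finrank ℂ (LinearMap.range ((resRestX L D x).prod (resPun D x))) ≤
      Module.finrank ℂ (LinearMap.range (resRestX L D x)) +
        Module.finrank ℂ (LinearMap.range (resPun D x)) := by
    let ι : LinearMap.range ((resRestX L D x).prod (resPun D x)) →ₗ[ℂ]
        LinearMap.range (resRestX L D x) × LinearMap.range (resPun D x) :=
      { toFun := fun p => (⟨p.1.1, by obtain ⟨v, hv⟩ := p.2; exact ⟨v, congrArg Prod.fst hv⟩⟩,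
          ⟨p.1.2, by obtain ⟨v, hv⟩ := p.2; exact ⟨v, congrArg Prod.snd hv⟩⟩)
        map_add' := fun p q => rfl
        map_smul' := fun z p => rfl }
    have := LinearMap.finrank_le_finrank_of_injective (f := ι) fun p q e => Subtype.ext
      (Prod.ext (congrArg Subtype.val (congrArg Prod.fst e))
        (congrArg Subtype.val (congrArg Prod.snd e)))
    rwa [Module.finrank_prod] at this
  set A := x (Sum.inl (L, false))
  have hzA := finrank_Cen_le A
  have hzc := finrank_Cen_add_le hns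
  have had := finrank_range_adc c
  have hT := finrank_TanX hr hD hx hS
  obtain ⟨g', rfl⟩ : ∃ g', g = g' + 2 := ⟨g - 2, by omega⟩
  rw [show g' + 2 - 1 = g' + 1 from rfl] at hI
  have ea : 2 * (g' + 1) * Module.finrank ℂ (Cen c) =
      2 * (g' * Module.finrank ℂ (Cen c)) + 2 * Module.finrank ℂ (Cen c) := by ring
  have eb : g' * Module.finrank ℂ (Cen c) + g' ≤ g' * (r * r) := by
    calc g' * Module.finrank ℂ (Cen c) + g' = g' * (Module.finrank ℂ (Cen c) + 1) := by ring
      _ ≤ g' * (r * r) := Nat.mul_le_mul_left _ (by omega)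
  have ec : (2 * (g' + 2) + s) * (r * r) = 2 * (g' * (r * r)) + 4 * (r * r) + s * (r * r) := by ring
  omega

/-- Near a representation with scalar commutant there is one whose first `g - 1` handles have scalar
commutant. -/
theorem exists_rest_schurX (hg : 2 ≤ g) (hr : r ≠ 0) (hD : ∀ j, (D j).det = 1) (L : Fin g)
    {σ : PT g s r ℂ} (hσ : IsX D σ) (hS : IsSchurX D σ) {N : Set (PT g s r ℂ)} (hN : N ∈ 𝓝 σ) :
    ∃ ρ ∈ N, IsX D ρ ∧ IsSchurX D ρ ∧ Module.finrank ℂ (ComK (selRest L) (hd ρ)) ≤ 1 := by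
  classical
  set p := selRest L
  let qa : Fin g × Bool → Bool := fun k => decide (k = (L, false))
  let f : PT g s r ℂ → ℕ := fun x =>
    Module.finrank ℂ (ComK qa (hd x)) + Module.finrank ℂ (ComK p (hd x))
  obtain ⟨N', hN'sub, hN'o, hσN'⟩ : ∃ N', N' ⊆ N ∩ {x | IsSchurX D x} ∧ IsOpen N' ∧ σ ∈ N' := by
    exact mem_nhds_iff.1 (Filter.inter_mem hN (eventually_isSchurX hr hS))
  have hex : ∃ n, ∃ x ∈ N', IsX D x ∧ f x = n := ⟨_, σ, hσN', hσ, rfl⟩
  obtain ⟨ρ, hρN, hρ, hfρ⟩ := Nat.find_spec hex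
  by_contra hno
  push Not at hno
  have hconst : ∀ᶠ x in 𝓝 ρ, x ∈ N' ∧ (IsX D x →
      Module.finrank ℂ (ComK qa (hd x)) = Module.finrank ℂ (ComK qa (hd ρ)) ∧
        Module.finrank ℂ (ComK p (hd x)) = Module.finrank ℂ (ComK p (hd ρ))) := by
    filter_upwards [hN'o.mem_nhds hρN, usc_ComKX qa ρ, usc_ComKX p ρ] with x hx ha hp
    refine ⟨hx, fun hrep => ?_⟩
    have := Nat.find_min' hex ⟨x, hx, hrep, rfl⟩
    simp only [f] at hfρ this
    omega
  obtain ⟨O, hOsub, hOo, hρO⟩ := eventually_nhds_iff.1 hconst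
  have hperp : ∀ x ∈ O, IsX D x → ∀ v ∈ TanX D x, ∀ y ∈ CenComm (x (Sum.inl (L, false))),
      trace (y * v (Sum.inl (L, false))) = 0 := by
    intro x hx hrep v hv y hy
    have hsx : IsSchurX D x := (hN'sub (hOsub x hx).1).2
    have hc : ∀ᶠ x' in 𝓝 x, IsX D x' →
        Module.finrank ℂ (ComK qa (hd x')) = Module.finrank ℂ (ComK qa (hd x)) := by
      filter_upwards [hOo.mem_nhds hx] with x' hx' hr'
      rw [((hOsub x' hx').2 hr').1, ((hOsub x hx).2 hrep).1]
    have hq : qa (L, false) = true := by simp [qa]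
    induction hy using Submodule.span_induction with
    | mem y hy =>
      obtain ⟨c, hcm, c', hcm', rfl⟩ := hy
      obtain ⟨cs, hcs1, hcs2, hcs3⟩ := exists_comm_sectionX hc (c₀ := c) (mem_ComK.2 fun k hk => by
        rw [show k = (L, false) by simpa [qa] using hk]; exact mem_Cen.1 hcm)
      have h := section_derivX hr hD hrep hsx hcs1 hcs3 hv hq
      rw [hcs2] at h
      have h2 := congrArg (fun M => trace (M * c')) h
      simp only [sub_mul, trace_sub] at h2 ⊢
      rw [trace_mul_comm (v (Sum.inl (L, false)) * c) c', trace_mul_comm (c * v (Sum.inl (L, false))) c',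
        trace_mul_comm (x (Sum.inl (L, false)) * _) c', ← mul_assoc c' (x (Sum.inl (L, false))),
        mem_Cen.1 hcm', mul_assoc (x (Sum.inl (L, false))), trace_mul_comm (x (Sum.inl (L, false))) (c' * _),
        mul_assoc c', ← mul_assoc, trace_mul_comm _ c'] at h2
      simp only [mul_assoc] at h2 ⊢
      rw [trace_mul_comm c (c' * v (Sum.inl (L, false)))]
      simp only [mul_assoc]
      linear_combination -h2
    | zero => simp
    | add y y' _ _ hy hy' => rw [add_mul, trace_add, hy, hy', add_zero]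
    | smul z y _ hy => rw [Matrix.smul_mul, trace_smul, hy, smul_zero]
  have hnoO : ∀ x ∈ O, IsX D x → 1 < Module.finrank ℂ (ComK p (hd x)) := fun x hx hrep =>
    hno x (hN'sub (hOsub x hx).1).1 hrep (hN'sub (hOsub x hx).1).2
  have hsec : ∀ x ∈ O, IsX D x → ∀ᶠ x' in 𝓝 x, IsX D x' →
      Module.finrank ℂ (ComK p (hd x')) = Module.finrank ℂ (ComK p (hd x)) := fun x hx hrep => by
    filter_upwards [hOo.mem_nhds hx] with x' hx' hr'
    rw [((hOsub x' hx').2 hr').2, ((hOsub x hx).2 hrep).2]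
  -- no idempotents in the commutants
  have hnilp : ∀ x ∈ O, IsX D x → ∀ c ∈ ComK p (hd x), trace c = 0 → c ^ r = 0 := by
    intro x hx hrep c hc htr
    by_contra hnil
    obtain ⟨e, he, he0, he1, hecomm⟩ := exists_idempotent htr hnil
    have hsx : IsSchurX D x := (hN'sub (hOsub x hx).1).2
    have hemem : e ∈ ComK p (hd x) := mem_ComK.2 fun k hk => hecomm _ (mem_ComK.1 hc k hk)
    refine count_falseX hg hr hD hrep hsx L (hperp x hx hrep) hemem (fun z hz => ?_) fun v hv => ?_
    · have hzz : z * z = z := by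
        have h0 : (z * z - z) • (1 : Matrix (Fin r) (Fin r) ℂ) = 0 := by
          rw [sub_smul, sub_eq_zero, mul_smul]
          rw [hz] at he
          simpa [smul_smul] using he
        have h1 := congrArg trace h0
        rw [trace_smul, trace_one, Fintype.card_fin, trace_zero, smul_eq_mul] at h1
        exact sub_eq_zero.1 ((mul_eq_zero.1 h1).resolve_right (Nat.cast_ne_zero.2 hr))
      rcases mul_eq_zero.1 (show z * (z - 1) = 0 by rw [mul_sub, mul_one, hzz, sub_self]) with h | h
      · exact he0 (by rw [hz, h, zero_smul])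
      · exact he1 (by rw [hz, sub_eq_zero.1 h, one_smul])
    · obtain ⟨cs, hcs1, hcs2, hcs3⟩ := exists_comm_sectionX (hsec x hx hrep) hemem
      set δ := fderiv ℂ cs x v with hδ
      refine ⟨e * δ * (1 - e) - (1 - e) * δ * e, fun k hk => ?_⟩
      have h := section_derivX hr hD hrep hsx hcs1 hcs3 hv hk
      rw [hcs2, ← hδ] at h
      have hek : e * x (Sum.inl k) = x (Sum.inl k) * e := mem_ComK.1 hemem k hk
      have e1 : adc e (e * δ * (1 - e) - (1 - e) * δ * e) = e * δ + δ * e - e * δ * e - e * δ * e := by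
        simp only [adc, LinearMap.sub_apply, LinearMap.mulLeft_apply, LinearMap.mulRight_apply,
          mul_sub, sub_mul, mul_one, one_mul, mul_assoc, he]
        simp only [← mul_assoc, he]
        abel
      rw [e1]
      have h1 := congrArg (fun M => e * M) h
      have h2 := congrArg (fun M => M * e) h
      have h3 := congrArg (fun M => e * M * e) h
      have q1 : ∀ M, e * (x (Sum.inl k) * M) = x (Sum.inl k) * (e * M) := fun M => by
        rw [← mul_assoc, hek, mul_assoc]
      simp only [mul_sub, sub_mul, mul_assoc, q1, he] at h1 h2 h3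
      simp only [← mul_assoc, he] at h1 h2 h3
      have q2 : ∀ M, M * x (Sum.inl k) * e = M * e * x (Sum.inl k) := fun M => by
        rw [mul_assoc, ← hek, ← mul_assoc]
      simp only [q2] at h1 h2 h3
      simp only [mul_add, add_mul, mul_sub, sub_mul, ← mul_assoc]
      linear_combination (norm := abel) h1 + h2 - h3 - h3
  have h1 := hnoO ρ hρO hρ
  obtain ⟨c₀, hc₀, hns⟩ : ∃ c₀ ∈ ComK p (hd ρ), ∀ z : ℂ, c₀ ≠ z • (1 : Matrix (Fin r) (Fin r) ℂ) := by
    by_contra h
    push Not at h
    have := (ComK_le_one_iff hr).2 h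
    omega
  have hρS : IsSchurX D ρ := (hN'sub (hOsub ρ hρO).1).2
  obtain ⟨cs, hcs1, hcs2, hcs3⟩ := exists_comm_sectionX (hsec ρ hρO hρ) hc₀
  let c1 : PT g s r ℂ → Matrix (Fin r) (Fin r) ℂ := fun x => tl (cs x)
  have hc1 : ∀ᶠ x in 𝓝 ρ, x ∈ O ∧ ContDiffAt ℂ 1 c1 x ∧ c1 x ≠ 0 ∧
      (IsX D x → c1 x ∈ ComK p (hd x) ∧ c1 x ^ r = 0) := by
    have hcd0 : ContDiffAt ℂ 1 c1 ρ := contDiff_tl.contDiffAt.comp ρ hcs1
    have hne : c1 ρ ≠ 0 := by
      intro e
      exact hns _ (sub_eq_zero.1 (show tl c₀ = 0 by rw [← hcs2]; exact e))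
    filter_upwards [hOo.mem_nhds hρO, hcd0.eventually (by simp),
      hcd0.continuousAt.eventually_ne hne, hcs3] with x hx hxd hxn hxm
    refine ⟨hx, hxd, hxn, fun hrep => ?_⟩
    have hm : c1 x ∈ ComK p (hd x) := Submodule.sub_mem _ (hxm hrep)
      (Submodule.smul_mem _ _ (one_mem_ComK p (hd x)))
    exact ⟨hm, hnilp x hx hrep _ hm (trace_tl hr _)⟩
  obtain ⟨O1, hO1, hO1o, hρO1⟩ := eventually_nhds_iff.1 hc1
  let P : ℕ → Prop := fun n => ∃ x ∈ O1, IsX D x ∧ c1 x ^ n ≠ 0
  obtain ⟨m, hmP, hmax⟩ : ∃ m, P m ∧ ∀ n, m < n → ¬ P n := by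
    refine ⟨Nat.findGreatest P r, ?_, fun n hn hP => ?_⟩
    · refine Nat.findGreatest_spec (m := 1) (Nat.one_le_iff_ne_zero.2 hr) ⟨ρ, hρO1, hρ, ?_⟩
      rw [pow_one]; exact (hO1 ρ hρO1).2.2.1
    · rcases le_or_gt n r with h | h
      · exact absurd (Nat.le_findGreatest h hP) (not_le.2 hn)
      · obtain ⟨x, hx, hrep, hne⟩ := hP
        exact hne (pow_eq_zero_of_le h.le ((hO1 x hx).2.2.2 hrep).2)
  have hm1 : 1 ≤ m := by
    by_contra h
    exact hmax 1 (by omega) ⟨ρ, hρO1, hρ, by rw [pow_one]; exact (hO1 ρ hρO1).2.2.1⟩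
  obtain ⟨x0, hx0, hx0r, hx0m⟩ := hmP
  obtain ⟨O2, hO2, hO2o, hx0O2⟩ : ∃ O2, (∀ x ∈ O2, x ∈ O1 ∧ c1 x ^ m ≠ 0) ∧ IsOpen O2 ∧ x0 ∈ O2 :=
    eventually_nhds_iff.1 ((hO1o.eventually_mem hx0).and
      (((hO1 x0 hx0).2.1.continuousAt.pow m).eventually_ne hx0m))
  let c : PT g s r ℂ → Matrix (Fin r) (Fin r) ℂ := fun x => c1 x ^ m
  let kr : PT g s r ℂ → ℕ := fun x => Module.finrank ℂ (LinearMap.ker (Matrix.mulVecLin (c x)))
  have hex2 : ∃ n, ∃ x ∈ O2, IsX D x ∧ kr x = n := ⟨_, x0, hx0O2, hx0r, rfl⟩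
  obtain ⟨x1, hx1, hx1r, hkx1⟩ := Nat.find_spec hex2
  obtain ⟨hx1O1, hcne⟩ := hO2 x1 hx1
  have hx1O : x1 ∈ O := (hO1 x1 hx1O1).1
  have hsx : IsSchurX D x1 := (hN'sub (hOsub x1 hx1O).1).2
  have hcd : ContDiffAt ℂ 1 c x1 := ((hO1 x1 hx1O1).2.1).pow m
  let toL : Matrix (Fin r) (Fin r) ℂ →L[ℂ] ((Fin r → ℂ) →L[ℂ] (Fin r → ℂ)) :=
    LinearMap.toContinuousLinearMap
      ((LinearMap.toContinuousLinearMap : ((Fin r → ℂ) →ₗ[ℂ] (Fin r → ℂ)) ≃ₗ[ℂ]
        ((Fin r → ℂ) →L[ℂ] (Fin r → ℂ))).toLinearMap.comp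
        (Matrix.toLin' : Matrix (Fin r) (Fin r) ℂ ≃ₗ[ℂ] _).toLinearMap)
  have hLd : ContDiffAt ℂ 1 (fun x => toL (c x)) x1 := toL.contDiff.contDiffAt.comp x1 hcd
  obtain ⟨hker, hkersec⟩ := ker_family x1 hLd
  have hkconst : ∀ᶠ x in 𝓝 x1, IsX D x → kr x = kr x1 := by
    filter_upwards [hker, hO2o.mem_nhds hx1] with x hx hxO hrep
    have := Nat.find_min' hex2 ⟨x, hxO, hrep, rfl⟩
    exact le_antisymm hx (hkx1.le.trans this)
  have hcomm : c x1 ∈ ComK p (hd x1) := mem_ComK.2 fun k hk => by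
    have hcm := mem_ComK.1 ((hO1 x1 hx1O1).2.2.2 hx1r).1 k hk
    exact (show Commute (c1 x1) (x1 (Sum.inl k)) from hcm).pow_left m
  have hsq : ∀ x ∈ O1, IsX D x → c x * c x = 0 := by
    intro x hx hrep
    show c1 x ^ m * c1 x ^ m = 0
    rw [← pow_add]
    by_contra hne
    exact hmax (m + m) (by omega) ⟨x, hx, hrep, hne⟩
  refine count_falseX hg hr hD hx1r hsx L (hperp x1 hx1O hx1r) hcomm (fun z hz => ?_) fun v hv => ?_
  · have h0 := hsq x1 hx1O1 hx1r
    rw [hz, Matrix.smul_mul, one_mul, smul_smul] at h0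
    have h0' := congrArg trace h0
    rw [trace_smul, trace_one, Fintype.card_fin, trace_zero, smul_eq_mul] at h0'
    have hz0 : z = 0 := mul_self_eq_zero.1 ((mul_eq_zero.1 h0').resolve_right
      (Nat.cast_ne_zero.2 hr))
    exact hcne (by rw [show c1 x1 ^ m = c x1 from rfl, hz, hz0, zero_smul])
  · have hdiff := hcd.differentiableAt one_ne_zero
    set δ := fderiv ℂ c x1 v
    set C := c x1 with hC
    have hsqd : C * δ + δ * C = 0 := by
      have := fderiv_eq_zero_of_isX hr hD hx1r hsx (hdiff.hasFDerivAt.mul' hdiff.hasFDerivAt).differentiableAt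
        ((hO1o.eventually_mem hx1O1).mono fun x hx hrep => hsq x hx hrep) hv
      rw [(hdiff.hasFDerivAt.mul' hdiff.hasFDerivAt).fderiv] at this
      simpa using this
    obtain ⟨G, hG⟩ := exists_ginverse C
    have hker2 : (1 - C * G) * δ * (1 - G * C) = 0 := by
      refine Matrix.ext_of_mulVec_single fun k => ?_
      rw [← mulVec_mulVec, ← mulVec_mulVec, zero_mulVec]
      set u := (1 - G * C) *ᵥ Pi.single k 1
      have hu : C *ᵥ u = 0 := by
        rw [mulVec_mulVec, mul_sub, mul_one, ← mul_assoc, hG, sub_self, zero_mulVec]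
      obtain ⟨w, hw1, hw2, hw3⟩ := hkersec u (by simpa [toL] using hu)
      have h0 := fderiv_eq_zero_of_isX hr hD hx1r hsx
        ((hLd.clm_apply hw1).differentiableAt one_ne_zero)
        ((hw3.and hkconst).mono fun x hx hrep => hx.1 (hx.2 hrep)) hv
      rw [((hLd.differentiableAt one_ne_zero).hasFDerivAt.clm_apply
        (hw1.differentiableAt one_ne_zero).hasFDerivAt).fderiv] at h0
      have e : fderiv ℂ (fun x => toL (c x)) x1 v = toL δ := by
        rw [HasFDerivAt.fderiv (f := fun x => toL (c x)) (toL.hasFDerivAt.comp x1 hdiff.hasFDerivAt)]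
        rfl
      have h4 : C *ᵥ fderiv ℂ w x1 v + δ *ᵥ u = 0 := by
        change toL (c x1) (fderiv ℂ w x1 v) + fderiv ℂ (fun x => toL (c x)) x1 v (w x1) = 0 at h0
        rw [e, hw2] at h0
        exact h0
      rw [eq_neg_of_add_eq_zero_right h4, mulVec_neg, mulVec_mulVec, sub_mul, one_mul, hG, sub_self,
        zero_mulVec, neg_zero]
    refine ⟨G * δ * (1 - G * C) * (1 - C * G) - δ * G * C * G, fun k hk => ?_⟩
    have hmemc : ∀ᶠ x in 𝓝 x1, IsX D x → c x ∈ ComK p (hd x) :=
      (hO1o.eventually_mem hx1O1).mono fun x hx hrep => mem_ComK.2 fun k hk =>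
        (show Commute (c1 x) (x (Sum.inl k)) from mem_ComK.1 ((hO1 x hx).2.2.2 hrep).1 k hk).pow_left m
    have h := section_derivX hr hD hx1r hsx hcd hmemc hv hk
    have e : adc C (G * δ * (1 - G * C) * (1 - C * G) - δ * G * C * G) = δ := by
      have a1 : C * G * δ * (1 - G * C) = δ * (1 - G * C) := by
        have := hker2
        rw [mul_assoc, sub_mul, one_mul, sub_eq_zero] at this
        rw [mul_assoc (C * G) δ]
        exact this.symm
      have a2 : C * δ = -(δ * C) := eq_neg_of_add_eq_zero_left hsqd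
      have a3 : (1 - C * G) * C = 0 := by rw [sub_mul, one_mul, hG, sub_self]
      have a4 : (1 - G * C) * (1 - C * G) = 1 - G * C - C * G := by
        have : G * C * (C * G) = 0 := by
          rw [show G * C * (C * G) = G * (C * C) * G by simp only [mul_assoc],
            hsq x1 hx1O1 hx1r, mul_zero, zero_mul]
        rw [mul_sub, mul_one, sub_mul, one_mul, this]
        abel
      simp only [adc, LinearMap.sub_apply, LinearMap.mulLeft_apply, LinearMap.mulRight_apply]
      rw [mul_sub, sub_mul]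
      rw [show C * (G * δ * (1 - G * C) * (1 - C * G)) =
          C * G * δ * (1 - G * C) * (1 - C * G) by simp only [mul_assoc], a1, mul_assoc δ, a4,
        show C * (δ * G * C * G) = C * δ * G * C * G by simp only [mul_assoc], a2,
        show G * δ * (1 - G * C) * (1 - C * G) * C =
          G * δ * (1 - G * C) * ((1 - C * G) * C) by simp only [mul_assoc], a3, mul_zero,
        show δ * G * C * G * C = δ * G * (C * G * C) by simp only [mul_assoc], hG]
      rw [show -(δ * C) * G * C * G = -(δ * (C * G * C) * G) by simp only [neg_mul, mul_assoc], hG]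
      simp only [mul_sub, mul_one, mul_assoc]
      abel
    rw [e]
    exact h

end Vale.Agent.P002.Sb
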