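import Vale.Agent.P002.Sb.Base

/-!
# P002: a finite monomial seed

For root-of-unity boundary eigenvalues whose product can be made non-constant or a primitive scalar,
one handle absorbs all the punctures by a pair of monomial matrices generating the matrix algebra.
-/

namespace Vale.Agent.P002.Sb

open Matrix

variable {r s : ℕ}

/-- After reordering the eigenvalues the pointwise product is non-constant or a primitive root. -/
def NonDeg (d : Fin s → Fin r → ℂ) : Prop :=
  ∃ π : Fin s → Equiv.Perm (Fin r),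
    (∃ a b, ∏ j, d j (π j a) ≠ ∏ j, d j (π j b)) ∨
    (∃ ζ : ℂ, IsPrimitiveRoot ζ r ∧ ∀ a, ∏ j, d j (π j a) = ζ)

theorem nonDeg_of (hr : 2 ≤ r) (d : Fin s → Fin r → ℂ) (hprod : ∀ j, ∏ a, d j a = 1)
    (h : (∃ j a b, d j a ≠ d j b) ∨
      (∃ ζ : ℂ, IsPrimitiveRoot ζ r ∧ ∀ a, ∏ j, d j a = ζ)) : NonDeg d := by
  classical
  rcases h with ⟨j₀, a, b, hab⟩ | h
  swap
  · exact ⟨fun _ => 1, Or.inr h⟩
  by_cases hc : ∃ a b, ∏ j, d j a ≠ ∏ j, d j b
  · exact ⟨fun _ => 1, Or.inl hc⟩
  push Not at hc
  have hne : a ≠ b := fun e => hab (by rw [e])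
  set e := ∏ j, d j a with he
  have hd0 : ∀ j c, d j c ≠ 0 := fun j c => (Finset.prod_ne_zero_iff.1 (by rw [hprod j]; exact one_ne_zero))
    c (Finset.mem_univ c)
  let π : Fin s → Equiv.Perm (Fin r) := fun j => if j = j₀ then Equiv.swap a b else 1
  have hπ : ∀ c, ∏ j, d j (π j c) = e * (d j₀ (Equiv.swap a b c) / d j₀ c) := by
    intro c
    rw [he, hc a c, ← Finset.mul_prod_erase _ _ (Finset.mem_univ j₀),
      ← Finset.mul_prod_erase _ _ (Finset.mem_univ j₀)]
    have : ∀ j ∈ Finset.univ.erase j₀, d j (π j c) = d j c := fun j hj => by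
      simp [π, Finset.ne_of_mem_erase hj]
    rw [Finset.prod_congr rfl this]
    simp only [π, if_pos rfl]
    field_simp [hd0 j₀ c]
  have he0 : e ≠ 0 := Finset.prod_ne_zero_iff.2 fun j _ => hd0 j a
  by_cases hu : d j₀ b / d j₀ a = d j₀ a / d j₀ b
  · -- the ratio is a sign
    have hu' : d j₀ b / d j₀ a = -1 := by
      have h1 : d j₀ b / d j₀ a * (d j₀ b / d j₀ a) = 1 := by
        conv_lhs => arg 2; rw [hu]
        field_simp [hd0 j₀ a, hd0 j₀ b]
      rcases mul_self_eq_one_iff.1 h1 with h2 | h2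
      · exact absurd ((div_eq_one_iff_eq (hd0 j₀ a)).1 h2).symm hab
      · exact h2
    by_cases h3 : ∃ c, c ≠ a ∧ c ≠ b
    · obtain ⟨c, hca, hcb⟩ := h3
      refine ⟨π, Or.inl ⟨a, c, ?_⟩⟩
      rw [hπ, hπ, Equiv.swap_apply_left, Equiv.swap_apply_of_ne_of_ne hca hcb, hu',
        div_self (hd0 j₀ c), mul_one]
      intro h4
      have : e * 2 = 0 := by linear_combination -h4
      simp [he0] at this
    · -- only two eigenvalues
      push Not at h3
      have huniv : (Finset.univ : Finset (Fin r)) = {a, b} := by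
        ext c
        simp only [Finset.mem_univ, Finset.mem_insert, Finset.mem_singleton, true_iff]
        by_cases hca : c = a
        · exact Or.inl hca
        · exact Or.inr (h3 c hca)
      have hr2 : r = 2 := by
        have := congrArg Finset.card huniv
        rwa [Finset.card_univ, Fintype.card_fin, Finset.card_pair hne] at this
      have hee : e * e = 1 := by
        have h1 : ∏ c, ∏ j, d j c = 1 := by
          rw [Finset.prod_comm]; simp [hprod]
        rwa [huniv, Finset.prod_pair hne, ← hc a b] at h1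
      have hval : ∀ c, ∏ j, d j (π j c) = -e := by
        intro c
        rw [hπ]
        by_cases hca : c = a
        · rw [hca, Equiv.swap_apply_left, hu']; ring
        · rw [h3 c hca, Equiv.swap_apply_right, ← hu, hu']; ring
      rcases mul_self_eq_one_iff.1 hee with h4 | h4
      · refine ⟨π, Or.inr ⟨-1, ?_, fun c => by rw [hval, h4]⟩⟩
        rw [hr2]
        exact IsPrimitiveRoot.neg_one 0 (by norm_num)
      · refine ⟨fun _ => 1, Or.inr ⟨-1, ?_, fun c => ?_⟩⟩
        · rw [hr2]
          exact IsPrimitiveRoot.neg_one 0 (by norm_num)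
        · show ∏ j, d j c = -1
          rw [← hc a c, ← he, h4]
  · refine ⟨π, Or.inl ⟨a, b, ?_⟩⟩
    rw [hπ, hπ, Equiv.swap_apply_left, Equiv.swap_apply_right]
    exact fun h4 => hu (mul_left_cancel₀ he0 h4)

/-- Monomial matrices whose entries are powers of `ζ`. -/
def monoSet (r : ℕ) (ζ : ℂ) (M : ℕ) : Set (Matrix (Fin r) (Fin r) ℂ) :=
  Set.range fun p : Equiv.Perm (Fin r) × (Fin r → Fin M) =>
    Matrix.of fun i j => if j = p.1 i then ζ ^ (p.2 i : ℕ) else 0

theorem mem_monoSet {ζ : ℂ} {M : ℕ} [NeZero M] (hζ : IsPrimitiveRoot ζ M) (σ : Equiv.Perm (Fin r))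
    {f : Fin r → ℂ} (hf : ∀ i, f i ^ M = 1) :
    (Matrix.of fun i j => if j = σ i then f i else 0) ∈ monoSet r ζ M := by
  choose k hk hk' using fun i => hζ.eq_pow_of_pow_eq_one (hf i)
  exact ⟨(σ, fun i => ⟨k i, hk i⟩), by simp [hk']⟩

theorem monoSet_mul {ζ : ℂ} {M : ℕ} [NeZero M] (hζ : IsPrimitiveRoot ζ M)
    {A B : Matrix (Fin r) (Fin r) ℂ} (hA : A ∈ monoSet r ζ M) (hB : B ∈ monoSet r ζ M) :
    A * B ∈ monoSet r ζ M := by
  obtain ⟨⟨σ, f⟩, rfl⟩ := hA
  obtain ⟨⟨τ, g⟩, rfl⟩ := hB
  have h := mem_monoSet hζ (σ.trans τ) (f := fun i => ζ ^ (f i : ℕ) * ζ ^ (g (σ i) : ℕ))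
    (fun i => by rw [mul_pow, ← pow_mul, ← pow_mul, mul_comm _ M, mul_comm _ M, pow_mul, pow_mul,
      hζ.pow_eq_one, one_pow, one_pow, one_mul])
  convert h using 1
  ext i j
  rw [Matrix.mul_apply, Finset.sum_eq_single (σ i) (fun l _ hl => by simp [hl])
    (fun h' => absurd (Finset.mem_univ (σ i)) h')]
  simp [Equiv.trans_apply]
  congr

theorem monoSet_one {ζ : ℂ} {M : ℕ} [NeZero M] (hζ : IsPrimitiveRoot ζ M) :
    (1 : Matrix (Fin r) (Fin r) ℂ) ∈ monoSet r ζ M := by
  have h := mem_monoSet (r := r) hζ 1 (f := fun _ => 1) (fun _ => one_pow M)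
  convert h using 1
  ext i j
  simp [Matrix.one_apply, eq_comm]

theorem diag_mem_monoSet {ζ : ℂ} {M : ℕ} [NeZero M] (hζ : IsPrimitiveRoot ζ M) {f : Fin r → ℂ}
    (hf : ∀ i, f i ^ M = 1) : diagonal f ∈ monoSet r ζ M := by
  have h := mem_monoSet hζ 1 hf
  convert h using 1
  ext i j
  simp [diagonal_apply, eq_comm]

theorem monoSet_entries {ζ : ℂ} {M : ℕ} {A : Matrix (Fin r) (Fin r) ℂ}
    (hA : A ∈ monoSet r ζ M) (a b : Fin r) : A a b ∈ Subring.closure ({ζ} : Set ℂ) := by
  obtain ⟨p, rfl⟩ := hA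
  simp only [of_apply]
  split_ifs
  · exact pow_mem (Subring.subset_closure (Set.mem_singleton ζ)) _
  · exact zero_mem _

theorem eq_const_of_periodic {n : ℕ} {f : Fin (n + 1) → ℕ} (hf : Monotone f) {t : Fin (n + 1)}
    (ht : t ≠ 0) (h : ∀ a, f (a + t) = f a) (a : Fin (n + 1)) : f a = f 0 := by
  have h0 : f t = f 0 := by simpa using h 0
  have h1 := h (Fin.last n)
  have hle : Fin.last n + t ≤ t := by
    have : Fin.last n + t = t - 1 := by
      rw [eq_sub_iff_add_eq, add_right_comm, Fin.last_add_one, zero_add]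
    rw [this]
    exact (Fin.sub_one_lt_iff.2 (Fin.pos_iff_ne_zero.2 ht)).le
  have h2 : f (Fin.last n) ≤ f 0 := by rw [← h1, ← h0]; exact hf hle
  exact le_antisymm ((hf (Fin.le_last a)).trans h2) (hf (Fin.zero_le a))

open Fin.NatCast in
/-- The seed: a monomial pair whose commutator undoes the product of the punctures and which
generates the matrix algebra, all inside a finite set of monomial matrices. -/
theorem exists_seed (hr : 2 ≤ r) (d : Fin s → Fin r → ℂ) {M₀ : ℕ} (hM : M₀ ≠ 0)
    (hd : ∀ j a, d j a ^ M₀ = 1) (hprod : ∀ j, ∏ a, d j a = 1) (hnd : NonDeg d) :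
    ∃ (ζ : ℂ) (π : Fin s → Equiv.Perm (Fin r)) (A B : Matrix (Fin r) (Fin r) ℂ),
      IsPrimitiveRoot ζ (2 * r * M₀) ∧ A.det = 1 ∧ B.det = 1 ∧
      A ∈ monoSet r ζ (2 * r * M₀) ∧ B ∈ monoSet r ζ (2 * r * M₀) ∧
      (∀ j, diagonal (fun a => d j (π j a)) ∈ monoSet r ζ (2 * r * M₀)) ∧
      A ^ (2 * r * M₀) = 1 ∧ B ^ (2 * r * M₀) = 1 ∧
      cm adjugate A B * (List.ofFn fun j => diagonal fun a => d j (π j a)).prod = 1 ∧
      Algebra.adjoin ℂ ({A, B} : Set (Matrix (Fin r) (Fin r) ℂ)) = ⊤ := by
  classical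
  obtain ⟨n, rfl⟩ : ∃ n, r = n + 1 := ⟨r - 1, by omega⟩
  obtain ⟨π₀, hπ₀⟩ := hnd
  let e₀ : Fin (n + 1) → ℂ := fun a => ∏ j, d j (π₀ j a)
  let img := Finset.univ.image e₀
  let key : Fin (n + 1) → ℕ := fun a => img.equivFin ⟨e₀ a, Finset.mem_image_of_mem _ (Finset.mem_univ a)⟩
  let srt := Tuple.sort key
  let π : Fin s → Equiv.Perm (Fin (n + 1)) := fun j => srt.trans (π₀ j)
  let e : Fin (n + 1) → ℂ := fun a => ∏ j, d j (π j a)
  have hee : ∀ a, e a = e₀ (srt a) := fun a => rfl
  have hkey : ∀ a b, key a = key b → e₀ a = e₀ b := fun a b h =>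
    congrArg Subtype.val (img.equivFin.injective (Fin.ext h))
  have heM : ∀ a, e a ^ M₀ = 1 := fun a => by
    simp only [e, ← Finset.prod_pow, hd, Finset.prod_const_one]
  have he0 : ∀ a, e a ≠ 0 := fun a h => by
    have := heM a; rw [h, zero_pow hM] at this; exact zero_ne_one this
  have he1 : ∏ a, e a = 1 := by
    rw [Finset.prod_comm]
    exact Finset.prod_eq_one fun j _ => by
      rw [Equiv.prod_comp (π j) (fun a => d j a)]; exact hprod j
  set MM := 2 * (n + 1) * M₀ with hMM
  have hMM0 : MM ≠ 0 := by positivity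
  have : NeZero MM := ⟨hMM0⟩
  have hζ : IsPrimitiveRoot (Complex.exp (2 * Real.pi * Complex.I / MM)) MM :=
    Complex.isPrimitiveRoot_exp MM hMM0
  set ζ := Complex.exp (2 * Real.pi * Complex.I / MM)
  have hroot : ∀ z : ℂ, z ^ M₀ = 1 → z ^ MM = 1 := fun z hz => by
    rw [hMM, mul_comm, pow_mul, hz, one_pow]
  -- the eigenvalues of `A`
  let y : Fin (n + 1) → ℂ := fun i => Fin.induction 1 (fun i v => v * e i.castSucc) i
  have hy0 : y 0 = 1 := rfl
  have hys : ∀ i : Fin n, y i.succ = y i.castSucc * e i.castSucc := fun i => by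
    simp [y, Fin.induction_succ]
  have hyM : ∀ i, y i ^ M₀ = 1 := fun i => by
    induction i using Fin.induction with
    | zero => rw [hy0, one_pow]
    | succ i ih => rw [hys, mul_pow, ih, heM, one_mul]
  have hyprod : ∀ i : Fin (n + 1), y i * e i = ∏ l ∈ Finset.Iic i, e l := by
    intro i
    induction i using Fin.induction with
    | zero => rw [hy0, one_mul, show Finset.Iic (0 : Fin (n + 1)) = {0} from by ext; simp [Fin.le_def],
        Finset.prod_singleton]
    | succ i ih =>
      rw [hys, ih, show Finset.Iic i.succ = insert i.succ (Finset.Iic i.castSucc) from by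
          ext l; simp only [Finset.mem_Iic, Finset.mem_insert, Fin.le_def, Fin.ext_iff,
            Fin.val_succ, Fin.val_castSucc]; omega,
        Finset.prod_insert (by simp [Fin.le_def]), mul_comm]
  have hwrap : ∀ i, y (i + 1) = y i * e i := by
    intro i
    refine Fin.lastCases ?_ (fun i => ?_) i
    · rw [Fin.last_add_one, hy0, hyprod, show Finset.Iic (Fin.last n) = Finset.univ from by
        ext l; simp [Fin.le_last], he1]
    · rw [Fin.coeSucc_eq_succ, hys]
  obtain ⟨κ, hκ⟩ := IsAlgClosed.exists_pow_nat_eq ((∏ i, y i)⁻¹) (n := n + 1) (by omega)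
  let x : Fin (n + 1) → ℂ := fun i => κ * y i
  have hxM : ∀ i, x i ^ MM = 1 := fun i => by
    simp only [x, mul_pow, hroot _ (hyM i), mul_one, hMM]
    rw [show 2 * (n + 1) * M₀ = (n + 1) * (M₀ * 2) by ring, pow_mul, hκ, pow_mul, inv_pow,
      ← Finset.prod_pow]
    rw [Finset.prod_eq_one fun i _ => hyM i, inv_one, one_pow, one_mul]
    rw [show (n + 1) * (M₀ * 2) = MM by rw [hMM]; ring, hroot _ (hyM i)]
  have hx1 : ∏ i, x i = 1 := by
    simp only [x, Finset.prod_mul_distrib, Finset.prod_const, Finset.card_univ, Fintype.card_fin, hκ]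
    refine inv_mul_cancel₀ (Finset.prod_ne_zero_iff.2 fun i _ h => ?_)
    have := hyM i; rw [h, zero_pow hM] at this; exact zero_ne_one this
  have hxwrap : ∀ i, x (i + 1) = x i * e i := fun i => by simp only [x, hwrap]; ring
  have hx0 : ∀ i, x i ≠ 0 := fun i h => by
    have := hxM i; rw [h, zero_pow hMM0] at this; exact zero_ne_one this
  -- the shift
  let sh : Equiv.Perm (Fin (n + 1)) := Equiv.addRight 1
  obtain ⟨c, hc⟩ := IsAlgClosed.exists_pow_nat_eq ((Equiv.Perm.sign sh : ℤ) : ℂ) (n := n + 1) (by omega)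
  have hc2 : c ^ (2 * (n + 1)) = 1 := by
    rw [mul_comm, pow_mul, hc, sq, ← Int.cast_mul, ← Units.val_mul, Int.units_mul_self, Units.val_one,
      Int.cast_one]
  have hcM : c ^ MM = 1 := by rw [hMM, pow_mul, hc2, one_pow]
  set B : Matrix (Fin (n + 1)) (Fin (n + 1)) ℂ := Matrix.of fun i j => if j = sh i then c else 0
    with hB
  set A : Matrix (Fin (n + 1)) (Fin (n + 1)) ℂ := diagonal x with hA
  have hBperm : B = c • sh.permMatrix ℂ := by
    ext i j; simp [hB, PEquiv.toMatrix_apply, eq_comm]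
  have hBdet : B.det = 1 := by
    rw [hBperm, det_smul, det_permutation, Fintype.card_fin, hc, ← Int.cast_mul, ← Units.val_mul,
      Int.units_mul_self, Units.val_one, Int.cast_one]
  have hAdet : A.det = 1 := by rw [hA, det_diagonal, hx1]
  obtain ⟨b1, b2⟩ := mul_adj_cancel hBdet
  have hBdiag : ∀ f : Fin (n + 1) → ℂ, B * diagonal f * adjugate B = diagonal fun i => f (i + 1) := by
    intro f
    have : B * diagonal f = (diagonal fun i => f (i + 1)) * B := by
      ext i j
      rw [mul_diagonal, diagonal_mul]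
      simp only [hB, of_apply]
      split_ifs with h
      · subst h; rw [mul_comm]; rfl
      · ring
    rw [this, mul_assoc, b1, mul_one]
  have hBpow : ∀ (k : ℕ), B ^ k = Matrix.of fun i j => if j = i + (k : Fin (n + 1)) then c ^ k else 0 := by
    intro k
    induction k with
    | zero => ext i j; simp [Matrix.one_apply, eq_comm]
    | succ k ih =>
      rw [pow_succ, ih]
      ext i j
      rw [Matrix.mul_apply, Finset.sum_eq_single (i + (k : Fin (n + 1))) (fun l _ hl => by simp [hl])
        (fun h' => absurd (Finset.mem_univ _) h')]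
      simp [hB, sh, add_assoc, pow_succ]
  refine ⟨ζ, π, A, B, hζ, hAdet, hBdet, diag_mem_monoSet hζ hxM,
    mem_monoSet hζ sh (fun _ => hcM), fun j => diag_mem_monoSet hζ fun a => hroot _ (hd j _),
    ?_, ?_, ?_, ?_⟩
  · rw [hA, diagonal_pow, ← diagonal_one]
    congr 1
    funext i
    exact hxM i
  · rw [hBpow]
    ext i j
    have : ((MM : ℕ) : Fin (n + 1)) = 0 := by
      rw [Fin.natCast_eq_zero, hMM]; exact ⟨2 * M₀, by ring⟩
    simp [this, hcM, Matrix.one_apply, eq_comm]
  · have hxinv : adjugate A = diagonal fun i => (x i)⁻¹ := by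
      obtain ⟨a1, a2⟩ := mul_adj_cancel hAdet
      have : A * diagonal (fun i => (x i)⁻¹) = 1 := by
        rw [hA, diagonal_mul_diagonal, ← diagonal_one]
        congr 1
        funext i
        exact mul_inv_cancel₀ (hx0 i)
      calc adjugate A = adjugate A * (A * diagonal fun i => (x i)⁻¹) := by rw [this, mul_one]
        _ = _ := by rw [← mul_assoc, a2, one_mul]
    have hcm : cm adjugate A B = diagonal fun i => (e i)⁻¹ := by
      rw [cm, hxinv, mul_assoc A B, mul_assoc A, hBdiag, hA, diagonal_mul_diagonal]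
      congr 1
      funext i
      rw [hxwrap, mul_inv, ← mul_assoc, mul_inv_cancel₀ (hx0 i), one_mul]
    have hlist : ∀ (m : ℕ) (F : Fin m → Fin (n + 1) → ℂ),
        (List.ofFn fun j => diagonal (F j)).prod = diagonal fun i => ∏ j, F j i := by
      intro m
      induction m with
      | zero => intro F; simp
      | succ m ih => intro F; simp [List.ofFn_succ, ih, Fin.prod_univ_succ, diagonal_mul_diagonal]
    rw [hcm, hlist, diagonal_mul_diagonal, ← diagonal_one]
    congr 1
    funext i
    exact inv_mul_cancel₀ (he0 i)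
  -- generation
  have hsep : ∀ i l, i ≠ l → ∃ k : Fin (n + 1), x (i + k) ≠ x (l + k) := by
    intro i l hil
    by_contra hno
    push Not at hno
    set t := l - i with ht
    have ht0 : t ≠ 0 := sub_ne_zero.2 (Ne.symm hil)
    have hper : ∀ a, x (a + t) = x a := fun a => by
      have := hno (a - i)
      rw [add_sub_cancel] at this
      rw [this, ht]
      congr 1
      abel
    have heper : ∀ a, e (a + t) = e a := fun a => by
      have h1 := hxwrap (a + t)
      rw [add_right_comm, hper, hper, hxwrap] at h1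
      exact mul_left_cancel₀ (hx0 a) h1.symm
    have hkp : ∀ a, key (srt (a + t)) = key (srt a) := fun a => by
      have := heper a
      rw [hee, hee] at this
      simp only [key, this]
    have hconst : ∀ a, e a = e 0 := fun a => by
      rw [hee, hee]
      exact hkey _ _ (eq_const_of_periodic (f := key ∘ srt) (Tuple.monotone_sort key) ht0 hkp a)
    rcases hπ₀ with ⟨a, b, hab⟩ | ⟨z, hz, hza⟩
    · apply hab
      show e₀ a = e₀ b
      have e1 := hconst (srt.symm a)
      have e2 := hconst (srt.symm b)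
      rw [hee, Equiv.apply_symm_apply] at e1 e2
      rw [e1, e2]
    · have hez : ∀ a, e a = z := fun a => by rw [hee]; exact hza _
      have hyk : ∀ a : Fin (n + 1), x a = x 0 * z ^ (a : ℕ) := fun a => by
        induction a using Fin.induction with
        | zero => simp
        | succ a ih =>
          rw [← Fin.coeSucc_eq_succ, hxwrap, ih, hez]
          simp only [Fin.coeSucc_eq_succ, Fin.val_succ, Fin.val_castSucc, pow_succ]
          ring
      have h0 := hper 0
      rw [zero_add, hyk] at h0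
      have h1 : z ^ (t : ℕ) = 1 := mul_left_cancel₀ (hx0 0) (by rw [h0, mul_one])
      have := Nat.eq_zero_of_dvd_of_lt (hz.dvd_of_pow_eq_one _ h1) t.isLt
      exact ht0 (Fin.ext this)
  set K := Algebra.adjoin ℂ ({A, B} : Set (Matrix (Fin (n + 1)) (Fin (n + 1)) ℂ))
  have hAK : A ∈ K := Algebra.subset_adjoin (by simp)
  have hBK : B ∈ K := Algebra.subset_adjoin (by simp)
  have hBadj : adjugate B ∈ K := by
    have hpow : B ^ MM = 1 := by
      rw [hBpow]
      ext i j
      have : ((MM : ℕ) : Fin (n + 1)) = 0 := by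
        rw [Fin.natCast_eq_zero, hMM]; exact ⟨2 * M₀, by ring⟩
      simp [this, hcM, Matrix.one_apply, eq_comm]
    have : adjugate B = B ^ (MM - 1) := by
      calc adjugate B = adjugate B * B ^ (MM - 1 + 1) := by
            rw [Nat.sub_add_cancel (Nat.one_le_iff_ne_zero.2 hMM0), hpow, mul_one]
        _ = _ := by rw [pow_succ', ← mul_assoc, b2, one_mul]
    rw [this]; exact pow_mem hBK _
  have hshift : ∀ k : ℕ, (diagonal fun i => x (i + (k : Fin (n + 1)))) ∈ K := by
    intro k
    induction k with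
    | zero => simpa [hA] using hAK
    | succ k ih =>
      have := mul_mem (mul_mem hBK ih) hBadj
      rw [hBdiag] at this
      convert this using 3 with i
      simp [Nat.cast_succ, add_assoc, add_comm (k : Fin (n + 1)) 1]
  have hE : ∀ i, (Matrix.single i i 1 : Matrix (Fin (n + 1)) (Fin (n + 1)) ℂ) ∈ K := by
    intro i
    choose k hk using fun l (hl : i ≠ l) => hsep i l hl
    let F : Fin (n + 1) → (Fin (n + 1) → ℂ) := fun l => if hl : i ≠ l then
      fun a => (x (i + k l hl) - x (l + k l hl))⁻¹ * (x (a + k l hl) - x (l + k l hl)) else 1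
    have hF : ∀ l, diagonal (F l) ∈ K := by
      intro l
      simp only [F]
      split_ifs with hl
      · have h1 := K.smul_mem (K.sub_mem (hshift (k l hl).val)
          (K.algebraMap_mem (x (l + k l hl)))) (x (i + k l hl) - x (l + k l hl))⁻¹
        convert h1 using 1
        ext a b
        by_cases hab : a = b
        · subst hab; simp [Algebra.algebraMap_eq_smul_one, Fin.cast_val_eq_self]
        · simp [Algebra.algebraMap_eq_smul_one, hab]
      · rw [show (diagonal (1 : Fin (n + 1) → ℂ)) = 1 from diagonal_one]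
        exact one_mem K
    have hprod : diagonal (∏ l, F l) ∈ K := by
      refine Finset.prod_induction F (fun v => diagonal v ∈ K) (fun u v hu hv => ?_) ?_
        fun l _ => hF l
      · have := mul_mem hu hv
        rwa [diagonal_mul_diagonal] at this
      · rw [show (diagonal (1 : Fin (n + 1) → ℂ)) = 1 from diagonal_one]
        exact one_mem K
    convert hprod using 1
    rw [← Matrix.diagonal_single]
    congr 1
    funext a
    rw [Finset.prod_apply]
    by_cases ha : a = i
    · subst ha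
      rw [Pi.single_eq_same]
      refine (Finset.prod_eq_one fun l _ => ?_).symm
      simp only [F]
      split_ifs with hl
      · exact inv_mul_cancel₀ (sub_ne_zero.2 (hk l hl))
      · rfl
    · rw [Pi.single_eq_of_ne ha]
      refine (Finset.prod_eq_zero (Finset.mem_univ a) ?_).symm
      simp [F, Ne.symm ha]
  refine eq_top_iff.2 fun Z _ => ?_
  rw [Matrix.matrix_eq_sum_single Z]
  refine Subalgebra.sum_mem _ fun a _ => Subalgebra.sum_mem _ fun b _ => ?_
  have h1 := mul_mem (hE a) (pow_mem hBK (b - a).val)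
  have h2 : Matrix.single a a (1 : ℂ) * B ^ (b - a).val = Matrix.single a b (c ^ (b - a).val) := by
    ext i j
    rw [hBpow]
    by_cases hi : i = a
    · subst hi
      rw [Matrix.single_mul_apply_same, one_mul, of_apply, Fin.cast_val_eq_self, add_sub_cancel]
      simp [Matrix.single_apply, eq_comm]
    · rw [Matrix.single_mul_apply_of_ne _ _ _ _ _ hi]
      simp [Matrix.single_apply, Ne.symm hi]
  rw [h2] at h1
  have hc0 : c ≠ 0 := fun h => by rw [h, zero_pow (by positivity)] at hcM; exact zero_ne_one hcM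
  have h3 := K.smul_mem h1 (Z a b / c ^ (b - a).val)
  rwa [Matrix.smul_single, smul_eq_mul, div_mul_cancel₀ _ (pow_ne_zero _ hc0)] at h3

end Vale.Agent.P002.Sb
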