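import Vale.Agent.P002.Sb.Seed

/-!
# P002: slides of the free handles over the seed handle and the punctures

On the slice where the free handles have `b = 1` and the last handle and the punctures carry the seed,
a slide multiplies `a_i` by a word in the seed and fixes everything else.
-/

namespace Vale.Agent.P002.Sb

open Matrix Filter Topology
open scoped Matrix.Norms.Operator

variable {r g s : ℕ}

/-- The seed: the pair of the last handle and the puncture matrices. -/
structure SeedOK (A B : Matrix (Fin r) (Fin r) ℂ) (D : Fin s → Matrix (Fin r) (Fin r) ℂ) : Prop where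
  detA : A.det = 1
  detB : B.det = 1
  detD : ∀ j, (D j).det = 1
  rel : cm adjugate A B * (List.ofFn D).prod = 1

/-- A point of the slice. -/
def pt (L : Fin g) (A B : Matrix (Fin r) (Fin r) ℂ) (a : Fin g → Matrix (Fin r) (Fin r) ℂ) :
    PT g s r ℂ :=
  Sum.elim (fun k => if k.1 = L then bif k.2 then B else A else bif k.2 then 1 else a k.1) fun _ => 1

/-- The letters. -/
abbrev Ltr (s : ℕ) := Bool ⊕ Fin s

section

variable (L : Fin g) (A B : Matrix (Fin r) (Fin r) ℂ) (D : Fin s → Matrix (Fin r) (Fin r) ℂ)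

/-- The seed segment before puncture `j`. -/
noncomputable def segV (j : Fin s) : Matrix (Fin r) (Fin r) ℂ :=
  cm adjugate A B * ((List.ofFn D).take j.1).prod

/-- The value of a letter. -/
noncomputable def ltrVal : Ltr s → Matrix (Fin r) (Fin r) ℂ
  | Sum.inl false => A
  | Sum.inl true => A * B
  | Sum.inr j => segV A B D j * D j * adjugate (segV A B D j)

/-- The value of a word. -/
noncomputable def wVal : List (Ltr s) → Matrix (Fin r) (Fin r) ℂ
  | [] => 1
  | l :: w => ltrVal A B D l * wVal w

/-- The slide of a letter. -/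
noncomputable def fwdL (i : Fin g) : Ltr s → PT g s r ℂ → PT g s r ℂ
  | Sum.inl false => psiX i L
  | Sum.inl true => twX' L ∘ psiX i L ∘ twX L
  | Sum.inr j => push D i j

/-- The inverse slide of a letter. -/
noncomputable def bwdL (i : Fin g) : Ltr s → PT g s r ℂ → PT g s r ℂ
  | Sum.inl false => phiX i L
  | Sum.inl true => twX' L ∘ phiX i L ∘ twX L
  | Sum.inr j => pushInv D i j

/-- The slide of a word. -/
noncomputable def fwdW (i : Fin g) : List (Ltr s) → PT g s r ℂ → PT g s r ℂ
  | [] => id
  | l :: w => fwdW i w ∘ fwdL L D i l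

/-- The inverse slide of a word. -/
noncomputable def bwdW (i : Fin g) : List (Ltr s) → PT g s r ℂ → PT g s r ℂ
  | [] => id
  | l :: w => bwdL L D i l ∘ bwdW i w

/-- The change of the seed slots caused by a letter. -/
noncomputable def blkL (L : Fin g) (l : Ltr s) (X : Matrix (Fin r) (Fin r) ℂ) :
    PT g s r ℂ :=
  match l with
  | Sum.inl false =>
      Pi.single (Sum.inl (L, false)) (A * X * adjugate A - X) +
        Pi.single (Sum.inl (L, true)) (B * X * adjugate B)
  | Sum.inl true =>
      Pi.single (Sum.inl (L, false)) (-X) + Pi.single (Sum.inl (L, true)) (B * X * adjugate B)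
  | Sum.inr j => Pi.single (Sum.inr j) (-(adjugate (segV A B D j) * X * segV A B D j))

/-- The change of the seed slots caused by a word. -/
noncomputable def blkW (L : Fin g) : List (Ltr s) → Matrix (Fin r) (Fin r) ℂ → PT g s r ℂ
  | [], _ => 0
  | l :: w, X => blkW L w X +
      blkL A B D L l (wVal A B D w * X * adjugate (wVal A B D w))

end

variable {L : Fin g} {A B : Matrix (Fin r) (Fin r) ℂ} {D : Fin s → Matrix (Fin r) (Fin r) ℂ}

theorem det_segV (h : SeedOK A B D) (j : Fin s) : (segV A B D j).det = 1 := by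
  rw [segV, det_mul, det_cm h.detA h.detB, one_mul]
  exact det_list_prod _ fun M hM => by
    obtain ⟨k, rfl⟩ := List.mem_ofFn.1 (List.mem_of_mem_take hM)
    exact h.detD k

theorem det_ltrVal (h : SeedOK A B D) (l : Ltr s) : (ltrVal A B D l).det = 1 := by
  rcases l with (_ | _) | j <;>
    simp [ltrVal, det_adjugate, h.detA, h.detB, h.detD, det_segV h]

theorem det_wVal (h : SeedOK A B D) : ∀ w, (wVal A B D w).det = 1
  | [] => det_one
  | l :: w => by rw [wVal, det_mul, det_ltrVal h, det_wVal h w, one_mul]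

theorem wVal_append : ∀ u v, wVal A B D (u ++ v) = wVal A B D u * wVal A B D v
  | [], v => by simp [wVal]
  | l :: u, v => by simp [wVal, wVal_append u v, mul_assoc]

theorem det_pt (h : SeedOK A B D) {a : Fin g → Matrix (Fin r) (Fin r) ℂ} (ha : ∀ i, (a i).det = 1)
    (k : Slot g s) : (pt L A B a k).det = 1 := by
  rcases k with ⟨i, c⟩ | j
  · simp only [pt, Sum.elim_inl]
    split_ifs <;> cases c <;> simp [h.detA, h.detB, ha]
  · simp [pt]

theorem pun_pt (a : Fin g → Matrix (Fin r) (Fin r) ℂ) (j : Fin s) :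
    pun D (pt L A B a) j = D j := by
  simp [pun, pt]

theorem cm_pt_free {a : Fin g → Matrix (Fin r) (Fin r) ℂ} (ha : ∀ i, (a i).det = 1) {k : Fin g}
    (hk : k ≠ L) :
    cm adjugate (hd (pt (s := s) L A B a) (k, false)) (hd (pt (s := s) L A B a) (k, true)) = 1 := by
  simp [cm, hd, pt, hk, (mul_adj_cancel (ha k)).1]

theorem post_pt {a : Fin g → Matrix (Fin r) (Fin r) ℂ} (ha : ∀ i, (a i).det = 1) {n : ℕ}
    (hn : n ≤ L.1) (hL : L.1 + 1 = g) : post n (hd (pt (s := s) L A B a)) = cm adjugate A B := by
  have hpre : ∀ m, m ≤ L.1 → pre m (hd (pt (s := s) L A B a)) = 1 := by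
    intro m hm
    refine List.prod_eq_one fun x hx => ?_
    obtain ⟨k, hk, rfl⟩ := List.mem_iff_getElem.1 hx
    simp only [List.length_take, cmList, List.length_ofFn] at hk
    simp only [List.getElem_take, cmList, List.getElem_ofFn]
    exact cm_pt_free ha (fun e => by have := congrArg Fin.val e; simp only at this; omega)
  have h1 : pre n (hd (pt (s := s) L A B a)) * post n (hd (pt (s := s) L A B a)) =
      rel adjugate (hd (pt (s := s) L A B a)) := List.prod_take_mul_prod_drop _ _
  rw [hpre n hn, one_mul, rel_split _ L, hpre L le_rfl, one_mul] at h1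
  rw [h1]
  have : post (L.1 + 1) (hd (pt (s := s) L A B a)) = 1 := by
    unfold post
    rw [List.drop_of_length_le (by simp [cmList, hL]), List.prod_nil]
  rw [this, mul_one]
  simp [hd, pt]

theorem segM_pt {a : Fin g → Matrix (Fin r) (Fin r) ℂ} (ha : ∀ i, (a i).det = 1) {i : Fin g}
    (hi : i < L) (hL : L.1 + 1 = g) (j : Fin s) :
    segM D i j (pt L A B a) = segV A B D j := by
  rw [segM, post_pt ha (by have : i.1 < L.1 := hi; omega) hL, segV, cpre, punList]
  simp [funext (pun_pt (L := L) (A := A) (B := B) (D := D) a)]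

theorem mid_pt {a : Fin g → Matrix (Fin r) (Fin r) ℂ} (ha : ∀ i, (a i).det = 1) (i : Fin g) :
    mid adjugate i L (hd (pt (s := s) L A B a)) = 1 := by
  refine List.prod_eq_one fun x hx => ?_
  obtain ⟨k, hk, rfl⟩ := List.mem_iff_getElem.1 hx
  simp only [List.length_drop, List.length_take, cmList, List.length_ofFn] at hk
  simp only [List.getElem_drop, List.getElem_take, cmList, List.getElem_ofFn]
  exact cm_pt_free ha (fun e => by have := congrArg Fin.val e; simp only at this; omega)

theorem isX_pt (h : SeedOK A B D) {a : Fin g → Matrix (Fin r) (Fin r) ℂ} (ha : ∀ i, (a i).det = 1)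
    (hL : L.1 + 1 = g) : IsX D (pt L A B a) := by
  refine ⟨det_pt h ha, ?_⟩
  have h1 := post_pt (s := s) (A := A) (B := B) (n := 0) ha (Nat.zero_le _) hL
  have h2 : rel adjugate (hd (pt (s := s) L A B a)) = cm adjugate A B := by
    rw [← h1]; rfl
  rw [relX, h2, prodC, punList, funext (pun_pt (L := L) (A := A) (B := B) (D := D) a)]
  exact h.rel

theorem fwdL_pt (h : SeedOK A B D) (hL : L.1 + 1 = g) {i : Fin g} (hi : i < L)
    {a : Fin g → Matrix (Fin r) (Fin r) ℂ} (ha : ∀ i, (a i).det = 1) (l : Ltr s) :
    fwdL L D i l (pt L A B a) = pt L A B (Function.update a i (a i * ltrVal A B D l)) := by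
  have hne : i ≠ L := ne_of_lt hi
  obtain ⟨a1, a2⟩ := mul_adj_cancel h.detA
  obtain ⟨b1, b2⟩ := mul_adj_cancel h.detB
  have hpsi : ∀ (A' : Matrix (Fin r) (Fin r) ℂ), A'.det = 1 →
      psiX i L (pt (s := s) L A' B a) = pt L A' B (Function.update a i (a i * A')) := by
    intro A' hA'
    funext k
    rcases k with ⟨k, c⟩ | j
    · show psiM i L (hd (pt (s := s) L A' B a)) (k, c) = _
      simp only [psiM, slide, quadAt, psiQ, mid_pt ha]
      simp only [hd, pt, Sum.elim_inl, if_true, if_neg hne, cond_false, cond_true, one_mul, mul_one,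
        adjugate_one, (mul_adj_cancel hA').2]
      split_ifs with h1 h2 h2
      · exact absurd (h1.symm.trans h2) hne
      · subst h1; cases c <;> simp
      · cases c <;> simp
      · cases c <;> simp [h1]
    · rfl
  rcases l with (_ | _) | j
  · exact hpsi A h.detA
  · have e1 : twX L (pt (s := s) L A B a) = pt L (A * B) B a := by
      funext k
      rcases k with ⟨k, c⟩ | j
      · show twA L (hd (pt (s := s) L A B a)) (k, c) = _
        by_cases hk : k = L
        · subst hk; cases c <;> simp [twA, hd, pt]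
        · simp [twA, hd, pt, hk, Function.update_apply]
      · rfl
    show twX' L (psiX i L (twX L (pt (s := s) L A B a))) = _
    rw [e1, hpsi _ (by rw [det_mul, h.detA, h.detB, one_mul])]
    funext k
    rcases k with ⟨k, c⟩ | j
    · show twA' L (hd (pt (s := s) L (A * B) B (Function.update a i (a i * (A * B))))) (k, c) = _
      by_cases hk : k = L
      · subst hk; cases c <;> simp [twA', hd, pt, mul_assoc, b1]
      · simp [twA', hd, pt, hk, Function.update_apply, ltrVal]
    · rfl
  · have hm := segM_pt (D := D) (A := A) (B := B) ha hi hL j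
    obtain ⟨m1, m2⟩ := mul_adj_cancel (det_segV h j)
    obtain ⟨d1, d2⟩ := mul_adj_cancel (h.detD j)
    have hC : segC D i j (pt L A B a) = ltrVal A B D (Sum.inr j) := by
      rw [segC, hm, pun_pt]; rfl
    obtain ⟨c1, c2⟩ := mul_adj_cancel (det_ltrVal h (Sum.inr j))
    funext k
    show push D i j (pt L A B a) k = _
    simp only [push, hC, hm, Function.update_apply]
    split_ifs with h1 h2 h3
    · subst h1
      simp only [pt, Sum.elim_inl, Sum.elim_inr, if_neg hne, cond_true, mul_one]
      have ea : adjugate (ltrVal A B D (Sum.inr j)) =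
          segV A B D j * adjugate (D j) * adjugate (segV A B D j) := by
        simp only [ltrVal, adjugate_mul_distrib, adjugate_adjugate_of_det (det_segV h j), mul_assoc]
      rw [ea]
      simp only [mul_assoc]
      rw [← mul_assoc (adjugate (segV A B D j)) (segV A B D j), m2, one_mul,
        ← mul_assoc (adjugate (segV A B D j)) (segV A B D j), m2, one_mul, d2]
    · subst h2
      simp [pt, hne, c2]
    · subst h3
      simp [pt, hne]
    · rcases k with ⟨k, c⟩ | j'
      · by_cases hk : k = i
        · subst hk; cases c <;> simp_all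
        · simp [pt, hk]
      · rfl

theorem fwdW_pt (h : SeedOK A B D) (hL : L.1 + 1 = g) {i : Fin g} (hi : i < L) :
    ∀ (w : List (Ltr s)) {a : Fin g → Matrix (Fin r) (Fin r) ℂ}, (∀ i, (a i).det = 1) →
      fwdW L D i w (pt L A B a) = pt L A B (Function.update a i (a i * wVal A B D w))
  | [], a, _ => by simp [fwdW, wVal]
  | l :: w, a, ha => by
    show fwdW L D i w (fwdL L D i l (pt L A B a)) = _
    rw [fwdL_pt h hL hi ha, fwdW_pt h hL hi w]
    · simp [wVal, mul_assoc]
    · intro k
      by_cases hk : k = i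
      · subst hk; simp [ha, det_ltrVal h]
      · simp [hk, ha]

theorem twX_twX' {x : PT g s r ℂ} (hx : ∀ k, (x k).det = 1) (L : Fin g) :
    twX L (twX' L x) = x ∧ twX' L (twX L x) = x := by
  obtain ⟨b1, b2⟩ := mul_adj_cancel (hx (Sum.inl (L, true)))
  constructor
  · funext k
    rcases k with ⟨k, c⟩ | j
    · show twA L (twA' L (hd x)) (k, c) = x (Sum.inl (k, c))
      by_cases hk : (k, c) = (L, false)
      · rw [hk]
        simp only [twA, twA', Function.update_self, Function.update_of_ne
          (show ((L, true) : Fin g × Bool) ≠ (L, false) by simp), hd]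
        rw [mul_assoc, b2, mul_one]
      · simp only [twA, twA', Function.update_of_ne hk, hd]
    · rfl
  · funext k
    rcases k with ⟨k, c⟩ | j
    · show twA' L (twA L (hd x)) (k, c) = x (Sum.inl (k, c))
      by_cases hk : (k, c) = (L, false)
      · rw [hk]
        simp only [twA, twA', Function.update_self, Function.update_of_ne
          (show ((L, true) : Fin g × Bool) ≠ (L, false) by simp), hd]
        rw [mul_assoc, b1, mul_one]
      · simp only [twA, twA', Function.update_of_ne hk, hd]
    · rfl

theorem det_fwdL (hD : ∀ j, (D j).det = 1) {x : PT g s r ℂ} (hx : ∀ k, (x k).det = 1) (i : Fin g)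
    (l : Ltr s) : ∀ k, (fwdL L D i l x k).det = 1 := by
  have h2 : ∀ (y : PT g s r ℂ), (∀ k, (y k).det = 1) →
      (∀ k, (twX L y k).det = 1) ∧ (∀ k, (twX' L y k).det = 1) ∧ ∀ k, (psiX i L y k).det = 1 := by
    intro y hy
    refine ⟨fun k => ?_, fun k => ?_, fun k => ?_⟩ <;> rcases k with k | j <;> try exact hy _
    · simp only [twX, onHd, Sum.elim_inl, twA, Function.update_apply]
      split_ifs <;> simp [hd, hy]
    · simp only [twX', onHd, Sum.elim_inl, twA', Function.update_apply]
      split_ifs <;> simp [hd, hy, det_adjugate]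
    · exact det_psiM (fun k => hy (Sum.inl k)) k
  rcases l with (_ | _) | j
  · exact (h2 x hx).2.2
  · exact (h2 _ ((h2 _ (h2 x hx).1).2.2)).2.1
  · exact (det_push hD hx i j).1

theorem bwdL_fwdL (hD : ∀ j, (D j).det = 1) {i : Fin g} (hi : i < L) {x : PT g s r ℂ}
    (hx : ∀ k, (x k).det = 1) (l : Ltr s) : bwdL L D i l (fwdL L D i l x) = x := by
  rcases l with (_ | _) | j
  · exact phiX_psiX hi hx
  · show twX' L (phiX i L (twX L (twX' L (psiX i L (twX L x))))) = x
    have h1 : ∀ k, (twX L x k).det = 1 := by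
      rintro (k | j)
      · simp only [twX, onHd, Sum.elim_inl, twA, Function.update_apply]
        split_ifs <;> simp [hd, hx]
      · exact hx _
    have h2 : ∀ k, (psiX i L (twX L x) k).det = 1 := by
      rintro (k | j)
      · exact det_psiM (fun k => h1 (Sum.inl k)) k
      · exact hx _
    rw [(twX_twX' h2 L).1, phiX_psiX hi h1, (twX_twX' hx L).2]
  · exact (push_spec hD i j hx).2.2

theorem bwdW_fwdW (hD : ∀ j, (D j).det = 1) {i : Fin g} (hi : i < L) :
    ∀ (w : List (Ltr s)) {x : PT g s r ℂ}, (∀ k, (x k).det = 1) →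
      bwdW L D i w (fwdW L D i w x) = x
  | [], _, _ => rfl
  | l :: w, x, hx => by
    show bwdL L D i l (bwdW L D i w (fwdW L D i w (fwdL L D i l x))) = x
    rw [bwdW_fwdW hD hi w (det_fwdL hD hx i l), bwdL_fwdL hD hi hx l]

theorem pullX_fwdL {O : Subring ℂ} (hD : ∀ j, (D j).det = 1) (hDO : ∀ j, D j ∈ MatR O r)
    {i : Fin g} (hi : i < L) (l : Ltr s) :
    PullX D O (fwdL L D i l) ∧ PullX D O (bwdL L D i l) := by
  rcases l with (_ | _) | j
  · exact ⟨pullX_psiX hi, pullX_phiX hi⟩
  · exact ⟨(pullX_twX' L).comp ((pullX_psiX hi).comp (pullX_twX L)),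
      (pullX_twX' L).comp ((pullX_phiX hi).comp (pullX_twX L))⟩
  · exact pullX_push hD hDO i j

theorem pullX_fwdW {O : Subring ℂ} (hD : ∀ j, (D j).det = 1) (hDO : ∀ j, D j ∈ MatR O r)
    {i : Fin g} (hi : i < L) :
    ∀ w : List (Ltr s), PullX D O (fwdW L D i w) ∧ PullX D O (bwdW L D i w)
  | [] => ⟨pullX_id, pullX_id⟩
  | l :: w => ⟨(pullX_fwdW hD hDO hi w).1.comp (pullX_fwdL hD hDO hi l).1,
      (pullX_fwdL hD hDO hi l).2.comp (pullX_fwdW hD hDO hi w).2⟩

/-- All slots move differentiably inside the determinant one locus. -/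
def DifX (γ : ℂ → PT g s r ℂ) (x Y : PT g s r ℂ) : Prop :=
  ∀ k, Dif (fun t => γ t k) (x k) (Y k)

theorem DifX.at0 {γ : ℂ → PT g s r ℂ} {x Y : PT g s r ℂ} (h : DifX γ x Y) : γ 0 = x :=
  funext fun k => (h k).at0

theorem dif_prod_zero : ∀ (l : List (ℂ → Matrix (Fin r) (Fin r) ℂ)),
    (∀ F ∈ l, Dif F 1 0) → Dif (fun t => (l.map fun F => F t).prod) 1 0
  | [], _ => by simpa using Dif.const (det_one (R := ℂ) (n := Fin r))
  | F :: l, h => by
    simpa using (h F (by simp)).mul (dif_prod_zero l fun G hG => h G (by simp [hG]))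

theorem cancel_left {x : Matrix (Fin r) (Fin r) ℂ} (hx : x.det = 1)
    (Z : Matrix (Fin r) (Fin r) ℂ) :
    adjugate x * (x * Z) = Z ∧ x * (adjugate x * Z) = Z := by
  obtain ⟨x1, x2⟩ := mul_adj_cancel hx
  rw [← mul_assoc, ← mul_assoc, x1, x2, one_mul]
  exact ⟨rfl, rfl⟩

/-- Linearisation of the inverse slide over the last handle, at a slice point with seed `(P, B)`. -/
theorem dif_phiX {i : Fin g} (hi : i < L) {P : Matrix (Fin r) (Fin r) ℂ}
    (hP : P.det = 1) (hB : B.det = 1) {a a' : Fin g → Matrix (Fin r) (Fin r) ℂ}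
    {γ : ℂ → PT g s r ℂ} {Y : PT g s r ℂ} (hγ : DifX γ (pt L P B a') Y)
    (hY : ∀ k, k ≠ i → k ≠ L → Y (Sum.inl (k, true)) = 0)
    (hbase : phiX i L (pt (s := s) L P B a') = pt L P B a) :
    ∃ Y' : PT g s r ℂ, DifX (fun t => phiX i L (γ t)) (pt L P B a) Y' ∧
      (∀ k, k ≠ i → k ≠ L → Y' (Sum.inl (k, true)) = 0) ∧
      Y' (Sum.inl (i, true)) = P * Y (Sum.inl (i, true)) * adjugate P ∧
      Y' (Sum.inl (L, false)) = Y (Sum.inl (L, false)) +
        (P * Y (Sum.inl (i, true)) * adjugate P - Y (Sum.inl (i, true))) ∧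
      Y' (Sum.inl (L, true)) = Y (Sum.inl (L, true)) + B * Y (Sum.inl (i, true)) * adjugate B ∧
      ∀ j, Y' (Sum.inr j) = Y (Sum.inr j) := by
  have hne : i ≠ L := ne_of_lt hi
  set X := Y (Sum.inl (i, true)) with hX
  have hb : Dif (fun t => γ t (Sum.inl (i, true))) 1 X := by
    have := hγ (Sum.inl (i, true))
    simpa [pt, hne] using this
  have ha := hγ (Sum.inl (i, false))
  have hc : Dif (fun t => γ t (Sum.inl (L, false))) P (Y (Sum.inl (L, false))) := by
    simpa [pt] using hγ (Sum.inl (L, false))
  have hd' : Dif (fun t => γ t (Sum.inl (L, true))) B (Y (Sum.inl (L, true))) := by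
    simpa [pt] using hγ (Sum.inl (L, true))
  have hm : Dif (fun t => mid adjugate i L (hd (γ t))) 1 0 := by
    have := dif_prod_zero (((List.ofFn fun k t =>
      cm adjugate (hd (γ t) (k, false)) (hd (γ t) (k, true))).take L).drop (i.1 + 1))
      fun F hF => by
        obtain ⟨k, hk, rfl⟩ := List.mem_iff_getElem.1 hF
        simp only [List.length_drop, List.length_take, List.length_ofFn] at hk
        simp only [List.getElem_drop, List.getElem_take, List.getElem_ofFn]
        set kk : Fin g := ⟨i.1 + 1 + k, by omega⟩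
        have h1 : kk ≠ i := fun e => by have := congrArg Fin.val e; simp [kk] at this; omega
        have h2 : kk ≠ L := fun e => by have := congrArg Fin.val e; simp [kk] at this; omega
        have hb' : Dif (fun t => γ t (Sum.inl (kk, true))) 1 0 := by
          have := hγ (Sum.inl (kk, true))
          rw [hY kk h1 h2] at this
          simpa [pt, h2] using this
        have := (hγ (Sum.inl (kk, false))).cm hb'
        simpa [hd] using this
    simpa only [mid, cmList, List.map_drop, List.map_take, List.map_ofFn, Function.comp_def]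
      using this
  have hq := (hm.mul hc).mul hm.adj
  have hr' := (hm.mul hd').mul hm.adj
  simp only [adjugate_one, mul_one, one_mul, zero_mul, mul_zero, neg_zero, add_zero, zero_add]
    at hq hr'
  have q2 := (((hb.adj.mul hq).mul hb).mul hq.adj).mul hb
  have q3 := (hb.adj.mul hq).mul hb
  have q4 := hr'.mul hb
  have hk3 := (hm.adj.mul q3).mul hm
  have hk4 := (hm.adj.mul q4).mul hm
  have q1 := ha.mul ((hb.adj.mul hq.adj).mul hb)
  simp only [adjugate_one, mul_one, one_mul, zero_mul, mul_zero, neg_zero, add_zero, zero_add,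
    adjugate_adjugate_of_det hP, mul_assoc] at q2 hk3 hk4
  obtain ⟨p1, p2⟩ := mul_adj_cancel hP
  let Z1 := Y (Sum.inl (i, false)) + pt (s := s) L P B a' (Sum.inl (i, false)) *
      (-X + -(adjugate P * Y (Sum.inl (L, false)) * P) + adjugate P * X * P) *
      adjugate (pt (s := s) L P B a' (Sum.inl (i, false)))
  have hval : ∀ {F : ℂ → Matrix (Fin r) (Fin r) ℂ} {x Z Z' : Matrix (Fin r) (Fin r) ℂ}
      {k : Slot g s}, Dif F x Z → (∀ t, phiX i L (γ t) k = F t) → Z = Z' →
      Dif (fun t => phiX i L (γ t) k) (pt L P B a k) Z' := by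
    intro F x Z Z' k hF he hZ
    have e : (fun t => phiX i L (γ t) k) = F := funext he
    have hx : x = pt L P B a k := by
      rw [← hF.at0, ← he 0, hγ.at0, hbase]
    rw [e, ← hx, ← hZ]
    exact hF
  refine ⟨fun k => if k = Sum.inl (i, false) then Z1 else if k = Sum.inl (i, true) then P * X * adjugate P
    else if k = Sum.inl (L, false) then Y (Sum.inl (L, false)) + (P * X * adjugate P - X)
    else if k = Sum.inl (L, true) then Y (Sum.inl (L, true)) + B * X * adjugate B
    else Y k, fun k => ?_, fun k h1 h2 => ?_, ?_, ?_, ?_, fun j => ?_⟩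
  · rcases k with ⟨k, c⟩ | j
    · by_cases h1 : k = i
      · subst h1
        cases c
        · simp only [if_true]
          refine hval q1 (fun t => ?_) ?_
          · simp [phiX, onHd, phiM, slide, quadAt, phiQ, hd]
          · simp only [Z1, adjugate_one, mul_one, one_mul, adjugate_adjugate_of_det hP]
        · simp only [reduceCtorEq, Sum.inl.injEq, Prod.mk.injEq, Bool.true_eq_false, and_false,
            if_false, if_true, and_true]
          refine hval q2 (fun t => ?_) ?_
          · simp [phiX, onHd, phiM, slide, quadAt, phiQ, hd, mul_assoc]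
          · simp only [adjugate_one, mul_assoc, p1, mul_one, one_mul, mul_add, add_mul, mul_neg,
              neg_mul, (cancel_left hP _).2]
            abel
      · by_cases h2 : k = L
        · subst h2
          cases c
          · simp only [Sum.inl.injEq, Prod.mk.injEq, h1, false_and, if_false, if_true]
            refine hval hk3 (fun t => ?_) ?_
            · simp [phiX, onHd, phiM, slide, quadAt, phiQ, hd, h1, mul_assoc]
            · simp only [mul_assoc]
              abel
          · simp only [Sum.inl.injEq, Prod.mk.injEq, h1, false_and, if_false, if_true,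
              Bool.true_eq_false, and_false]
            refine hval hk4 (fun t => ?_) ?_
            · simp [phiX, onHd, phiM, slide, quadAt, phiQ, hd, h1, mul_assoc]
            · simp only [mul_assoc]
        · simp only [Sum.inl.injEq, Prod.mk.injEq, h1, h2, false_and, if_false]
          exact hval (hγ _) (fun t => by simp [phiX, onHd, phiM, slide, hd, h1, h2]) rfl
    · simp only [reduceCtorEq, if_false]
      exact hval (hγ _) (fun t => rfl) rfl
  · simp [h1, h2, hY k h1 h2]
  · simp
  · simp [Ne.symm hne]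
  · simp [Ne.symm hne]
  · simp

/-- Linearisation of the inverse push at a slice point. -/
theorem dif_pushInv (h : SeedOK A B D) (hL : L.1 + 1 = g) {i : Fin g} (hi : i < L) (j : Fin s)
    {a a' : Fin g → Matrix (Fin r) (Fin r) ℂ} (ha' : ∀ k, (a' k).det = 1)
    {γ : ℂ → PT g s r ℂ} {Y : PT g s r ℂ} (hγ : DifX γ (pt L A B a') Y)
    (hbase : pushInv D i j (pt L A B a') = pt L A B a) :
    ∃ Y' : PT g s r ℂ, DifX (fun t => pushInv D i j (γ t)) (pt L A B a) Y' ∧
      Y' (Sum.inl (i, true)) = ltrVal A B D (Sum.inr j) * Y (Sum.inl (i, true)) *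
        adjugate (ltrVal A B D (Sum.inr j)) ∧
      Y' (Sum.inr j) = Y (Sum.inr j) -
        adjugate (segV A B D j) * Y (Sum.inl (i, true)) * segV A B D j ∧
      ∀ k, k ≠ Sum.inl (i, false) → k ≠ Sum.inl (i, true) → k ≠ Sum.inr j → Y' k = Y k := by
  have hne : i ≠ L := ne_of_lt hi
  set X := Y (Sum.inl (i, true)) with hX
  have hb : Dif (fun t => γ t (Sum.inl (i, true))) 1 X := by
    have := hγ (Sum.inl (i, true))
    simpa [pt, hne] using this
  have ha := hγ (Sum.inl (i, false))
  have hh : Dif (fun t => γ t (Sum.inr j)) 1 (Y (Sum.inr j)) := by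
    simpa [pt] using hγ (Sum.inr j)
  obtain ⟨Ym, hm⟩ : ∃ Ym, Dif (fun t => segM D i j (γ t)) (segV A B D j) Ym := by
    obtain ⟨Z1, h1⟩ := Dif.exists_prod_map
      (F := fun t k => cm adjugate (hd (γ t) (k, false)) (hd (γ t) (k, true)))
      (x := fun k => cm adjugate (hd (pt (s := s) L A B a') (k, false))
        (hd (pt (s := s) L A B a') (k, true)))
      ((List.finRange g).drop (i.1 + 1)) fun k _ => ⟨_, (hγ _).cm_gen (hγ _)⟩
    obtain ⟨Z2, h2⟩ := Dif.exists_prod_map (F := fun t k => pun D (γ t) k)
      (x := fun k => pun D (pt L A B a') k) ((List.finRange s).take j.1)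
      fun k _ => ⟨_, ((hγ _).mul (Dif.const (h.detD k))).mul (hγ _).adj⟩
    refine ⟨Z1 + ((((List.finRange g).drop (i.1 + 1)).map fun k => cm adjugate
      (hd (pt (s := s) L A B a') (k, false)) (hd (pt (s := s) L A B a') (k, true))).prod) * Z2 *
      adjugate ((((List.finRange g).drop (i.1 + 1)).map fun k => cm adjugate
      (hd (pt (s := s) L A B a') (k, false)) (hd (pt (s := s) L A B a') (k, true))).prod), ?_⟩
    have h3 := h1.mul h2
    have e : ∀ x : PT g s r ℂ, segM D i j x = (((List.finRange g).drop (i.1 + 1)).map fun k =>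
        cm adjugate (hd x (k, false)) (hd x (k, true))).prod *
        (((List.finRange s).take j.1).map fun k => pun D x k).prod := fun x => by
      simp only [segM, post, cpre, cmList, punList, List.map_drop, List.map_take, ← List.ofFn_eq_map]
    rw [← segM_pt (D := D) (A := A) (B := B) ha' hi hL j, e]
    simp only [e]
    exact h3
  have hc := (hh.mul (Dif.const (h.detD j))).mul hh.adj
  have hC := (hm.mul hc).mul hm.adj
  have k1 := (((hm.adj.mul (hb.adj.mul hC)).mul hm).mul hh).mul
    (Dif.const (show (adjugate (D j)).det = 1 by simp [det_adjugate, h.detD j]))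
  have k2 := (((hb.adj.mul hC).mul hb).mul hC.adj).mul hb
  have k3 := ha.mul ((hb.adj.mul hC.adj).mul hb)
  obtain ⟨d1, d2⟩ := mul_adj_cancel (h.detD j)
  obtain ⟨m1, m2⟩ := mul_adj_cancel (det_segV h j)
  have hsd := det_segV h j
  have hdd := h.detD j
  simp only [adjugate_one, mul_one, one_mul, mul_zero, zero_mul, add_zero, zero_add,
    adjugate_mul_distrib, adjugate_adjugate_of_det hsd, adjugate_adjugate_of_det hdd, mul_add,
    add_mul, mul_neg, neg_mul, mul_assoc, (cancel_left hsd _).1, (cancel_left hsd _).2,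
    (cancel_left hdd _).1, (cancel_left hdd _).2, d1, d2, m1, m2] at k1 k2
  have hval : ∀ {F : ℂ → Matrix (Fin r) (Fin r) ℂ} {x Z Z' : Matrix (Fin r) (Fin r) ℂ}
      {k : Slot g s}, Dif F x Z → (∀ t, pushInv D i j (γ t) k = F t) → Z = Z' →
      Dif (fun t => pushInv D i j (γ t) k) (pt L A B a k) Z' := by
    intro F x Z Z' k hF he hZ
    have e : (fun t => pushInv D i j (γ t) k) = F := funext he
    have hx : x = pt L A B a k := by
      rw [← hF.at0, ← he 0, hγ.at0, hbase]
    rw [e, ← hx, ← hZ]
    exact hF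
  obtain ⟨Z3, hZ3⟩ : ∃ Z, Dif (fun t => pushInv D i j (γ t) (Sum.inl (i, false)))
      (pt L A B a (Sum.inl (i, false))) Z :=
    ⟨_, hval k3 (fun t => by simp [pushInv, segC, pun, mul_assoc]) rfl⟩
  refine ⟨fun k => if k = Sum.inl (i, false) then Z3 else if k = Sum.inl (i, true) then
    ltrVal A B D (Sum.inr j) * X * adjugate (ltrVal A B D (Sum.inr j))
    else if k = Sum.inr j then Y (Sum.inr j) - adjugate (segV A B D j) * X * segV A B D j else Y k,
    fun k => ?_, by simp, by simp, fun k h1 h2 h3 => by simp [h1, h2, h3]⟩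
  by_cases h1 : k = Sum.inl (i, false)
  · subst h1; simp only [if_true]; exact hZ3
  by_cases h2 : k = Sum.inl (i, true)
  · subst h2
    simp only [reduceCtorEq, Sum.inl.injEq, Prod.mk.injEq, Bool.true_eq_false, and_false, if_false,
      if_true]
    refine hval k2 (fun t => ?_) ?_
    · simp [pushInv, segC, pun, mul_assoc, adjugate_mul_distrib]
    · simp only [ltrVal, adjugate_mul_distrib, adjugate_adjugate_of_det hsd, mul_assoc]
      abel
  by_cases h3 : k = Sum.inr j
  · subst h3
    simp only [reduceCtorEq, if_false, if_true]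
    refine hval k1 (fun t => ?_) ?_
    · simp [pushInv, segC, pun, mul_assoc]
    · simp only [mul_assoc]
      abel
  simp only [h1, h2, h3, if_false]
  exact hval (hγ _) (fun t => by simp [pushInv, Function.update_apply, h1, h2, h3]) rfl

end Vale.Agent.P002.Sb
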