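import Vale.Agent.P002.Sb.Deriv
import Vale.Agent.P002.Perturb

/-!
# P002: the free variations and the slides of the twists fill the tangent space at a slice point

A functional killing them gives a cocycle on the finite image of the words in the seed; averaging
shows that it factors through the linearised relation.
-/

namespace Vale.Agent.P002.Sb

open Matrix Filter Topology
open scoped Matrix.Norms.Operator

variable {r g s : ℕ}

/-- A seed with finite image spanning the matrix algebra. -/
structure SeedFull (A B : Matrix (Fin r) (Fin r) ℂ) (D : Fin s → Matrix (Fin r) (Fin r) ℂ) :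
    Prop extends SeedOK A B D where
  fin : (Set.range (wVal A B D)).Finite
  span : Submodule.span ℂ (Set.range (wVal A B D)) = ⊤

theorem exists_pow_one {S : Set (Matrix (Fin r) (Fin r) ℂ)} (hS : S.Finite)
    {x : Matrix (Fin r) (Fin r) ℂ} (hx : x.det = 1) (hpow : ∀ n : ℕ, x ^ n ∈ S) :
    ∃ n, x ^ n = adjugate x := by
  obtain ⟨i, -, j, -, hne, he⟩ := Set.infinite_univ.exists_ne_map_eq_of_mapsTo
    (f := fun n : ℕ => x ^ n) (fun n _ => hpow n) hS
  wlog hij : i < j generalizing i j
  · exact this j i (Ne.symm hne) he.symm (by omega)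
  refine ⟨j - i - 1, ?_⟩
  have hu : IsUnit (x ^ i) := ((Matrix.isUnit_iff_isUnit_det x).2 (by rw [hx]; exact isUnit_one)).pow i
  have h1 : x ^ (j - i - 1) * x = 1 := by
    rw [← pow_succ]
    refine hu.mul_right_cancel ?_
    rw [one_mul, ← pow_add, show j - i - 1 + 1 + i = j by omega]
    exact he.symm
  calc x ^ (j - i - 1) = x ^ (j - i - 1) * (x * adjugate x) := by
        rw [(mul_adj_cancel hx).1, mul_one]
    _ = adjugate x := by rw [← mul_assoc, h1, one_mul]

theorem adjugate_mem_monoSet {ζ : ℂ} {M : ℕ} [NeZero M] (hζ : IsPrimitiveRoot ζ M)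
    {x : Matrix (Fin r) (Fin r) ℂ} (hx : x ∈ monoSet r ζ M) (hd : x.det = 1) :
    adjugate x ∈ monoSet r ζ M := by
  have hp : ∀ n : ℕ, x ^ n ∈ monoSet r ζ M := fun n => by
    induction n with
    | zero => rw [pow_zero]; exact monoSet_one hζ
    | succ n ih => rw [pow_succ]; exact monoSet_mul hζ ih hx
  obtain ⟨n, hn⟩ := exists_pow_one (S := monoSet r ζ M) (Set.finite_range _) hd hp
  rw [← hn]
  exact hp n

theorem seedFull_of {A B : Matrix (Fin r) (Fin r) ℂ} {D : Fin s → Matrix (Fin r) (Fin r) ℂ}
    (h : SeedOK A B D) {ζ : ℂ} {M : ℕ} [NeZero M] (hζ : IsPrimitiveRoot ζ M)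
    (hA : A ∈ monoSet r ζ M) (hB : B ∈ monoSet r ζ M) (hD : ∀ j, D j ∈ monoSet r ζ M)
    (hadj : Algebra.adjoin ℂ ({A, B} : Set (Matrix (Fin r) (Fin r) ℂ)) = ⊤) :
    SeedFull A B D := by
  have hfin : (monoSet r ζ M).Finite := Set.finite_range _
  have hcm : cm adjugate A B ∈ monoSet r ζ M :=
    monoSet_mul hζ (monoSet_mul hζ (monoSet_mul hζ hA hB) (adjugate_mem_monoSet hζ hA h.detA))
      (adjugate_mem_monoSet hζ hB h.detB)
  have hseg : ∀ j, segV A B D j ∈ monoSet r ζ M := by
    intro j
    refine monoSet_mul hζ hcm ?_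
    have : ∀ l : List (Matrix (Fin r) (Fin r) ℂ), (∀ x ∈ l, x ∈ monoSet r ζ M) →
        l.prod ∈ monoSet r ζ M := by
      intro l
      induction l with
      | nil => exact fun _ => by rw [List.prod_nil]; exact monoSet_one hζ
      | cons x l ih =>
        intro hl
        rw [List.prod_cons]
        exact monoSet_mul hζ (hl x (by simp)) (ih fun y hy => hl y (by simp [hy]))
    exact this _ fun x hx => by
      obtain ⟨k, rfl⟩ := List.mem_ofFn.1 (List.mem_of_mem_take hx)
      exact hD k
  have hl : ∀ l, ltrVal A B D l ∈ monoSet r ζ M := by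
    rintro ((_ | _) | j)
    · exact hA
    · exact monoSet_mul hζ hA hB
    · exact monoSet_mul hζ (monoSet_mul hζ (hseg j) (hD j))
        (adjugate_mem_monoSet hζ (hseg j) (det_segV h j))
  have hw : ∀ w, wVal A B D w ∈ monoSet r ζ M := fun w => by
    induction w with
    | nil => exact monoSet_one hζ
    | cons l w ih => exact monoSet_mul hζ (hl l) ih
  have hfin' : (Set.range (wVal A B D)).Finite := hfin.subset (Set.range_subset_iff.2 hw)
  refine { toSeedOK := h, fin := hfin', span := ?_ }
  let N : Submonoid (Matrix (Fin r) (Fin r) ℂ) :=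
    { carrier := Set.range (wVal A B D)
      one_mem' := ⟨[], rfl⟩
      mul_mem' := by
        rintro _ _ ⟨u, rfl⟩ ⟨v, rfl⟩
        exact ⟨u ++ v, wVal_append u v⟩ }
  have hAN : A ∈ N := ⟨[Sum.inl false], by simp [wVal, ltrVal]⟩
  have hA'N : adjugate A ∈ N := by
    obtain ⟨n, hn⟩ := exists_pow_one hfin' h.detA fun n => pow_mem hAN n
    rw [← hn]; exact pow_mem hAN n
  have hBN : B ∈ N := by
    have := mul_mem hA'N (show A * B ∈ N from ⟨[Sum.inl true], by simp [wVal, ltrVal]⟩)
    rwa [(cancel_left h.detA B).1] at this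
  have hle : Submonoid.closure ({A, B} : Set (Matrix (Fin r) (Fin r) ℂ)) ≤ N :=
    Submonoid.closure_le.2 (Set.insert_subset hAN (Set.singleton_subset_iff.2 hBN))
  rw [eq_top_iff]
  calc (⊤ : Submodule ℂ (Matrix (Fin r) (Fin r) ℂ))
      = Subalgebra.toSubmodule (Algebra.adjoin ℂ ({A, B} : Set (Matrix (Fin r) (Fin r) ℂ))) := by
        rw [hadj, Algebra.top_toSubmodule]
    _ ≤ Submodule.span ℂ (Set.range (wVal A B D)) := by
        rw [Algebra.adjoin_eq_span]
        exact Submodule.span_mono hle

theorem trace_tl_mul {X : Matrix (Fin r) (Fin r) ℂ} (hX : trace X = 0)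
    (M : Matrix (Fin r) (Fin r) ℂ) :
    trace (tl M * X) = trace (M * X) ∧ trace (X * tl M) = trace (X * M) := by
  simp [tl, sub_mul, mul_sub, trace_sub, trace_smul, hX]

theorem eq_zero_of_trace_span {S : Set (Matrix (Fin r) (Fin r) ℂ)}
    (hS : Submodule.span ℂ S = ⊤) {M : Matrix (Fin r) (Fin r) ℂ}
    (h : ∀ x ∈ S, trace (M * x) = 0) : M = 0 := by
  have key : ∀ x, trace (M * x) = 0 := fun x => by
    have hx : x ∈ Submodule.span ℂ S := hS ▸ Submodule.mem_top
    induction hx using Submodule.span_induction with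
    | mem x hx => exact h x hx
    | zero => simp
    | add x y _ _ hx hy => rw [mul_add, trace_add, hx, hy, add_zero]
    | smul z x _ hx => rw [Matrix.mul_smul, trace_smul, hx, smul_zero]
  ext a b
  simpa [trace_mul_single] using key (Matrix.single b a 1)

/-- The cocycle attached to values on the letters. -/
noncomputable def coc (A B : Matrix (Fin r) (Fin r) ℂ) (D : Fin s → Matrix (Fin r) (Fin r) ℂ)
    (φ : Ltr s → Matrix (Fin r) (Fin r) ℂ) : List (Ltr s) → Matrix (Fin r) (Fin r) ℂ
  | [] => 0
  | l :: w => coc A B D φ w + adjugate (wVal A B D w) * φ l * wVal A B D w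

section coc

variable {A B : Matrix (Fin r) (Fin r) ℂ} {D : Fin s → Matrix (Fin r) (Fin r) ℂ}
  {φ : Ltr s → Matrix (Fin r) (Fin r) ℂ}

theorem trace_coc (h : SeedOK A B D) (hφ : ∀ l, trace (φ l) = 0) :
    ∀ w, trace (coc A B D φ w) = 0
  | [] => trace_zero _ _
  | l :: w => by
    rw [coc, trace_add, trace_coc h hφ w, (trace_conj (det_wVal h w) _).2, hφ, add_zero]

theorem coc_append (h : SeedOK A B D) : ∀ u v, coc A B D φ (u ++ v) =
    coc A B D φ v + adjugate (wVal A B D v) * coc A B D φ u * wVal A B D v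
  | [], v => by simp [coc]
  | l :: u, v => by
    simp [coc, coc_append h u v, wVal_append, adjugate_mul_distrib, mul_add, add_mul, mul_assoc,
      add_assoc]

/-- The averaging argument. -/
theorem coc_eq_coboundary (h : SeedFull A B D)
    (hφ : ∀ u, wVal A B D u = 1 → coc A B D φ u = 0) :
    ∃ v, ∀ w, coc A B D φ w = v - adjugate (wVal A B D w) * v * wVal A B D w := by
  classical
  set G := h.fin.toFinset
  have hG : ∀ x, x ∈ G ↔ ∃ w, wVal A B D w = x := fun x => by simp [G]
  have hinv : ∀ w, ∃ u, wVal A B D u = adjugate (wVal A B D w) := by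
    intro w
    obtain ⟨n, hn⟩ := exists_pow_one h.fin (det_wVal h.toSeedOK w) (x := wVal A B D w) fun n => by
      induction n with
      | zero => exact ⟨[], by simp [wVal]⟩
      | succ n ih =>
        obtain ⟨u, hu⟩ := ih
        exact ⟨u ++ w, by rw [wVal_append, hu, pow_succ]⟩
    have hN : ∀ k : ℕ, ∃ u, wVal A B D u = wVal A B D w ^ k := fun k => by
      induction k with
      | zero => exact ⟨[], by simp [wVal]⟩
      | succ k ih =>
        obtain ⟨u, hu⟩ := ih
        exact ⟨u ++ w, by rw [wVal_append, hu, pow_succ]⟩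
    rw [← hn]; exact hN n
  have hwd : ∀ w1 w2, wVal A B D w1 = wVal A B D w2 → coc A B D φ w1 = coc A B D φ w2 := by
    intro w1 w2 he
    obtain ⟨u, hu⟩ := hinv w1
    have h1 := hφ (u ++ w1) (by
      rw [wVal_append, hu, (mul_adj_cancel (det_wVal h.toSeedOK w1)).2])
    have h2 := hφ (u ++ w2) (by
      rw [wVal_append, hu, he, (mul_adj_cancel (det_wVal h.toSeedOK w2)).2])
    rw [coc_append h.toSeedOK] at h1 h2
    rw [he] at h1
    exact add_right_cancel (h1.trans h2.symm)
  let rep : Matrix (Fin r) (Fin r) ℂ → List (Ltr s) := fun x =>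
    if hx : x ∈ G then ((hG x).1 hx).choose else []
  have hrep : ∀ x ∈ G, wVal A B D (rep x) = x := fun x hx => by
    simp only [rep, dif_pos hx]
    exact ((hG x).1 hx).choose_spec
  set T := ∑ x ∈ G, coc A B D φ (rep x)
  have hcard : (G.card : ℂ) ≠ 0 :=
    Nat.cast_ne_zero.2 (Finset.card_ne_zero.2 ⟨1, (hG 1).2 ⟨[], rfl⟩⟩)
  refine ⟨(G.card : ℂ)⁻¹ • T, fun w => ?_⟩
  set W := wVal A B D w with hW
  obtain ⟨w1, w2⟩ := mul_adj_cancel (det_wVal h.toSeedOK w)
  rw [← hW] at w1 w2
  obtain ⟨u, hu⟩ := hinv w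
  rw [← hW] at hu
  have hmap : ∀ x ∈ G, x * W ∈ G := fun x hx => (hG _).2
    ⟨rep x ++ w, by rw [wVal_append, hrep x hx]⟩
  have key : T = (G.card : ℂ) • coc A B D φ w + adjugate W * T * W := by
    calc T = ∑ x ∈ G, coc A B D φ (rep (x * W)) := by
          refine (Finset.sum_nbij' (fun x => x * W) (fun y => y * adjugate W) hmap ?_ ?_ ?_ ?_).symm
          · intro y hy
            exact (hG _).2 ⟨rep y ++ u, by rw [wVal_append, hrep y hy, hu]⟩
          · intro x _; simp [mul_assoc, w1]
          · intro y _; simp [mul_assoc, w2]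
          · intro x _; rfl
      _ = ∑ x ∈ G, (coc A B D φ w + adjugate W * coc A B D φ (rep x) * W) :=
          Finset.sum_congr rfl fun x hx => by
            rw [hwd (rep (x * W)) (rep x ++ w) (by
              rw [hrep _ (hmap x hx), wVal_append, hrep x hx]), coc_append h.toSeedOK]
      _ = _ := by
          rw [Finset.sum_add_distrib, Finset.sum_const, Nat.cast_smul_eq_nsmul]
          simp only [T, Finset.mul_sum, Finset.sum_mul]
  rw [Matrix.mul_smul, Matrix.smul_mul, ← smul_sub, eq_inv_smul_iff₀ hcard, eq_sub_iff_add_eq]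
  exact key.symm

end coc

theorem trace_sum_conj {ι : Type*} (S : Finset ι) (v : Matrix (Fin r) (Fin r) ℂ)
    (F : ι → Matrix (Fin r) (Fin r) ℂ) :
    trace (v * ∑ i ∈ S, F i) = ∑ i ∈ S, trace (v * F i) := by
  rw [Finset.mul_sum, trace_sum]

variable {L : Fin g} {A B : Matrix (Fin r) (Fin r) ℂ} {D : Fin s → Matrix (Fin r) (Fin r) ℂ}

/-- The part of the relation carried by a letter. -/
theorem letter_identities (h : SeedOK A B D) (X1 X2 : Matrix (Fin r) (Fin r) ℂ) :
    cmVar A B (A * X1 * adjugate A - X1 - X2) (B * (X1 + X2) * adjugate B) =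
      (A * X1 * adjugate A - X1) + ((A * B) * X2 * adjugate (A * B) - X2) := by
  obtain ⟨a1, a2⟩ := mul_adj_cancel h.detA
  simp only [cmVar, cm, adjugate_mul_distrib, adjugate_adjugate_of_det h.detA,
    adjugate_adjugate_of_det h.detB, mul_add, add_mul, mul_sub, sub_mul, mul_assoc,
    (cancel_left h.detA _).1, (cancel_left h.detA _).2, (cancel_left h.detB _).1,
    (cancel_left h.detB _).2, a1, a2]
  abel

/-- A functional killing the free variations and the slid twists kills the kernel of the relation. -/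
theorem functional_zero (hr : r ≠ 0) (hg : 2 ≤ g) (h : SeedFull A B D)
    {a : Fin g → Matrix (Fin r) (Fin r) ℂ} (ha : ∀ k, (a k).det = 1)
    (f : PT g s r ℂ →ₗ[ℂ] ℂ)
    (hfa : ∀ k, k ≠ L → ∀ Z, trace Z = 0 → f (Pi.single (Sum.inl (k, false)) Z) = 0)
    (hfs : ∀ i, i ≠ L → ∀ w : List (Ltr s),
      f (Pi.single (Sum.inl (i, true))
          (wVal A B D w * tl (a i * wVal A B D w) * adjugate (wVal A B D w)) +
        blkW A B D L w (tl (a i * wVal A B D w))) = 0)
    {Y : PT g s r ℂ} (hY : ∀ k, trace (Y k) = 0) (hR : relV L A B D a Y = 0) : f Y = 0 := by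
  classical
  have hs := h.toSeedOK
  -- representing matrices
  have hrepr : ∀ T : Matrix (Fin r) (Fin r) ℂ →ₗ[ℂ] PT g s r ℂ,
      ∃ u : Matrix (Fin r) (Fin r) ℂ, trace u = 0 ∧ ∀ X, trace X = 0 → f (T X) = trace (u * X) := by
    intro T
    obtain ⟨u, hu⟩ := exists_trace_repr (f.comp T)
    exact ⟨tl u, trace_tl hr u, fun X hX => by rw [(trace_tl_mul hX u).1]; exact hu X⟩
  have hlin : ∀ l : Ltr s, ∃ T : Matrix (Fin r) (Fin r) ℂ →ₗ[ℂ] PT g s r ℂ,
      ∀ X, T X = blkL A B D L l X := by
    intro l
    refine ⟨{ toFun := fun X => blkL A B D L l X, map_add' := ?_, map_smul' := ?_ }, fun X => rfl⟩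
    · intro X X'
      rcases l with (_ | _) | j <;> funext k <;>
        simp [blkL, Pi.single_apply, mul_add, add_mul] <;> split_ifs <;> abel
    · intro z X
      rcases l with (_ | _) | j <;> funext k <;>
        simp [blkL, Pi.single_apply, Matrix.mul_smul, Matrix.smul_mul] <;> split_ifs <;>
        simp [smul_sub, smul_add]
  choose T hT using hlin
  choose φ hφ0 hφ using fun l => hrepr (T l)
  choose μ hμ0 hμ using fun i : Fin g =>
    hrepr (LinearMap.single ℂ (fun _ : Slot g s => Matrix (Fin r) (Fin r) ℂ) (Sum.inl (i, true)))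
  have hφ' : ∀ l X, trace X = 0 → f (blkL A B D L l X) = trace (φ l * X) := fun l X hX => by
    rw [← hT]; exact hφ l X hX
  have hμ' : ∀ i X, trace X = 0 → f (Pi.single (Sum.inl (i, true)) X) = trace (μ i * X) :=
    fun i X hX => hμ i X hX
  have hblk : ∀ (w : List (Ltr s)) X, trace X = 0 →
      f (blkW A B D L w X) = trace (coc A B D φ w * X) := by
    intro w
    induction w with
    | nil => intro X _; simp [blkW, coc]
    | cons l w ih =>
      intro X hX
      rw [blkW, map_add, ih X hX, hφ' l _ (by rw [(trace_conj (det_wVal hs w) X).1, hX]), coc,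
        add_mul, trace_add]
      congr 1
      simp only [mul_assoc]
      rw [trace_mul_comm (adjugate (wVal A B D w))]
      simp only [mul_assoc]
  -- the equation of a slid twist
  have heq : ∀ i, i ≠ L → ∀ w, trace (a i * (μ i * wVal A B D w +
      wVal A B D w * coc A B D φ w)) = 0 := by
    intro i hi w
    set W := wVal A B D w with hW
    have hX : trace (tl (a i * W)) = 0 := trace_tl hr _
    obtain ⟨w1, w2⟩ := mul_adj_cancel (det_wVal hs w)
    rw [← hW] at w1 w2
    have h0 := hfs i hi w
    rw [← hW, map_add, hμ' i _ (by rw [(trace_conj (det_wVal hs w) _).1]; exact hX),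
      hblk w _ hX] at h0
    have e1 : trace (μ i * (W * tl (a i * W) * adjugate W)) =
        trace (a i * (μ i * W)) := by
      have hz : trace (adjugate W * μ i * W) = 0 := by
        rw [hW, (trace_conj (det_wVal hs w) _).2]; exact hμ0 i
      calc trace (μ i * (W * tl (a i * W) * adjugate W))
          = trace (adjugate W * μ i * W * tl (a i * W)) := by
            rw [← mul_assoc, trace_mul_comm]; simp only [mul_assoc]
        _ = trace (adjugate W * μ i * W * (a i * W)) := (trace_tl_mul hz _).2
        _ = trace (a i * (μ i * W)) := by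
            rw [trace_mul_comm]
            simp only [mul_assoc]
            rw [← mul_assoc W (adjugate W), w1, one_mul]
    have e2 : trace (coc A B D φ w * tl (a i * W)) = trace (a i * (W * coc A B D φ w)) := by
      rw [(trace_tl_mul (trace_coc hs hφ0 w) _).2, trace_mul_comm, mul_assoc]
    rw [e1, e2] at h0
    rw [mul_add, trace_add]
    exact h0
  obtain ⟨i₀, hi₀⟩ : ∃ i : Fin g, i ≠ L := by
    have : Nontrivial (Fin g) := Fin.nontrivial_iff_two_le.2 hg
    exact exists_ne L
  have hker : ∀ u, wVal A B D u = 1 → coc A B D φ u = 0 := by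
    intro u hu
    obtain ⟨a1, a2⟩ := mul_adj_cancel (ha i₀)
    have h1 : a i₀ * coc A B D φ u = 0 := by
      refine eq_zero_of_trace_span h.span ?_
      rintro _ ⟨w, rfl⟩
      have e := heq i₀ hi₀ (u ++ w)
      rw [wVal_append, hu, one_mul, coc_append hs, mul_add (wVal A B D w), ← add_assoc, mul_add,
        trace_add, heq i₀ hi₀ w, zero_add] at e
      rw [← e]
      simp only [← mul_assoc]
      rw [mul_assoc (a i₀) (wVal A B D w) (adjugate _), (mul_adj_cancel (det_wVal hs w)).1, mul_one]
    calc coc A B D φ u = adjugate (a i₀) * (a i₀ * coc A B D φ u) := by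
          rw [← mul_assoc, a2, one_mul]
      _ = 0 := by rw [h1, mul_zero]
  obtain ⟨v, hv⟩ := coc_eq_coboundary h hker
  have hmu : ∀ i, i ≠ L → μ i = v - adjugate (a i) * v * a i := by
    intro i hi
    obtain ⟨a1, a2⟩ := mul_adj_cancel (ha i)
    have h2 : a i * μ i + (v * a i - a i * v) = 0 := by
      refine eq_zero_of_trace_span h.span ?_
      rintro _ ⟨w, rfl⟩
      have e := heq i hi w
      rw [hv w, mul_sub, ← mul_assoc (wVal A B D w), ← mul_assoc (wVal A B D w),
        (mul_adj_cancel (det_wVal hs w)).1, one_mul, mul_add, mul_sub, trace_add, trace_sub] at e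
      rw [add_mul, sub_mul, trace_add, trace_sub, mul_assoc, mul_assoc (a i) v,
        mul_assoc v (a i), trace_mul_comm v, mul_assoc (a i)]
      exact e
    calc μ i = adjugate (a i) * (a i * μ i) := by rw [← mul_assoc, a2, one_mul]
      _ = adjugate (a i) * (a i * v - v * a i) := by
          rw [eq_neg_of_add_eq_zero_left h2, neg_sub]
      _ = _ := by rw [mul_sub, ← mul_assoc, ← mul_assoc, a2, one_mul]
  -- the values on the letters
  have hletter : ∀ l, φ l = v - adjugate (ltrVal A B D l) * v * ltrVal A B D l := by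
    intro l
    have e := hv [l]
    simpa [coc, wVal] using e
  have hcy : ∀ (x : Matrix (Fin r) (Fin r) ℂ) (Z : Matrix (Fin r) (Fin r) ℂ),
      trace ((v - adjugate x * v * x) * Z) = -trace (v * (x * Z * adjugate x - Z)) := by
    intro x Z
    rw [sub_mul, trace_sub, mul_sub, trace_sub, neg_sub]
    congr 1
    rw [mul_assoc (adjugate x * v), mul_assoc (adjugate x), trace_mul_comm (adjugate x)]
    simp only [mul_assoc]
  have hletter' : ∀ l Z, trace Z = 0 → f (blkL A B D L l Z) =
      -trace (v * (ltrVal A B D l * Z * adjugate (ltrVal A B D l) - Z)) := fun l Z hZ => by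
    rw [hφ' l Z hZ, hletter l, hcy]
  -- decomposition of the seed part
  set U := Y (Sum.inl (L, false))
  set V := Y (Sum.inl (L, true))
  obtain ⟨a1, a2⟩ := mul_adj_cancel hs.detA
  obtain ⟨b1, b2⟩ := mul_adj_cancel hs.detB
  set X1 := adjugate A * (U + adjugate B * V * B) * A with hX1
  set X2 := adjugate B * V * B - X1 with hX2
  have hVB : trace (adjugate B * V * B) = 0 := by rw [(trace_conj hs.detB V).2]; exact hY _
  have t1 : trace X1 = 0 := by
    rw [hX1, (trace_conj hs.detA _).2, trace_add, hVB, add_zero]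
    exact hY _
  have t2 : trace X2 = 0 := by rw [hX2, trace_sub, hVB, t1, sub_zero]
  have eU : U = A * X1 * adjugate A - X1 - X2 := by
    simp only [hX2, hX1, mul_assoc, a1, mul_one, (cancel_left hs.detA _).2]
    abel
  have eV : V = B * (X1 + X2) * adjugate B := by
    simp only [hX2, add_sub_cancel, mul_assoc, b1, mul_one, (cancel_left hs.detB _).2]
  let Xj : Fin s → Matrix (Fin r) (Fin r) ℂ := fun j =>
    -(segV A B D j * Y (Sum.inr j) * adjugate (segV A B D j))
  have tj : ∀ j, trace (Xj j) = 0 := fun j => by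
    simp only [Xj, trace_neg, (trace_conj (det_segV hs j) _).1, hY, neg_zero]
  have edec : Y = (∑ k ∈ Finset.univ.erase L, Pi.single (Sum.inl (k, false)) (Y (Sum.inl (k, false)))) +
      (∑ k ∈ Finset.univ.erase L, Pi.single (Sum.inl (k, true)) (Y (Sum.inl (k, true)))) +
      blkL A B D L (Sum.inl false) X1 + blkL A B D L (Sum.inl true) X2 +
      ∑ j, blkL A B D L (Sum.inr j) (Xj j) := by
    funext k
    rcases k with ⟨k, c⟩ | j
    · by_cases hk : k = L
      · subst hk
        cases c
        · simp [blkL, Finset.sum_apply, Pi.single_apply]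
          exact eU.trans (by abel)
        · simp [blkL, Finset.sum_apply, Pi.single_apply]
          exact eV.trans (by simp [mul_add, add_mul])
      · cases c <;> simp [blkL, Finset.sum_apply, Pi.single_apply, hk, Ne.symm hk]
    · obtain ⟨m1, m2⟩ := mul_adj_cancel (det_segV hs j)
      simp [blkL, Finset.sum_apply, Pi.single_apply, Xj, mul_assoc, m2,
        (cancel_left (det_segV hs j) _).1]
  have efree : ∀ k ∈ Finset.univ.erase L,
      f (Pi.single (Sum.inl (k, true)) (Y (Sum.inl (k, true)))) =
        -trace (v * (a k * Y (Sum.inl (k, true)) * adjugate (a k) - Y (Sum.inl (k, true)))) := by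
    intro k hk
    rw [hμ' k _ (hY _), hmu k (Finset.ne_of_mem_erase hk), hcy]
  have ej : ∀ j, ltrVal A B D (Sum.inr j) * Xj j * adjugate (ltrVal A B D (Sum.inr j)) - Xj j =
      segV A B D j * (Y (Sum.inr j) - D j * Y (Sum.inr j) * adjugate (D j)) *
        adjugate (segV A B D j) := by
    intro j
    simp only [Xj, ltrVal, adjugate_mul_distrib, adjugate_adjugate_of_det (det_segV hs j), mul_neg,
      neg_mul, mul_sub, sub_mul, mul_assoc, (cancel_left (det_segV hs j) _).1]
    abel
  have hRl : cmVar A B (Y (Sum.inl (L, false))) (Y (Sum.inl (L, true))) = (A * X1 * adjugate A - X1) +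
      ((A * B) * X2 * adjugate (A * B) - X2) := by
    show cmVar A B U V = _
    rw [eU, eV]; exact letter_identities hs X1 X2
  have hfin : f Y = -trace (v * relV L A B D a Y) := by
    conv_lhs => rw [edec]
    simp only [map_add, map_sum]
    rw [Finset.sum_congr rfl efree,
      Finset.sum_eq_zero fun k hk => hfa k (Finset.ne_of_mem_erase hk) _ (hY _),
      hletter' _ _ t1, hletter' _ _ t2,
      Finset.sum_congr rfl fun j _ => (hletter' _ _ (tj j)).trans (by rw [ej j])]
    simp only [relV, hRl, ltrVal, mul_add, trace_add, trace_sum_conj, Finset.sum_neg_distrib]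
    ring
  rw [hfin, hR, mul_zero, trace_zero, neg_zero]

/-- The spanning statement. -/
theorem span_tangent (hr : r ≠ 0) (hg : 2 ≤ g) (h : SeedFull A B D)
    {a : Fin g → Matrix (Fin r) (Fin r) ℂ} (ha : ∀ k, (a k).det = 1)
    {Y : PT g s r ℂ} (hY : ∀ k, trace (Y k) = 0) (hR : relV L A B D a Y = 0) :
    Y ∈ Submodule.span ℂ
      ({V : PT g s r ℂ | ∃ k, k ≠ L ∧ ∃ Z, trace Z = 0 ∧ V = Pi.single (Sum.inl (k, false)) Z} ∪
       {V : PT g s r ℂ | ∃ i, i ≠ L ∧ ∃ w : List (Ltr s), V = Pi.single (Sum.inl (i, true))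
          (wVal A B D w * tl (a i * wVal A B D w) * adjugate (wVal A B D w)) +
        blkW A B D L w (tl (a i * wVal A B D w))}) := by
  by_contra hno
  obtain ⟨f, hf0, hfV⟩ := Submodule.exists_dual_map_eq_bot_of_notMem hno inferInstance
  have hz : ∀ V, V ∈ Submodule.span ℂ _ → f V = 0 := fun V hV => by
    have := Submodule.mem_map_of_mem (f := f) hV
    rwa [hfV, Submodule.mem_bot] at this
  exact hf0 (functional_zero hr hg h ha f
    (fun k hk Z hZ => hz _ (Submodule.subset_span (Or.inl ⟨k, hk, Z, hZ, rfl⟩)))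
    (fun i hi w => hz _ (Submodule.subset_span (Or.inr ⟨i, hi, w, rfl⟩))) hY hR)

end Vale.Agent.P002.Sb
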