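import Vale.Agent.P002.Sb.BricksX

/-!
# P002: prescribed semisimple quasi-unipotent boundary classes
-/

namespace Vale.Agent.P002.Sb

open Matrix

set_option backward.isDefEq.respectTransparency false

variable {r g s : ℕ}

theorem exists_conj_one (hr : r ≠ 0) {K K' : Matrix (Fin r) (Fin r) ℂ} (hK : K * K' = 1)
    (X : Matrix (Fin r) (Fin r) ℂ) :
    ∃ h : Matrix (Fin r) (Fin r) ℂ, h.det = 1 ∧ h * X * adjugate h = K * X * K' := by
  have hd : K.det ≠ 0 := fun h0 => one_ne_zero (α := ℂ) (by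
    have := congrArg Matrix.det hK
    rwa [det_mul, h0, zero_mul, det_one, eq_comm] at this)
  obtain ⟨z, hz⟩ := IsAlgClosed.exists_pow_nat_eq (K.det)⁻¹ (Nat.pos_of_ne_zero hr)
  have hz0 : z ≠ 0 := fun h0 => inv_ne_zero hd (by rw [← hz, h0, zero_pow hr])
  have hdet : (z • K).det = 1 := by
    rw [det_smul, Fintype.card_fin, hz, inv_mul_cancel₀ hd]
  have hinv : (z • K) * (z⁻¹ • K') = 1 := by
    rw [Matrix.smul_mul, Matrix.mul_smul, smul_smul, mul_inv_cancel₀ hz0, one_smul, hK]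
  have hadj : adjugate (z • K) = z⁻¹ • K' :=
    calc adjugate (z • K) = adjugate (z • K) * ((z • K) * (z⁻¹ • K')) := by rw [hinv, mul_one]
      _ = z⁻¹ • K' := by rw [← mul_assoc, (mul_adj_cancel hdet).2, one_mul]
  refine ⟨z • K, hdet, ?_⟩
  rw [hadj]
  simp only [Matrix.smul_mul, Matrix.mul_smul, smul_smul, inv_mul_cancel₀ hz0, one_smul]

theorem diag_perm (π : Equiv.Perm (Fin r)) (d : Fin r → ℂ) :
    (1 : Matrix (Fin r) (Fin r) ℂ).submatrix id π * (1 : Matrix (Fin r) (Fin r) ℂ).submatrix π id = 1 ∧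
    (1 : Matrix (Fin r) (Fin r) ℂ).submatrix id π * diagonal (fun a => d (π a)) *
      (1 : Matrix (Fin r) (Fin r) ℂ).submatrix π id = diagonal d := by
  refine ⟨?_, ?_⟩
  · rw [Matrix.submatrix_mul_equiv, one_mul, Matrix.submatrix_id_id]
  · rw [show diagonal (fun a => d (π a)) = (diagonal d).submatrix π π from
      (submatrix_diagonal_equiv d π).symm, Matrix.submatrix_mul_equiv, one_mul,
      Matrix.submatrix_mul_equiv, mul_one, Matrix.submatrix_id_id]

/-- A polynomial vanishing at all tuples with entries in `ℤ[ζ]` in the prescribed classes vanishes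
at all semisimple or scalar commutant complex ones. -/
theorem vanish_boundary (hg : 2 ≤ g) (hr : 2 ≤ r) {M₀ : ℕ} (hM : M₀ ≠ 0)
    {d : Fin s → Fin r → ℂ} (hd : ∀ j a, d j a ^ M₀ = 1) (hprod : ∀ j, ∏ a, d j a = 1)
    (hnd : (∃ j a b, d j a ≠ d j b) ∨ ∃ ζ : ℂ, IsPrimitiveRoot ζ r ∧ ∀ a, ∏ j, d j a = ζ)
    {σ : (Fin g × Bool) ⊕ Fin s → Matrix (Fin r) (Fin r) ℂ} (hdet : ∀ k, (σ k).det = 1)
    (hcl : ∀ j, ∃ P P' : Matrix (Fin r) (Fin r) ℂ,
      P * P' = 1 ∧ σ (Sum.inr j) = P * diagonal (d j) * P')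
    (hrel : rel (fun M => M⁻¹) (fun k => σ (Sum.inl k)) *
      (List.ofFn fun j => σ (Sum.inr j)).prod = 1)
    (hσ : (∀ U : Submodule ℂ (Fin r → ℂ), (∀ k, ∀ x ∈ U, σ k *ᵥ x ∈ U) →
        ∃ V : Submodule ℂ (Fin r → ℂ), (∀ k, ∀ x ∈ V, σ k *ᵥ x ∈ V) ∧ IsCompl U V) ∨
      (∀ c : Matrix (Fin r) (Fin r) ℂ, (∀ k, c * σ k = σ k * c) →
        ∃ z : ℂ, c = z • (1 : Matrix (Fin r) (Fin r) ℂ)))
    (f : MvPolynomial (((Fin g × Bool) ⊕ Fin s) × Fin r × Fin r) ℂ)
    (hf : ∀ τ : (Fin g × Bool) ⊕ Fin s → Matrix (Fin r) (Fin r) ℂ,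
      (∀ k a b, τ k a b ∈ Subring.closure
        ({Complex.exp (2 * Real.pi * Complex.I / (2 * r * M₀ : ℕ))} : Set ℂ)) →
      (∀ k, (τ k).det = 1) →
      (∀ j, ∃ P P' : Matrix (Fin r) (Fin r) ℂ,
        P * P' = 1 ∧ τ (Sum.inr j) = P * diagonal (d j) * P') →
      rel (fun M => M⁻¹) (fun k => τ (Sum.inl k)) * (List.ofFn fun j => τ (Sum.inr j)).prod = 1 →
      MvPolynomial.eval (fun v => τ v.1 v.2.1 v.2.2) f = 0) :
    MvPolynomial.eval (fun v => σ v.1 v.2.1 v.2.2) f = 0 := by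
  classical
  obtain ⟨ζ, π, A, B, hζ, hAd, hBd, hAm, hBm, hDm, -, -, hrel0, hadj⟩ :=
    exists_seed hr d hM hd hprod (nonDeg_of hr d hprod hnd)
  have hM' : 2 * r * M₀ ≠ 0 := mul_ne_zero (mul_ne_zero two_ne_zero (by omega)) hM
  have : NeZero (2 * r * M₀) := ⟨hM'⟩
  set O := Subring.closure
    ({Complex.exp (2 * Real.pi * Complex.I / (2 * r * M₀ : ℕ))} : Set ℂ) with hO
  have hζO : ζ ∈ O := by
    obtain ⟨i, -, hi⟩ := (Complex.isPrimitiveRoot_exp _ hM').eq_pow_of_pow_eq_one hζ.pow_eq_one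
    rw [← hi]
    exact pow_mem (Subring.subset_closure (Set.mem_singleton _)) _
  have hle : Subring.closure ({ζ} : Set ℂ) ≤ O :=
    Subring.closure_le.2 (Set.singleton_subset_iff.2 hζO)
  let D : Fin s → Matrix (Fin r) (Fin r) ℂ := fun j => diagonal fun a => d j (π j a)
  have hDd : ∀ j, (D j).det = 1 := fun j => by
    rw [det_diagonal, Equiv.prod_comp (π j) (d j), hprod j]
  have hseed : SeedFull A B D := seedFull_of ⟨hAd, hBd, hDd, hrel0⟩ hζ hAm hBm hDm hadj
  let L : Fin g := ⟨g - 1, by omega⟩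
  have hset : Setup L A B D O := ⟨hseed, by show g - 1 + 1 = g; omega, hg, hr,
    mem_MatR.2 fun a b => hle (monoSet_entries hAm a b),
    mem_MatR.2 fun a b => hle (monoSet_entries hBm a b),
    fun j => mem_MatR.2 fun a b => hle (monoSet_entries (hDm j) a b)⟩
  have hcls : ∀ j h, h * adjugate h = (1 : Matrix (Fin r) (Fin r) ℂ) →
      ∃ P P' : Matrix (Fin r) (Fin r) ℂ, P * P' = 1 ∧ h * D j * adjugate h = P * diagonal (d j) * P' := by
    intro j h hh
    obtain ⟨q1, q2⟩ := diag_perm (π j) (d j)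
    set Q := (1 : Matrix (Fin r) (Fin r) ℂ).submatrix id (π j)
    set Q' := (1 : Matrix (Fin r) (Fin r) ℂ).submatrix (π j) id
    have q3 : Q' * Q = 1 := mul_eq_one_comm.1 q1
    refine ⟨h * Q', Q * adjugate h, by rw [mul_assoc h, ← mul_assoc Q', q3, one_mul, hh], ?_⟩
    rw [← q2]
    show h * D j * adjugate h = h * Q' * (Q * D j * Q') * (Q * adjugate h)
    simp only [mul_assoc]
    rw [← mul_assoc Q' Q, q3, one_mul, ← mul_assoc Q' Q, q3, one_mul]
  have hrel' : ∀ τ : (Fin g × Bool) ⊕ Fin s → Matrix (Fin r) (Fin r) ℂ, (∀ k, (τ k).det = 1) →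
      rel (fun M => M⁻¹) (fun k => τ (Sum.inl k)) = rel adjugate (fun k => τ (Sum.inl k)) := by
    intro τ hτ
    simp only [rel, cmList, cm, Matrix.inv_def, hτ, Ring.inverse_one, one_smul]
  -- the point
  have hex : ∀ j, ∃ h : Matrix (Fin r) (Fin r) ℂ, h.det = 1 ∧
      h * D j * adjugate h = σ (Sum.inr j) := by
    intro j
    obtain ⟨P, P', hP, he⟩ := hcl j
    obtain ⟨q1, q2⟩ := diag_perm (π j) (d j)
    set Q := (1 : Matrix (Fin r) (Fin r) ℂ).submatrix id (π j)
    set Q' := (1 : Matrix (Fin r) (Fin r) ℂ).submatrix (π j) id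
    have hK : P * Q * (Q' * P') = 1 := by
      rw [mul_assoc P, ← mul_assoc Q, q1, one_mul, hP]
    obtain ⟨h, h1, h2⟩ := exists_conj_one (by omega) hK (D j)
    refine ⟨h, h1, h2.trans ?_⟩
    rw [he, ← q2]
    simp only [mul_assoc]
    rfl
  choose h h1 h2 using hex
  let x : PT g s r ℂ := Sum.elim (fun k => σ (Sum.inl k)) h
  have hpun : ∀ j, pun D x j = σ (Sum.inr j) := h2
  have hx : IsX D x := by
    refine ⟨fun k => ?_, ?_⟩
    · cases k with
      | inl k => exact hdet _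
      | inr j => exact h1 j
    · rw [hrel' σ hdet] at hrel
      rw [relX, prodC, punList, funext hpun]
      exact hrel
  -- the pulled back polynomial
  let F : (Fin g × Bool) ⊕ Fin s → PT g s r ℂ → Matrix (Fin r) (Fin r) ℂ :=
    fun k y => Sum.elim (fun k => y (Sum.inl k)) (fun j => pun D y j) k
  have hF : ∀ k, PolyMat (F k) := fun k => by
    cases k with
    | inl k => exact polyMat_proj _
    | inr j => exact polyMat_pun j
  choose T hT using hF
  have hev : ∀ y, MvPolynomial.eval (xcoord y)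
      (MvPolynomial.bind₁ (fun v => T v.1 v.2.1 v.2.2) f) =
      MvPolynomial.eval (fun v => F v.1 y v.2.1 v.2.2) f := by
    intro y
    change MvPolynomial.eval₂Hom (RingHom.id ℂ) (xcoord y) _ = MvPolynomial.eval₂Hom _ _ f
    rw [MvPolynomial.eval₂Hom_bind₁]
    congr 2
    funext v
    exact congrFun (congrFun (hT v.1 y) v.2.1) v.2.2
  have hFx : ∀ k, F k x = σ k := fun k => by
    cases k with
    | inl k => rfl
    | inr j => exact hpun j
  have hin : InX D O x := by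
    rcases hσ with hs | hc
    · refine inX_of_semisimple hset hx fun U hU => ?_
      obtain ⟨V, hV, hUV⟩ := hs U fun k v hv => by
        cases k with
        | inl k => simpa [allT, x] using hU (Fin.castAdd s k.1, k.2) v hv
        | inr j => simpa [allT, hpun] using hU (Fin.natAdd g j, false) v hv
      refine ⟨V, fun ⟨m, b⟩ v hv => ?_, hUV⟩
      refine Fin.addCases (fun i => ?_) (fun j => ?_) m
      · simpa [allT, x] using hV (Sum.inl (i, b)) v hv
      · simpa [allT, hpun] using hV (Sum.inr j) v hv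
    · refine inX_of_schurX hset hx fun c hc1 hc2 => hc c fun k => ?_
      cases k with
      | inl k => exact hc1 k
      | inr j => rw [← hpun j]; exact hc2 j
  have := hin (MvPolynomial.bind₁ (fun v => T v.1 v.2.1 v.2.2) f) fun y hy => by
    rw [hev]
    have hdy : ∀ k, (F k y).det = 1 := fun k => by
      cases k with
      | inl k => exact hy.1.1 _
      | inr j => exact det_pun hDd hy.1.1 j
    refine hf (fun k => F k y) (fun k a b => ?_) hdy
      (fun j => hcls j _ (mul_adj_cancel (hy.1.1 _)).1) ?_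
    · refine mem_MatR.1 ?_ a b
      cases k with
      | inl k => exact hy.2 _
      | inr j =>
        exact mul_mem (mul_mem (hy.2 _) (hset.memD j)) (adjugate_mem_MatR (hy.2 _))
    · rw [hrel' (fun k => F k y) hdy]
      exact hy.1.2
  rw [hev] at this
  simpa [hFx] using this

end Vale.Agent.P002.Sb
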