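import Vale.Agent.P002.Sb.Family

/-!
# P002: the punctured variety near a point with scalar commutant
-/

namespace Vale.Agent.P002.Sb

open Matrix Filter Topology
open scoped Matrix.Norms.Operator

set_option backward.isDefEq.respectTransparency false

variable {r g s : ℕ} {D : Fin s → Matrix (Fin r) (Fin r) ℂ}

/-- Only scalars commute with all the handles and all the punctures. -/
def IsSchurX (D : Fin s → Matrix (Fin r) (Fin r) ℂ) (x : PT g s r ℂ) : Prop :=
  ∀ c, (∀ k, c * x (Sum.inl k) = x (Sum.inl k) * c) → (∀ j, c * pun D x j = pun D x j * c) →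
    ∃ z : ℂ, c = z • (1 : Matrix (Fin r) (Fin r) ℂ)

/-- The linearised relation in logarithmic coordinates. -/
noncomputable def RV (D : Fin s → Matrix (Fin r) (Fin r) ℂ) (x Y : PT g s r ℂ) :
    Matrix (Fin r) (Fin r) ℂ :=
  (∑ i : Fin g, pre i.1 (hd x) * cmVar (x (Sum.inl (i, false))) (x (Sum.inl (i, true)))
      (Y (Sum.inl (i, false))) (Y (Sum.inl (i, true))) * adjugate (pre i.1 (hd x))) +
    rel adjugate (hd x) * (∑ j : Fin s, cpre D j.1 x *
      (Y (Sum.inr j) - pun D x j * Y (Sum.inr j) * adjugate (pun D x j)) *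
        adjugate (cpre D j.1 x)) * adjugate (rel adjugate (hd x))

theorem dif_relX_gen (hD : ∀ j, (D j).det = 1) {x : PT g s r ℂ} {γ : ℂ → PT g s r ℂ}
    {Y : PT g s r ℂ} (hγ : DifX γ x Y) :
    Dif (fun t => relX D (γ t)) (relX D x) (RV D x Y) := by
  have h1 := dif_prod
    (γ := fun (i : Fin g) t => cm adjugate (hd (γ t) (i, false)) (hd (γ t) (i, true)))
    (x := fun i => cm adjugate (hd x (i, false)) (hd x (i, true)))
    (Y := fun i => cmVar (x (Sum.inl (i, false))) (x (Sum.inl (i, true)))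
      (Y (Sum.inl (i, false))) (Y (Sum.inl (i, true))))
    fun i => (hγ (Sum.inl (i, false))).cm_gen (hγ (Sum.inl (i, true)))
  have h2 := dif_prod (γ := fun j t => pun D (γ t) j) (x := pun D x)
    (Y := fun j => Y (Sum.inr j) - pun D x j * Y (Sum.inr j) * adjugate (pun D x j)) fun j => by
    have hh := hγ (Sum.inr j)
    obtain ⟨e1, e2⟩ := mul_adj_cancel hh.det
    have := (hh.mul (Dif.const (hD j))).mul hh.adj
    simp only [pun, mul_zero, zero_mul, add_zero, sub_eq_add_neg, mul_neg, neg_mul,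
      adjugate_mul_distrib, adjugate_adjugate_of_det hh.det, mul_assoc] at this ⊢
    exact this
  exact h1.mul h2

theorem pre_g (σ : Tup g r ℂ) : pre g σ = rel adjugate σ := by
  unfold pre rel
  rw [List.take_of_length_le (by simp [cmList])]

theorem det_relX (hD : ∀ j, (D j).det = 1) {x : PT g s r ℂ} (hx : ∀ k, (x k).det = 1) :
    (relX D x).det = 1 := by
  rw [relX, det_mul, det_rel (σ := hd x) fun k => hx (Sum.inl k), one_mul]
  exact det_list_prod _ fun M hM => by
    obtain ⟨k, rfl⟩ := List.mem_ofFn.1 hM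
    exact det_pun hD hx k

/-- The logarithmic coordinates of a vector. -/
noncomputable def logv (x v : PT g s r ℂ) : PT g s r ℂ := fun k => v k * adjugate (x k)

theorem fderiv_RequX_fst {x : PT g s r ℂ} (hx : IsX D x) (v : PT g s r ℂ) :
    (fderiv ℂ (RequX D) x v).1 = fun k => trace (adjugate (x k) * v k) := by
  have h0 : x = (fun t : ℂ => x + t • v) 0 := by
    show x = x + (0 : ℂ) • v
    rw [zero_smul, add_zero]
  have hR := ((contDiff_RequX D).differentiable one_ne_zero
    x).hasFDerivAt.comp_hasDerivAt_of_eq (0 : ℂ) (hasDerivAt_line x v) h0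
  funext k
  exact (hasDerivAt_pi.1 hR.fst k).unique
    (hasDerivAt_det (γ := fun t : ℂ => x k + t • v k) (by simp) (hx.1 k) (hasDerivAt_line _ _))

theorem fderiv_RequX_snd (hD : ∀ j, (D j).det = 1) {x : PT g s r ℂ} (hx : IsX D x)
    {v : PT g s r ℂ} (hv : ∀ k, trace (adjugate (x k) * v k) = 0) :
    (fderiv ℂ (RequX D) x v).2 = RV D x (logv x v) ∧ trace (RV D x (logv x v)) = 0 := by
  have h0 : x = (fun t : ℂ => x + t • v) 0 := by
    show x = x + (0 : ℂ) • v
    rw [zero_smul, add_zero]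
  have hR := ((contDiff_RequX D).differentiable one_ne_zero
    x).hasFDerivAt.comp_hasDerivAt_of_eq (0 : ℂ) (hasDerivAt_line x v) h0
  have hd' : DifX (fun t : ℂ => x + t • v) x (logv x v) := fun k =>
    ⟨by simp, hx.1 k, by rw [logv, trace_mul_comm]; exact hv k,
      (hasDerivAt_line (x k) (v k)).congr_deriv (by
        rw [logv, mul_assoc, (mul_adj_cancel (hx.1 k)).2, mul_one])⟩
  have h1 := dif_relX_gen hD hd'
  have hR2 : HasDerivAt (fun t : ℂ => relX D (x + t • v)) (fderiv ℂ (RequX D) x v).2 0 :=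
    (ContinuousLinearMap.snd ℂ (Slot g s → ℂ)
      (Matrix (Fin r) (Fin r) ℂ)).hasFDerivAt.comp_hasDerivAt (0 : ℂ) hR
  refine ⟨?_, h1.tr⟩
  rw [hR2.unique h1.der, hx.2, mul_one]

theorem RV_handle {x : PT g s r ℂ} (i : Fin g) (u v : Matrix (Fin r) (Fin r) ℂ) :
    RV D x (Pi.single (Sum.inl (i, false)) u + Pi.single (Sum.inl (i, true)) v) =
      pre i.1 (hd x) * cmVar (x (Sum.inl (i, false))) (x (Sum.inl (i, true))) u v *
        adjugate (pre i.1 (hd x)) := by
  rw [RV, Finset.sum_eq_single i (fun k _ hk => by simp [cmVar, Pi.single_apply, hk])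
    (fun h => absurd (Finset.mem_univ i) h)]
  simp

theorem RV_puncture {x : PT g s r ℂ} (j : Fin s) (u : Matrix (Fin r) (Fin r) ℂ) :
    RV D x (Pi.single (Sum.inr j) u) = rel adjugate (hd x) * (cpre D j.1 x *
      (u - pun D x j * u * adjugate (pun D x j)) * adjugate (cpre D j.1 x)) *
        adjugate (rel adjugate (hd x)) := by
  have e : (∑ i : Fin s, cpre D i.1 x *
      ((Pi.single (Sum.inr j) u : PT g s r ℂ) (Sum.inr i) -
        pun D x i * (Pi.single (Sum.inr j) u : PT g s r ℂ) (Sum.inr i) * adjugate (pun D x i)) *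
        adjugate (cpre D i.1 x)) = cpre D j.1 x *
      (u - pun D x j * u * adjugate (pun D x j)) * adjugate (cpre D j.1 x) := by
    rw [Finset.sum_eq_single j (fun k _ hk => by simp [Pi.single_apply, hk])
      (fun h => absurd (Finset.mem_univ j) h)]
    simp
  rw [RV, e]
  simp [cmVar]

theorem cpre_succ (x : PT g s r ℂ) (j : Fin s) :
    cpre D (j.1 + 1) x = cpre D j.1 x * pun D x j := by
  have hj : j.1 < (punList D x).length := by simp [punList]
  unfold cpre
  rw [List.prod_take_succ _ _ hj]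
  simp [punList]

/-- A functional killing all the variations is in the commutant. -/
theorem comm_of_annX (hr : r ≠ 0) (hD : ∀ j, (D j).det = 1) {x : PT g s r ℂ}
    (hx : ∀ k, (x k).det = 1) {u : Matrix (Fin r) (Fin r) ℂ}
    (h : ∀ Y : PT g s r ℂ, (∀ k, trace (Y k) = 0) → trace (u * RV D x Y) = 0) :
    (∀ k, u * x (Sum.inl k) = x (Sum.inl k) * u) ∧ ∀ j, u * pun D x j = pun D x j * u := by
  have hσ : ∀ k, (hd x k).det = 1 := fun k => hx _
  have hc : ∀ i : Fin g, i.1 < g → ∀ c, Commute u (hd x (i, c)) := by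
    refine comm_of_ann hσ g fun i _ Ya Yb ha hb => ?_
    have := h (Pi.single (Sum.inl (i, false)) Ya + Pi.single (Sum.inl (i, true)) Yb) fun k => by
      simp only [Pi.add_apply, trace_add, Pi.single_apply]
      split_ifs <;> simp [ha, hb]
    rwa [RV_handle] at this
  have hrel : Commute u (rel adjugate (hd x)) := by
    refine Commute.list_prod_right _ _ fun M hM => ?_
    obtain ⟨i, rfl⟩ := List.mem_ofFn.1 hM
    exact ((((hc i i.2 false).mul_right (hc i i.2 true)).mul_right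
      (commute_adj (hσ _) (hc i i.2 false))).mul_right (commute_adj (hσ _) (hc i i.2 true)))
  have step : ∀ j : Fin s, Commute u (cpre D j.1 x) → Commute u (pun D x j) := by
    intro j hj
    have hP : Commute u (rel adjugate (hd x) * cpre D j.1 x) := hrel.mul_right hj
    set P := rel adjugate (hd x) * cpre D j.1 x with hPdef
    set c := pun D x j
    have hdP : P.det = 1 := by rw [hPdef, det_mul, det_rel hσ, det_cpre hD hx, one_mul]
    obtain ⟨p1, p2⟩ := mul_adj_cancel hdP
    have hdc : c.det = 1 := det_pun hD hx j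
    obtain ⟨c1, c2⟩ := mul_adj_cancel hdc
    have hu : ∀ X, trace (u * (P * X * adjugate P)) = trace (u * X) := fun X => by
      rw [← mul_assoc, ← mul_assoc, trace_mul_comm, ← mul_assoc, ← mul_assoc,
        ← (commute_adj hdP hP).eq, mul_assoc u, p2, mul_one]
    obtain ⟨z, hz⟩ := eq_zero_of_trace_mul (u := u - adjugate c * u * c) fun Y hY => by
      have := h (Pi.single (Sum.inr j) Y) fun k => by
        simp only [Pi.single_apply]
        split_ifs <;> simp [hY]
      rw [RV_puncture, show rel adjugate (hd x) * (cpre D j.1 x * (Y - c * Y * adjugate c) *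
        adjugate (cpre D j.1 x)) * adjugate (rel adjugate (hd x)) =
        P * (Y - c * Y * adjugate c) * adjugate P by
          simp only [P, adjugate_mul_distrib, mul_assoc], hu, mul_sub, trace_sub,
        ← mul_assoc u, trace_mul_comm _ (adjugate c)] at this
      rw [sub_mul, trace_sub]
      simpa only [mul_assoc] using this
    have ht := congrArg trace hz
    rw [trace_sub, (trace_conj hdc u).2, sub_self, trace_smul, trace_one, Fintype.card_fin,
      smul_eq_mul] at ht
    rw [(mul_eq_zero.1 ht.symm).resolve_right (Nat.cast_ne_zero.2 hr), zero_smul, sub_eq_zero] at hz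
    show u * c = c * u
    calc u * c = c * (adjugate c * u * c) := by rw [← mul_assoc, ← mul_assoc, c1, one_mul]
      _ = c * u := by rw [← hz]
  have hall : ∀ n, n ≤ s → Commute u (cpre D n x) := by
    intro n
    induction n with
    | zero => intro _; simp [cpre]
    | succ n ih =>
      intro hn
      have hj := ih (by omega)
      rw [show n + 1 = ((⟨n, by omega⟩ : Fin s) : ℕ) + 1 from rfl, cpre_succ]
      exact hj.mul_right (step ⟨n, by omega⟩ hj)
  exact ⟨fun k => (hc k.1 k.1.2 k.2).eq, fun j => (step j (hall j j.2.le)).eq⟩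

/-- The equations, with a scalar slack in the relation. -/
noncomputable def SeqX (D : Fin s → Matrix (Fin r) (Fin r) ℂ) (p : PT g s r ℂ × ℂ) :
    (Slot g s → ℂ) × Matrix (Fin r) (Fin r) ℂ :=
  ((RequX D p.1).1, (1 + p.2) • (RequX D p.1).2)

theorem contDiff_SeqX : ContDiff ℂ 1 (SeqX (g := g) D) := by
  have h := (contDiff_RequX (g := g) D).comp (contDiff_fst (F := ℂ))
  exact h.fst.prodMk ((contDiff_const.add contDiff_snd).smul h.snd)

theorem fderiv_SeqX {x : PT g s r ℂ} (hx : IsX D x) (v : PT g s r ℂ) (t : ℂ) :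
    fderiv ℂ (SeqX D) (x, (0 : ℂ)) (v, t) =
      ((fderiv ℂ (RequX D) x v).1, (fderiv ℂ (RequX D) x v).2 + t • 1) := by
  have hR : HasFDerivAt (fun p : PT g s r ℂ × ℂ => RequX D p.1)
      ((fderiv ℂ (RequX D) x).comp (ContinuousLinearMap.fst ℂ _ _)) (x, (0 : ℂ)) :=
    (show HasFDerivAt (RequX D) (fderiv ℂ (RequX D) x) (Prod.fst (x, (0 : ℂ))) from
      ((contDiff_RequX D).differentiable one_ne_zero x).hasFDerivAt).comp
      (x, (0 : ℂ)) (hasFDerivAt_fst (p := (x, (0 : ℂ))))
  have hS := hR.fst.prodMk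
    (((hasFDerivAt_snd (𝕜 := ℂ) (p := (x, (0 : ℂ)))).const_add (1 : ℂ)).smul hR.snd)
  rw [show fderiv ℂ (SeqX D) (x, (0 : ℂ)) = _ from HasFDerivAt.fderiv (f := SeqX D) hS]
  have e : (RequX D x).2 = 1 := hx.2
  simp only [Prod.snd, add_zero, one_smul, e]
  rfl

theorem fderiv_SeqX_surjective (hr : r ≠ 0) (hD : ∀ j, (D j).det = 1) {x : PT g s r ℂ}
    (hx : IsX D x) (hS : IsSchurX D x) :
    (fderiv ℂ (SeqX D) (x, (0 : ℂ))).range = ⊤ := by
  rw [LinearMap.range_eq_top]
  intro ⟨τ, M⟩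
  let v0 : PT g s r ℂ := fun k => (τ k / r) • x k
  have hv0 : ∀ k, trace (adjugate (x k) * v0 k) = τ k := fun k => by
    rw [Matrix.mul_smul, (mul_adj_cancel (hx.1 k)).2, trace_smul, trace_one, Fintype.card_fin,
      smul_eq_mul, div_mul_cancel₀ _ (Nat.cast_ne_zero.2 hr)]
  let K : Submodule ℂ (Matrix (Fin r) (Fin r) ℂ) :=
    { carrier := {m | ∃ v, ∃ t : ℂ, (∀ k, trace (adjugate (x k) * v k) = 0) ∧
        m = (fderiv ℂ (RequX D) x v).2 + t • 1}
      zero_mem' := ⟨0, 0, fun k => by simp, by simp⟩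
      add_mem' := by
        rintro m n ⟨v, t, hv, rfl⟩ ⟨w, q, hw, rfl⟩
        exact ⟨v + w, t + q, fun k => by simp [mul_add, hv, hw], by
          simp [map_add, add_smul]; abel⟩
      smul_mem' := by
        rintro z m ⟨v, t, hv, rfl⟩
        exact ⟨z • v, z * t, fun k => by simp [hv], by simp [map_smul, smul_add, smul_smul]⟩ }
  have hK : K = ⊤ := by
    by_contra hne
    obtain ⟨u, hu0, hu⟩ := exists_matrix_functional hne
    obtain ⟨hu1, hu2⟩ := comm_of_annX hr hD hx.1 (u := u) fun Y hY => by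
      refine hu _ ⟨fun k => Y k * x k, 0, fun k => ?_, ?_⟩
      · rw [← mul_assoc, (trace_conj (hx.1 k) _).2, hY]
      · have ht : ∀ k, trace (adjugate (x k) * (Y k * x k)) = 0 := fun k => by
          rw [← mul_assoc, (trace_conj (hx.1 k) _).2, hY]
        rw [(fderiv_RequX_snd hD hx ht).1, zero_smul, add_zero]
        congr 1
        funext k
        show _ = Y k * x k * adjugate (x k)
        rw [mul_assoc, (mul_adj_cancel (hx.1 k)).1, mul_one]
    obtain ⟨z, hz⟩ := hS u hu1 hu2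
    have h1 := hu 1 ⟨0, 1, fun k => by simp, by simp⟩
    rw [hz, mul_one, trace_smul, trace_one, Fintype.card_fin, smul_eq_mul] at h1
    rcases mul_eq_zero.1 h1 with h2 | h2
    · exact hu0 (by rw [hz, h2, zero_smul])
    · exact Nat.cast_ne_zero.2 hr h2
  obtain ⟨v, t, hv, hM⟩ : M - (fderiv ℂ (RequX D) x v0).2 ∈ K := by rw [hK]; trivial
  refine ⟨(v0 + v, t), ?_⟩
  show fderiv ℂ (SeqX D) (x, (0 : ℂ)) (v0 + v, t) = _
  rw [fderiv_SeqX hx]
  refine Prod.ext ?_ ?_
  · show (fderiv ℂ (RequX D) x (v0 + v)).1 = τ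
    rw [fderiv_RequX_fst hx]
    funext k
    rw [Pi.add_apply, mul_add, trace_add, hv0, hv, add_zero]
  · show (fderiv ℂ (RequX D) x (v0 + v)).2 + t • 1 = M
    rw [map_add, Prod.snd_add, add_assoc, ← hM]
    abel

theorem isX_of_SeqX (hD : ∀ j, (D j).det = 1) {p : PT g s r ℂ × ℂ}
    (h : SeqX D p = (fun _ => 1, 1)) (hs : (1 + p.2) ^ r = 1 → p.2 = 0) : IsX D p.1 := by
  have h1 : ∀ k, (p.1 k).det = 1 := fun k => congrFun (congrArg Prod.fst h) k
  have h2 : (1 + p.2) • relX D p.1 = 1 := congrArg Prod.snd h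
  have h3 := congrArg Matrix.det h2
  rw [det_smul, det_relX hD h1, mul_one, det_one, Fintype.card_fin] at h3
  rw [hs h3, add_zero, one_smul] at h2
  exact ⟨h1, h2⟩

/-- The tangent space. -/
noncomputable def TanX (D : Fin s → Matrix (Fin r) (Fin r) ℂ) (x : PT g s r ℂ) :
    Submodule ℂ (PT g s r ℂ) :=
  LinearMap.ker (fderiv ℂ (RequX D) x).toLinearMap

theorem tanX_spec (hD : ∀ j, (D j).det = 1) {x : PT g s r ℂ} (hx : IsX D x) {v : PT g s r ℂ}
    (hv : v ∈ TanX D x) :
    (∀ k, trace (adjugate (x k) * v k) = 0) ∧ RV D x (logv x v) = 0 := by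
  have hv' : fderiv ℂ (RequX D) x v = 0 := hv
  have h1 := congrArg Prod.fst hv'
  rw [fderiv_RequX_fst hx] at h1
  have ht : ∀ k, trace (adjugate (x k) * v k) = 0 := fun k => congrFun h1 k
  refine ⟨ht, ?_⟩
  rw [← (fderiv_RequX_snd hD hx ht).1, hv']
  rfl

theorem finrank_TanX (hr : r ≠ 0) (hD : ∀ j, (D j).det = 1) {x : PT g s r ℂ} (hx : IsX D x)
    (hS : IsSchurX D x) :
    (2 * g + s) * (r * r) + 1 ≤ Module.finrank ℂ (TanX D x) + ((2 * g + s) + r * r) := by
  set Dl := (fderiv ℂ (SeqX D) (x, (0 : ℂ))).toLinearMap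
  have h1 := LinearMap.finrank_range_add_finrank_ker Dl
  rw [show LinearMap.range Dl = ⊤ from fderiv_SeqX_surjective hr hD hx hS, finrank_top] at h1
  have h2 : ∀ p ∈ LinearMap.ker Dl, p.2 = 0 ∧ p.1 ∈ TanX D x := by
    rintro ⟨v, t⟩ hp
    have hp' : fderiv ℂ (SeqX D) (x, (0 : ℂ)) (v, t) = 0 := hp
    rw [fderiv_SeqX hx] at hp'
    have e1 : (fderiv ℂ (RequX D) x v).1 = 0 := congrArg Prod.fst hp'
    have e2 : (fderiv ℂ (RequX D) x v).2 + t • 1 = 0 := congrArg Prod.snd hp'
    have e1' := e1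
    rw [fderiv_RequX_fst hx] at e1'
    obtain ⟨f1, f2⟩ := fderiv_RequX_snd hD hx (v := v) (fun k => congrFun e1' k)
    have := congrArg trace e2
    rw [trace_add, f1, f2, zero_add, trace_smul, trace_one, Fintype.card_fin, trace_zero,
      smul_eq_mul] at this
    have ht : t = 0 := (mul_eq_zero.1 this).resolve_right (Nat.cast_ne_zero.2 hr)
    rw [ht, zero_smul, add_zero] at e2
    exact ⟨ht, Prod.ext e1 e2⟩
  let ι : LinearMap.ker Dl →ₗ[ℂ] TanX D x :=
    { toFun := fun p => ⟨p.1.1, (h2 p.1 p.2).2⟩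
      map_add' := fun p q => rfl
      map_smul' := fun z p => rfl }
  have h3 := LinearMap.finrank_le_finrank_of_injective (f := ι) (fun p q e => Subtype.ext
    (Prod.ext (congrArg Subtype.val e) ((h2 p.1 p.2).1.trans (h2 q.1 q.2).1.symm)))
  simp only [Module.finrank_prod, Module.finrank_pi_fintype, Module.finrank_matrix,
    Fintype.card_fin, Module.finrank_self, Finset.sum_const, Finset.card_univ, Fintype.card_prod,
    Fintype.card_sum, Fintype.card_bool, smul_eq_mul, mul_one] at h1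
  have e : (g * 2 + s) * (r * r) = (2 * g + s) * (r * r) := by ring
  omega

/-- Every tangent vector is the velocity of a curve in the variety. -/
theorem exists_curveX (hr : r ≠ 0) (hD : ∀ j, (D j).det = 1) {x : PT g s r ℂ} (hx : IsX D x)
    (hS : IsSchurX D x) {v : PT g s r ℂ} (hv : v ∈ TanX D x) :
    ∃ γ : ℂ → PT g s r ℂ, γ 0 = x ∧ HasDerivAt γ v 0 ∧ ∀ᶠ t in 𝓝 0, IsX D (γ t) := by
  have hfs : HasStrictFDerivAt (SeqX D) (fderiv ℂ (SeqX D) (x, (0 : ℂ))) (x, (0 : ℂ)) :=
    contDiff_SeqX.contDiffAt.hasStrictFDerivAt one_ne_zero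
  have hsur := fderiv_SeqX_surjective hr hD hx hS
  have hker := (fderiv ℂ (SeqX D) (x, (0 : ℂ))).ker_closedComplemented_of_finiteDimensional_range
  have hv' : ((v, 0) : PT g s r ℂ × ℂ) ∈ (fderiv ℂ (SeqX D) (x, (0 : ℂ))).ker := by
    show fderiv ℂ (SeqX D) (x, (0 : ℂ)) (v, 0) = 0
    rw [fderiv_SeqX hx, zero_smul, add_zero]
    exact hv
  set Dl := fderiv ℂ (SeqX D) (x, (0 : ℂ)) with hDl
  set ψ := hfs.implicitFunctionOfComplemented (SeqX D) Dl hsur hker (SeqX D (x, (0 : ℂ)))
  have hψ : HasStrictFDerivAt ψ Dl.ker.subtypeL 0 := hfs.to_implicitFunctionOfComplemented hsur hker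
  have hψ0 : ψ 0 = (x, (0 : ℂ)) := hfs.implicitFunctionOfComplemented_apply_image hsur hker
  have hl : HasDerivAt (fun t : ℂ => t • (⟨(v, 0), hv'⟩ : Dl.ker)) ⟨(v, 0), hv'⟩ 0 :=
    ((hasDerivAt_id (0 : ℂ)).smul_const (⟨(v, 0), hv'⟩ : Dl.ker)).congr_deriv (one_smul _ _)
  have hγ := hψ.hasFDerivAt.comp_hasDerivAt_of_eq (0 : ℂ) hl (zero_smul ℂ _).symm
  refine ⟨fun t => (ψ (t • ⟨(v, 0), hv'⟩)).1, ?_, ?_, ?_⟩
  · show (ψ ((0 : ℂ) • _)).1 = x
    rw [zero_smul, hψ0]
  · exact hγ.fst
  · have h0 : SeqX D (x, (0 : ℂ)) = (fun _ => 1, 1) := by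
      simp [SeqX, requX_eq hx]
    have ht : Tendsto (fun t : ℂ => (SeqX D (x, (0 : ℂ)), t • (⟨(v, 0), hv'⟩ : Dl.ker))) (𝓝 0)
        (𝓝 (SeqX D (x, (0 : ℂ)), 0)) := by
      refine tendsto_const_nhds.prodMk_nhds ?_
      have := hl.continuousAt.tendsto
      rwa [zero_smul] at this
    have h1 := ht.eventually (hfs.map_implicitFunctionOfComplemented_eq hsur hker)
    have h2 : Tendsto (fun t : ℂ => (ψ (t • ⟨(v, 0), hv'⟩)).2) (𝓝 0) (𝓝 0) := by
      have := ((ContinuousLinearMap.snd ℂ _ _).hasFDerivAt.comp_hasDerivAt (0 : ℂ)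
        hγ).continuousAt.tendsto
      have e : (ψ ((0 : ℂ) • (⟨(v, 0), hv'⟩ : Dl.ker))).2 = 0 := by rw [zero_smul, hψ0]
      exact Filter.Tendsto.mono_right this (le_of_eq (congrArg 𝓝 e))
    filter_upwards [h1, h2.eventually (eventually_slack_zero r hr)] with t ht1 ht2
    exact isX_of_SeqX hD (ht1.trans h0) ht2

end Vale.Agent.P002.Sb
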